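import Crest.Agent.N218.D6.Df2

/-!
# Row 218, block D6 (helper23): the algebra at level `m`
-/

set_option autoImplicit false
set_option linter.unusedSimpArgs false
set_option linter.unusedVariables false

open PowerSeries Finset

noncomputable section

namespace Crest.Agent.N218.Al

theorem fin_auxM {q n M ν : ℕ} (hM : n + ν + 7 ≤ M) {υ a g z w Y : S} (hυ : UO υ) (hw : w ∈ OS)
    (hY : N L q * Y = 1)
    (h : t ^ (n + 1) * υ * N L q * a = t ^ (n + ν + 5) * υ * g + t ^ M * z + t * N L q ^ 2 * w) :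
    ∃ s, Ng q (s - t ^ 4 * (Y * g)) ∧ ∃ c ∈ OS, a = t ^ ν * s + N L q * c := by
  obtain ⟨j, rfl⟩ := Nat.exists_eq_add_of_le hM
  obtain ⟨-, τ, hτ, e⟩ := hυ
  obtain ⟨w', e'⟩ : ∃ w', w' = Y ^ 2 * (υ * N L q * a - t ^ (ν + 4) * υ * g -
    t ^ (ν + 6 + j) * z) := ⟨_, rfl⟩
  have k : t ^ n * w' = w := mul_left_cancel₀ t_ne (by
    rw [e']; linear_combination Y ^ 2 * h + t * w * (N L q * Y + 1) * hY)
  refine ⟨t ^ 4 * (Y * g) + t ^ 6 * (t ^ j * τ * Y * z), ⟨t ^ j * τ * Y * z, 0, OS.zero_mem, by ring⟩,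
    τ * w', OS.mul_mem hτ (shift_mem (k ▸ hw)), ?_⟩
  rw [e']
  linear_combination (-τ * (υ * N L q * a - t ^ (ν + 4) * υ * g - t ^ (ν + 6 + j) * z) * Y -
    τ * υ * a) * hY + (t ^ (ν + 4) * Y * g - a) * e

theorem d6M {ι J J' : Type*} [Fintype ι] [Fintype J] [Fintype J'] {q M ν : ℕ} {k : ι → ℕ}
    {a a' b b' : J → ℤ} {f f' : J' → ℤ}
    (hk : Odq q k) (h0 : q ≠ 0) (hq : 2 ∣ q) (ha : ∑ j, a j = ∑ j, b j)
    (ha' : ∑ j, a' j = ∑ j, b' j) {n : ℤ}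
    (hn : ∑ j, b j * b' j - ∑ j, a j * a' j = 8 * (2 * n + 1))
    (hM : Fintype.card ι * Fintype.card J + Fintype.card ι * Fintype.card J' + ν + 10 ≤ M)
    {x κ κ0 κw d p1 p2 p3 : DD}
    (hx : x ∈ OD) (hκ0 : κ0 ∈ OD) (hp : p3 ∈ OD) (uκ : UO (cp 0 κ)) (uw : UO (cp 0 κw))
    (h1 : x * (1 - sc L ^ q) = κ * eu (sc L) e1 e2 k a a' - κ0 * eu (sc L) e1 e2 k b b' +
      sc t ^ M * p1)
    (h2 : eu (sc L) e1 e2 k a a' * eu (sc L) e1 e2 k f f' * d =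
      sc t ^ (ν + 7) * x * κw * eu (sc L) e1 e2 k f f' + sc t ^ M * p2 + (1 - sc L ^ q) * p3) :
    ∃ s : Fin 4 → S, (Hs q (s 3) ∧ Zs q (s 0) ∧ Zs q (s 1) ∧ Zs q (s 2)) ∧
      ∀ i, ∃ c ∈ OS, cp i d = t ^ ν * s i + N L q * c := by
  have un : ∀ i, UO (N L (k i)) := fun i => by
    obtain ⟨c, -, e⟩ := N_eq (k i)
    obtain ⟨m, hm⟩ := hk.1 i
    exact uo_of (N_mem L_mem _) (natCast_mem O2 m) (by rw [e, hm]; simp [cc_t, map_ofNat])
  choose y ym hy using fun i => (un i).2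
  have uυ : UO ((∏ i, N L (k i)) ^ Fintype.card J) :=
    (prod_induction _ UO (fun _ _ => UO.mul) uo_one fun i _ => un i).pow _
  have uυ' : UO ((∏ i, N L (k i)) ^ Fintype.card J') :=
    (prod_induction _ UO (fun _ _ => UO.mul) uo_one fun i _ => un i).pow _
  obtain ⟨Y, hY⟩ := N_inv h0
  obtain ⟨h, hh, hm, z, ez⟩ := s2_val hk hy hY n
  have eE := eu_eq k a a' hy
  have eW := eu_eq k b b' hy
  have eF := eu_eq k f f' hy
  have m1 : ∑ i, L ^ k i * y i ∈ OS := OS.sum_mem fun i _ => OS.mul_mem (OS.pow_mem L_mem _) (ym i)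
  have m2 : ∑ i, L ^ k i * y i ^ 2 ∈ OS :=
    OS.sum_mem fun i _ => OS.mul_mem (OS.pow_mem L_mem _) (OS.pow_mem (ym i) 2)
  have hn' : ((∑ j, b j * b' j : ℤ) : S) - (∑ j, a j * a' j : ℤ) = 8 * (2 * n + 1) := by
    exact_mod_cast congrArg (Int.cast : ℤ → S) hn
  rw [ha, ha'] at eE
  have mA := OS.mul_mem m2 (intCast_mem OS (∑ j, a j * a' j))
  have mB := OS.mul_mem m2 (intCast_mem OS (∑ j, b j * b' j))
  have m3 := OS.mul_mem m1 (intCast_mem OS (∑ j, b j))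
  have m4 := OS.mul_mem m1 (intCast_mem OS (∑ j, b' j))
  have m5 := EE_mem (OS.neg_mem (OS.mul_mem m1 (intCast_mem OS (∑ j, f j))))
    (OS.neg_mem (OS.mul_mem m1 (intCast_mem OS (∑ j, f' j))))
    (OS.neg_mem (OS.mul_mem m2 (intCast_mem OS (∑ j, f j * f' j))))
  generalize (∑ i, L ^ k i * y i ^ 2) * ((∑ j, f j * f' j : ℤ) : S) = sF at eF m5
  generalize (∑ i, L ^ k i * y i) * ((∑ j, f j : ℤ) : S) = s3 at eF m5
  generalize (∑ i, L ^ k i * y i) * ((∑ j, f' j : ℤ) : S) = s4 at eF m5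
  generalize (∏ i, N L (k i)) ^ Fintype.card J' = υ' at *
  generalize Fintype.card ι * Fintype.card J' = c' at *
  generalize eu (sc L) e1 e2 k f f' = B' at *
  have hd : (∑ i, L ^ k i * y i ^ 2) * (∑ j, b j * b' j : ℤ) + -((∑ i, L ^ k i * y i ^ 2) *
    (∑ j, a j * a' j : ℤ)) = (∑ i, L ^ k i * y i ^ 2) * (8 * (2 * n + 1)) := by rw [← hn']; ring
  generalize (∑ i, L ^ k i * y i ^ 2) * (8 * (2 * n + 1)) = δ at *
  generalize (∑ i, L ^ k i * y i ^ 2) * ((∑ j, a j * a' j : ℤ) : S) = sA at *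
  generalize (∑ i, L ^ k i * y i ^ 2) * ((∑ j, b j * b' j : ℤ) : S) = sB at *
  generalize (∑ i, L ^ k i * y i) * ((∑ j, b j : ℤ) : S) = s1 at *
  generalize (∑ i, L ^ k i * y i) * ((∑ j, b' j : ℤ) : S) = s2 at *
  generalize (∏ i, N L (k i)) ^ Fintype.card J = υ at *
  generalize Fintype.card ι * Fintype.card J = c at *
  generalize eu (sc L) e1 e2 k a a' = A at *
  generalize eu (sc L) e1 e2 k b b' = B at *
  have z0 : EE 0 0 0 = sc (t ^ 2) := by simp [EE]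
  have z1 : EE 0 0 δ = sc (t ^ 2) - sc δ * (e1 * e2) := by simp [EE, sub_eq_add_neg]
  have fA : A * EE (-s1) (-s2) (-sA) = sc (t ^ c * υ) * sc (t ^ 2) := sc_can (by
    rw [← mul_assoc, eE, mul_assoc, EE_mul]; simp only [add_neg_cancel, z0]; ring)
  have fB : B * EE (-s1) (-s2) (-sB) = sc (t ^ c * υ) * sc (t ^ 2) := sc_can (by
    rw [← mul_assoc, eW, mul_assoc, EE_mul]; simp only [add_neg_cancel, z0]; ring)
  have fC : B * EE (-s1) (-s2) (-sA) = sc (t ^ c * υ) * (sc (t ^ 2) - sc δ * (e1 * e2)) := sc_can (by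
    rw [← mul_assoc, eW, mul_assoc, EE_mul]; simp only [add_neg_cancel, hd, z1]; ring)
  have fF : B' * EE (-s3) (-s4) (-sF) = sc (t ^ c' * υ') * sc (t ^ 2) := sc_can (by
    rw [← mul_assoc, eF, mul_assoc, EE_mul]; simp only [add_neg_cancel, z0]; ring)
  have mF := OD.mul_mem hp (OD.mul_mem (EE_mem (OS.neg_mem m3) (OS.neg_mem m4) (OS.neg_mem mA)) m5)
  have a0 : cp 0 A = t ^ c * υ := mul_right_cancel₀ (pow_ne_zero 2 t_ne) (by
    simpa [EE, -map_pow] using congrArg (cp 0) fA)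
  have b0 : cp 0 B = t ^ c * υ := mul_right_cancel₀ (pow_ne_zero 2 t_ne) (by
    simpa [EE, -map_pow] using congrArg (cp 0) fB)
  generalize EE (-s1) (-s2) (-sA) = FA at *
  generalize EE (-s3) (-s4) (-sF) = FB at *
  have eN : 1 - sc L ^ q = sc t * sc (N L q) := by rw [← map_mul, t_N]; simp
  rw [eN] at h1 h2
  have u0 : UO (cp 0 κ0) := by
    have k0 := congrArg (cp 0) h1
    simp only [← map_pow, map_add, map_sub, cp0_mul, cp0_sc, a0, b0] at k0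
    obtain ⟨j, rfl⟩ : ∃ j, M = c + (j + 1) := ⟨M - c - 1, by omega⟩
    obtain ⟨x', ex⟩ : ∃ x', x' = Y * (υ * (cp 0 κ - cp 0 κ0) + t ^ (j + 1) * cp 0 p1) := ⟨_, rfl⟩
    have mx : x' ∈ OS := shift_mem (n := c) (by
      convert OS.mul_mem t_mem (hx 0) using 1
      rw [ex]; linear_combination -Y * k0 + t * cp 0 x * hY)
    obtain ⟨-, τ, hτ, eτ⟩ := uυ
    obtain ⟨m, hm, em⟩ := uκ.odd
    obtain ⟨q', rfl⟩ := hq
    obtain ⟨w, -, ew⟩ := N_eq (2 * q')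
    have : cp 0 κ0 = cp 0 κ - τ * N L (2 * q') * x' + τ * t ^ (j + 1) * cp 0 p1 := by
      rw [ex]; linear_combination (τ * (υ * (cp 0 κ - cp 0 κ0) + t ^ (j + 1) * cp 0 p1)) * hY +
        (cp 0 κ - cp 0 κ0) * eτ
    refine uo_of (hκ0 0) (O2.sub_mem hm (O2.mul_mem (O2.mul_mem (cc_mem hτ) (natCast_mem O2 q'))
      (cc_mem mx))) ?_
    rw [this, ew]; simp [cc_t, em, map_ofNat]; ring
  have main' : ∀ i, ∃ s, Ng q (s - t ^ 4 * (Y * cp i (κw * ((κ - κ0) * sc (t ^ 2) +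
      κ0 * (sc δ * (e1 * e2)))))) ∧ ∃ c ∈ OS, cp i d = t ^ ν * s + N L q * c := fun i => by
    refine fin_auxM (n := c + c' + 3) (M := M) (by omega) (uυ.mul uυ') (mF i) hY
      (z := cp i (sc t ^ (ν + 8) * sc (t ^ c' * υ') * κw * p1 * FA + sc (N L q) * p2 * FA * FB)) ?_
    rw [← cp_sc, ← cp_sc, ← cp_sc, ← cp_sc, ← map_add, ← map_add]
    congr 1
    simp only [map_mul, map_pow] at *
    generalize sc t = T at *
    generalize sc (N L q) = Q at *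
    generalize sc υ = U at *
    generalize sc υ' = U' at *
    linear_combination Q * FA * FB * h2 - Q * d * B' * FB * fA - Q * d * T ^ c * U * T ^ 2 * fF +
      Q * T ^ (ν + 7) * x * κw * FA * fF + T ^ (ν + 8) * T ^ c' * U' * κw * FA * h1 +
      T ^ (ν + 8) * T ^ c' * U' * κw * κ * fA - T ^ (ν + 8) * T ^ c' * U' * κw * κ0 * fC
  choose s main rest using main'
  have low : ∀ {s g : S}, Ng q (s - t ^ 4 * (Y * (g * t ^ 2))) → Zs q s := fun {s g} h => by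
    have := (h.add (s' := t ^ 4 * (Y * (g * t ^ 2))) ⟨Y * g, 0, OS.zero_mem, by ring⟩).zs
    rwa [sub_add_cancel] at this
  refine ⟨s, ⟨?_, low (g := cp 0 (κw * (κ - κ0))) ?_, low (g := cp 1 (κw * (κ - κ0))) ?_,
    low (g := cp 2 (κw * (κ - κ0))) ?_⟩, rest⟩
  · have : Hs q (t ^ 4 * h) := ⟨h, hh, hm, 0, 0, OS.zero_mem, by simp⟩
    convert (this.mul (uw.mul u0)).add ((main 3).add ⟨Y * cp 3 (κw * (κ - κ0)) +
      cp 0 κw * cp 0 κ0 * z, 0, OS.zero_mem, rfl⟩).zs using 1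
    simp [-map_pow, -map_mul]
    linear_combination t ^ 4 * cp 0 κw * cp 0 κ0 * ez
  · convert main 0 using 4; simp [-map_pow, -map_mul]; ring
  · convert main 1 using 4; simp [-map_pow, -map_mul]; ring
  · convert main 2 using 4; simp [-map_pow, -map_mul]; ring

/-- division by `t ^ ν` -/
theorem hs_div {q ν : ℕ} (h0 : q ≠ 0) {a s c : S} (hs : Hs q s) (hc : c ∈ OS)
    (e : t ^ ν * a = t ^ ν * s + N L q * c) : Hs q a := by
  obtain ⟨Y, hY⟩ := N_inv h0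
  have k : t ^ ν * (Y * (a - s)) = c := by linear_combination Y * e + c * hY
  have n : Ng q (a - s) := ⟨0, _, shift_mem (k ▸ hc), by linear_combination (s - a) * hY⟩
  simpa using hs.add n.zs

theorem Lf.uo {K : Type*} [CommRing K] {l : K} {M q : ℕ} (h : Pz (Int.castRingHom K) l M q)
    (hM : M ≠ 0) {y : K} (u : IsUnit y) {s : S} (k : Lf l y s) : UO s := by
  obtain ⟨y', e⟩ := u.exists_right_inv
  obtain ⟨s', k'⟩ := h.lf y'
  obtain ⟨b, -, c, -, f⟩ := Lf.uniq h (k.mul k') (e ▸ lf_one l)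
  obtain ⟨m, hm, o⟩ := odd_of_mul (cc_mem k.mem) (cc_mem k'.mem) (by
    simpa [cc_L, cc_t, hM] using congrArg constantCoeff f)
  exact uo_of k.mem hm o

/-- the span of `1, η₁, η₂, η₁ η₂` -/
def sp4 {C C₀ : Type*} [CommRing C] [CommRing C₀] (j : C₀ →+* C) {η₁ η₂ : C} (h₁ : η₁ ^ 2 = 0)
    (h₂ : η₂ ^ 2 = 0) : Subring C where
  carrier := {y | ∃ a₀ a₁ a₂ a₃, y = j a₀ + j a₁ * η₁ + j a₂ * η₂ + j a₃ * (η₁ * η₂)}
  mul_mem' := by
    rintro _ _ ⟨a₀, a₁, a₂, a₃, rfl⟩ ⟨b₀, b₁, b₂, b₃, rfl⟩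
    refine ⟨a₀ * b₀, a₀ * b₁ + a₁ * b₀, a₀ * b₂ + a₂ * b₀,
      a₀ * b₃ + a₁ * b₂ + a₂ * b₁ + a₃ * b₀, ?_⟩
    simp only [map_add, map_mul]
    linear_combination (j a₁ * j b₁ + (j a₁ * j b₃ + j a₃ * j b₁) * η₂ + j a₃ * j b₃ * η₂ ^ 2) * h₁ +
      (j a₂ * j b₂ + (j a₂ * j b₃ + j a₃ * j b₂) * η₁) * h₂
  add_mem' := by
    rintro _ _ ⟨a₀, a₁, a₂, a₃, rfl⟩ ⟨b₀, b₁, b₂, b₃, rfl⟩
    exact ⟨a₀ + b₀, a₁ + b₁, a₂ + b₂, a₃ + b₃, by simp only [map_add]; ring⟩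
  one_mem' := ⟨1, 0, 0, 0, by simp⟩
  zero_mem' := ⟨0, 0, 0, 0, by simp⟩
  neg_mem' := by
    rintro _ ⟨a₀, a₁, a₂, a₃, rfl⟩
    exact ⟨-a₀, -a₁, -a₂, -a₃, by simp only [map_neg]; ring⟩

theorem fin_ser {q ν : ℕ} (h0 : q ≠ 0) (hq : 256 ∣ q) {y w u : DD} (mυ : y ∈ OD) (mw : w ∈ OD)
    {μ₀ μ₁ μ₂ μ₃ a b β γ : S} (f₀ : μ₀ ∈ OS) (f₁ : μ₁ ∈ OS) (f₂ : μ₂ ∈ OS) (u₃ : UO μ₃)
    (uV : UO (cp 0 y)) (ub : UO b) {s c : Fin 4 → S} (r3 : Hs q (s 3)) (r0 : Zs q (s 0))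
    (r1 : Zs q (s 1)) (r2 : Zs q (s 2)) (mc : ∀ i, c i ∈ OS) (mγ : γ ∈ OS)
    (e : t ^ ν * (a * b) = t ^ ν * (cp 0 y * μ₃ * s 3 +
      ((cp 0 y * μ₀ + cp 1 y * μ₁ + cp 2 y * μ₂ + cp 3 y * μ₃) * s 0 +
        (cp 0 y * μ₁ + cp 2 y * μ₃) * s 1 + (cp 0 y * μ₂ + cp 1 y * μ₃) * s 2) +
      t ^ 7 * (β - cp 0 u * μ₀ - cp 1 u * μ₁ - cp 2 u * μ₂ - cp 3 u * μ₃)) +
      N L q * (t * γ + (cp 0 y * c 0 - t * cp 0 w) * μ₀ +
        (cp 0 y * c 1 + cp 1 y * c 0 - t * cp 1 w) * μ₁ +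
        (cp 0 y * c 2 + cp 2 y * c 0 - t * cp 2 w) * μ₂ +
        (cp 0 y * c 3 + cp 1 y * c 2 + cp 2 y * c 1 + cp 3 y * c 0 - t * cp 3 w) * μ₃)) :
    ph (r ^ 7 * a) - 1 / 2 ∈ O2 := by
  have f₃ := u₃.1
  have A := @OS.add_mem
  have M := @OS.mul_mem
  have B := @OS.sub_mem
  have z7 : ∀ b : S, Zs q (t ^ 7 * b) := fun b => Ng.zs ⟨t * b, 0, OS.zero_mem, by ring⟩
  have hs : Hs q (a * b) := hs_div h0 (((r3.mul (uV.mul u₃)).add
    (((r0.mul (A (A (A (M (mυ 0) f₀) (M (mυ 1) f₁)) (M (mυ 2) f₂)) (M (mυ 3) f₃))).add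
      (r1.mul (A (M (mυ 0) f₁) (M (mυ 2) f₃)))).add
      (r2.mul (A (M (mυ 0) f₂) (M (mυ 1) f₃))))).add (z7 _))
    (A (A (A (A (M t_mem mγ) (M (B (M (mυ 0) (mc 0)) (M t_mem (mw 0))) f₀))
      (M (B (A (M (mυ 0) (mc 1)) (M (mυ 1) (mc 0))) (M t_mem (mw 1))) f₁))
      (M (B (A (M (mυ 0) (mc 2)) (M (mυ 2) (mc 0))) (M t_mem (mw 2))) f₂))
      (M (B (A (A (A (M (mυ 0) (mc 3)) (M (mυ 1) (mc 2))) (M (mυ 2) (mc 1))) (M (mυ 3) (mc 0)))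
        (M t_mem (mw 3))) f₃)) e
  obtain ⟨mb, τ, mτ, eτ⟩ := ub
  have h7 : Hs q a := by
    convert hs.mul (a := τ) ⟨mτ, _, mb, by rw [mul_comm, eτ]⟩ using 1
    linear_combination -a * eτ
  exact (h7.mul (uo_r.pow 7)).ph hq

end Crest.Agent.N218.Al

namespace Crest.Agent.N218.D6
open Al

theorem lfa {A : Type} [CommRing A] (l : A) (p : Polynomial ℤ) :
    Lf l (Polynomial.aeval l p) (K.iS p) :=
  ⟨p, by rw [Polynomial.aeval_def]; rfl, by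
    rw [K.iS, Polynomial.aeval_def, Subsingleton.elim (algebraMap ℤ S) (Int.castRingHom S)]⟩

set_option maxHeartbeats 1000000 in
theorem algm : ALGM := by
  intro R₁ R A B C C₀ ι J _ _ _ _ _ _ _ _ q M m k a a' b b' l₁ i l₂ iA l π ρ l₀ j n x κ κ0 κw d υ Λ
    a₇ w p₁ p₂ n₁ n₂ pA pB pC p₀ hj hk h0 hq ha ha' hn hm hM uκ uw h1 h2 uυ hΛ uΛ uw' hd
  obtain ⟨ν, rfl⟩ : ∃ ν, m = ν + 7 := ⟨m - 7, by omega⟩
  rw [Nat.add_sub_cancel] at hd
  have z₁ : ρ (π (iA (i l₁ - 1))) ^ 2 = 0 := by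
    rw [← map_pow, ← map_pow, ← map_pow, ← map_one i, ← map_sub, ← map_pow, ← neg_sub, neg_sq, n₁]
    simp
  have z₂ : ρ (π (iA (l₂ - 1))) ^ 2 = 0 := by
    rw [← map_pow, ← map_pow, ← map_pow, ← neg_sub, neg_sq, n₂]; simp
  obtain ⟨a₀, a₁, a₂, a₃, dec⟩ : υ * ρ d ∈ sp4 j z₁ z₂ :=
    pC.mem (sp4 j z₁ z₂) (RingHom.id C) (fun y => p₂.mem (sp4 j z₁ z₂) (ρ.comp (π.comp iA)) (fun y =>
      p₁.mem (sp4 j z₁ z₂) ((ρ.comp (π.comp iA)).comp i) (fun n => by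
        simp only [eq_intCast, map_intCast]; exact intCast_mem _ n) ⟨1, 1, 0, 0, by simp⟩ y)
      ⟨1, 0, 1, 0, by simp⟩ y) ⟨l₀, 0, 0, 0, by simp [hj]⟩ _
  have hL : Λ (υ * ρ d) = a₀ * Λ 1 + a₁ * Λ (ρ (π (iA (i l₁ - 1)))) +
      a₂ * Λ (ρ (π (iA (l₂ - 1)))) + a₃ * Λ (ρ (π (iA (i l₁ - 1))) * ρ (π (iA (l₂ - 1)))) := by
    rw [dec, map_add, map_add, map_add, hΛ, hΛ, hΛ, ← hΛ a₀, mul_one]
  obtain ⟨g₁, -, g1⟩ := p₁.lift (Int.castRingHom DD) (1 + e1) (by apply ext4 <;> simp [pow_two])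
    (pow_zero _)
  obtain ⟨g, g2, g3⟩ := p₂.lift g₁ (1 + e2) (by apply ext4 <;> simp [pow_two]) (pow_zero _)
  have mg : ∀ y, g y ∈ Al.OD := p₂.mem Al.OD g (fun y => g2 y ▸ p₁.mem Al.OD g₁ (fun n => by
    simp only [eq_intCast, map_intCast]; exact intCast_mem Al.OD n)
    (g1 ▸ Al.OD.add_mem Al.OD.one_mem e1_mem) y) (g3 ▸ Al.OD.add_mem Al.OD.one_mem e2_mem)
  have s1 : g (i l₁ - 1) = e1 := by rw [map_sub, g2, g1, map_one, add_sub_cancel_left]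
  have s2 : g (l₂ - 1) = e2 := by rw [map_sub, g3, map_one, add_sub_cancel_left]
  generalize i l₁ - 1 = η₁ at *
  generalize l₂ - 1 = η₂ at *
  have mv := ev_mem Al.OD mg (sc_mem L_mem)
  have tT : 1 - sc L = sc t := by simp [L]
  let V := Polynomial.eval₂RingHom g (sc L)
  let vA := Polynomial.eval₂RingHom iA l
  let vB := Polynomial.eval₂RingHom (π.comp iA) (π l)
  let vC := Polynomial.eval₂RingHom (ρ.comp (π.comp iA)) (ρ (π l))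
  have AB : ∀ p, π (vA p) = vB p := fun p => Polynomial.hom_eval₂ _ _ _ _
  have BC : ∀ p, ρ (vB p) = vC p := fun p => Polynomial.hom_eval₂ _ _ _ _
  have dA : ∀ {p p'}, vA p = vA p' → ∃ u, V p = V p' + sc t ^ M * u := fun h =>
    let ⟨u, _, e⟩ := pA.diff g (sc L) h
    ⟨_, by rw [tT, pow_zero, sub_self, zero_mul, add_zero] at e; exact e⟩
  have dB : ∀ {p p'}, vB p = vB p' → ∃ u, ∃ w ∈ Al.OD,
      V p = V p' + (1 - sc L) ^ M * u + (1 - sc L ^ q) * w :=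
    fun h => let ⟨_, w, e⟩ := pB.diff g (sc L) h; ⟨_, _, mv w, e⟩
  have sA : Function.Surjective vA := pA.1
  have sB : Function.Surjective vB := pB.1
  have sC : Function.Surjective vC := pC.1
  obtain ⟨x, rfl⟩ := sA x
  obtain ⟨κ, rfl⟩ := sA κ
  obtain ⟨κ0, rfl⟩ := sA κ0
  obtain ⟨κw, rfl⟩ := sB κw
  obtain ⟨d, rfl⟩ := sB d
  obtain ⟨υ, rfl⟩ := sC υ
  have un : ∀ p, IsUnit (vB p) → UO (cp 0 (V p)) := fun p h => by
    obtain ⟨y, e⟩ := h.exists_right_inv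
    obtain ⟨y, rfl⟩ := sB y
    obtain ⟨u, w, -, e⟩ := dB (p := p * y) (p' := 1) (by rw [map_mul, e, map_one])
    rw [map_mul, map_one] at e
    exact lf_uo (mv p) (mv y) (by omega) e
  have uV : UO (cp 0 (V υ)) := by
    obtain ⟨y, e⟩ := uυ.exists_right_inv
    obtain ⟨y, rfl⟩ := sC y
    obtain ⟨u, w, e⟩ := pC.diff g (sc L) (p := υ * y) (p' := 1)
      (show vC _ = vC _ by rw [map_mul, e, map_one])
    change V _ = V _ + _ * V u + _ * V w at e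
    rw [map_mul, map_one] at e
    exact lf_uo (mv υ) (mv y) (by omega) e
  have aE : ∀ a a' : J → ℤ, eu l (iA η₁) (iA η₂) k a a' =
      vA (eu Polynomial.X (Polynomial.C η₁) (Polynomial.C η₂) k a a') := fun a a' => by
    simp [map_eu, vA]
  have vE : ∀ a a' : J → ℤ, V (eu Polynomial.X (Polynomial.C η₁) (Polynomial.C η₂) k a a') =
      eu (sc L) e1 e2 k a a' := fun a a' => by simp [map_eu, V, s1, s2]
  rw [aE, aE] at h1 h2
  have xA : l = vA Polynomial.X := by simp [vA]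
  have xV : V Polynomial.X = sc L := by simp [V]
  obtain ⟨u1, k1⟩ := dA (p := x * (1 - Polynomial.X ^ q)) (p' := κ * _ - κ0 * _) (by
    simpa only [map_mul, map_sub, map_one, map_pow, ← xA] using h1)
  obtain ⟨u2, u3, m3, k2⟩ := dB (p := _ * _ * d)
    (p' := (1 - Polynomial.X) ^ (ν + 7) * x * κw * _) (by
      simpa only [map_mul, map_sub, map_one, map_pow, ← AB Polynomial.X, ← xA, AB] using h2)
  simp only [map_mul, map_sub, map_one, map_pow, xV, vE, tT] at k1 k2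
  obtain ⟨s, ⟨r3, r0, r1, r2⟩, rest⟩ := d6M hk h0 ((by norm_num : 2 ∣ 256).trans hq) ha ha' hn
    (by omega) (mv x) (mv κ0) m3 (un κ (AB κ ▸ uκ)) (un κw uw) k1 k2
  choose c mc ec using rest
  obtain ⟨c₀, rfl⟩ := p₀.1 a₀
  obtain ⟨c₁, rfl⟩ := p₀.1 a₁
  obtain ⟨c₂, rfl⟩ := p₀.1 a₂
  obtain ⟨c₃, rfl⟩ := p₀.1 a₃
  have jv : ∀ c : Polynomial ℤ, j (c.eval₂ (Int.castRingHom C₀) l₀) =
      vC (c.map (Int.castRingHom R)) := fun c => by
    rw [Polynomial.hom_eval₂, hj, Polynomial.coe_eval₂RingHom, Polynomial.eval₂_map]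
    exact congrArg (Polynomial.eval₂ · _ c) (Subsingleton.elim _ _)
  have Vv : ∀ c : Polynomial ℤ, V (c.map (Int.castRingHom R)) =
      sc (c.eval₂ (Int.castRingHom S) L) := fun c => by
    rw [Polynomial.hom_eval₂, Polynomial.coe_eval₂RingHom, Polynomial.eval₂_map]
    exact congrArg (Polynomial.eval₂ · _ c) (Subsingleton.elim _ _)
  have cC : ∀ η, ρ (π (iA η)) = vC (Polynomial.C η) := fun η => by simp [vC]
  have cV : ∀ η, V (Polynomial.C η) = g η := fun η => by simp [V]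
  simp only [jv, cC, BC, ← map_mul, ← map_add] at dec
  obtain ⟨u, w', e⟩ := pC.diff g (sc L) dec
  change V _ = V _ + _ * V u + _ * V w' at e
  simp only [map_add, map_mul, Vv, cV, s1, s2, tT, ← map_pow, ← map_one sc, ← map_sub] at e
  rw [show 1 - L = t by simp [L], ← t_N] at e
  have e0 := congrArg (cp 0) e
  have e1' := congrArg (cp 1) e
  have e2' := congrArg (cp 2) e
  have e3 := congrArg (cp 3) e
  simp only [map_add, cp_sc, cp0_sc, cp1_sc, cp2_sc, cp3_sc, cp0_mul, cp1_mul, cp2_mul, cp3_mul,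
    cp0_e1, cp1_e1, cp2_e1, cp3_e1, cp0_e2, cp1_e2, cp2_e2, cp3_e2, ec] at e0 e1' e2' e3
  obtain ⟨μ₀, f₀⟩ := p₀.lf (Λ 1)
  obtain ⟨μ₁, f₁⟩ := p₀.lf (Λ (ρ (π (iA η₁))))
  obtain ⟨μ₂, f₂⟩ := p₀.lf (Λ (ρ (π (iA η₂))))
  obtain ⟨μ₃, f₃⟩ := p₀.lf (Λ (ρ (π (iA η₁)) * ρ (π (iA η₂))))
  have u₃ := f₃.uo p₀ (by omega) uΛ
  have uw₃ := (lfa l₀ w).uo p₀ (by omega) uw'
  have lf : ∀ c : Polynomial ℤ, Lf l₀ (c.eval₂ (Int.castRingHom C₀) l₀)
    (c.eval₂ (Int.castRingHom S) L) := fun c => ⟨c, rfl, rfl⟩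
  obtain ⟨β, -, γ, mγ, fin⟩ := Lf.uniq p₀ (hd ▸ lfa l₀ _) (hL ▸ ((((lf c₀).mul f₀).add
    ((lf c₁).mul f₁)).add ((lf c₂).mul f₂)).add ((lf c₃).mul f₃))
  have iX : K.iS (1 - Polynomial.X) = t := by simp [K.iS, L]
  rw [map_mul, map_mul, map_pow, iX, ← t_N] at fin
  have mυ := mv υ
  have mw := mv w'
  change V υ ∈ _ at mυ
  change V w' ∈ _ at mw
  generalize V υ = y at *
  generalize V w' = w'' at *
  generalize V u = u' at *
  generalize c₀.eval₂ (Int.castRingHom S) L = α₀ at *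
  generalize c₁.eval₂ (Int.castRingHom S) L = α₁ at *
  generalize c₂.eval₂ (Int.castRingHom S) L = α₂ at *
  generalize c₃.eval₂ (Int.castRingHom S) L = α₃ at *
  exact fin_ser (ν := ν) (u := u') (β := β) h0 hq mυ mw f₀.mem f₁.mem f₂.mem u₃ uV uw₃ r3 r0 r1 r2 mc mγ
    (by linear_combination fin - μ₀ * e0 - μ₁ * e1' - μ₂ * e2' - μ₃ * e3)

end Crest.Agent.N218.D6

end
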