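import Crest.Agent.N218.D6.Df2
import Crest.Agent.N218.K.Fin0
import Crest.Agent.N218.K.Denl
import Crest.Agent.N218.In.Gen

/-! Row 218, block D6 (helper80): `FINB`. -/

set_option autoImplicit false

open Polynomial Module

noncomputable section

namespace Crest.Agent.N218.D6
open K

namespace Fb
variable {Γ : Type} [Group Γ] [Fintype Γ] [TopologicalSpace Γ] [DiscreteTopology Γ]
  {χ : Γ →* Circle} {X V : Rep Γ} {P : PB X.ls V}

/-- raising the level -/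
theorem lev (hi : Function.Injective χ) (cX : Cx X.ls.xr) (cV : Cx V.ls) {r : ℕ} (hr : 0 < r)
    {lS lT} (tS : (Sb _ _).Th lS) (tT : (Sb _ _).Th lT) {a : ℤ[X]}
    (h : Dg χ (cc χ) r P lT ((Sb _ _).sm (ev χ (cc χ) r a) lS)) (j : ℕ) :
    ∀ lS' lT', (Sb _ _).Th lS' → (Sb _ _).Th lT' → ∃ w : ℤ[X], IsUnit (ev χ (cc χ) (r + j) w) ∧
      Dg χ (cc χ) (r + j) P lT'
        ((Sb _ _).sm (ev χ (cc χ) (r + j) ((1 - Polynomial.X) ^ j * a * w)) lS') := by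
  induction j with
  | zero =>
    intro lS' lT' a1 a2
    obtain ⟨u, u', e1, rfl, -⟩ := tT.unit a2
    obtain ⟨v, v', e2, -, rfl⟩ := tS.unit a1
    obtain ⟨w, e⟩ := (kln χ r hi hr).1 (u * v')
    obtain ⟨F, c, f⟩ := h
    refine ⟨w, e ▸ (IsUnit.of_mul_eq_one _ e1).mul (.of_mul_eq_one_right _ e2), F, c, ?_⟩
    rw [F.pull_sm, pull_id, f, Ex.sm_sm, Ex.sm_sm, pow_zero, one_mul, map_mul]
    exact congrArg ((Sb _ _).sm · lS') (by rw [mul_right_comm, ← e, mul_comm]; rfl)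
  | succ j ih =>
    intro lS' lT' a1 a2
    obtain ⟨l1, -, b1, -⟩ := cX.sp (cc χ) (r + j) Th.thom hi
    obtain ⟨l2, -, b2, -⟩ := (cx_tt χ (cc χ) (r + j) cV).sp (cc χ) (r + j) Th.thom hi
    obtain ⟨w, e, d⟩ := ih l1 l2 b1.th b2.th
    obtain ⟨u, e', d'⟩ := denl Th.thom kln χ (r + j) X V hi (by omega) cX cV l1 l2 lS' lT'
      b1.th b2.th a1 a2
    refine ⟨w * u, map_mul (ev χ (cc χ) (r + j + 1)) w u ▸
      (En.unit_up kln hi (by omega) e).mul e', ?_⟩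
    rw [show (1 - Polynomial.X) ^ (j + 1) * a * (w * u) =
      (1 - Polynomial.X) * ((1 - Polynomial.X) ^ j * a * w) * u by ring]
    exact d' P _ d
end Fb

theorem finb : FINB := by
  intro J hJ k m X V P lT lS c hk hm a cV p tT tS d h
  have g := In.gq hk
  have a' := In.Gn.adm_prod a (Rep.triv _ ℝ)
  have p' := In.Gn.fr_st p (Rep.triv _ ℝ)
  obtain ⟨s, e⟩ := J.stb _ X V (Rep.triv _ ℝ) g a
  obtain ⟨o⟩ := ((oex Th.thom _ _ _ g cV).2 a').1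
  obtain ⟨s', e'⟩ := hJ _ _ _ g a' cV o
  obtain ⟨F, f⟩ := Iv.cl (χ := In.ck k) (Nat.lt_of_succ_lt (Iv.dim a' (by norm_num))) p'
  obtain ⟨y, b⟩ := o.tS.ex (o.tT.1.hm F)
  obtain ⟨a₇, rfl⟩ := (kln _ 7 g.inj (by norm_num)).1 y
  obtain ⟨j, rfl⟩ := Nat.exists_eq_add_of_le hm
  obtain ⟨w, u, d'⟩ := Fb.lev g.inj ((cxa (In.ck k) _ _ cV).2.1 a') cV (by norm_num) o.tS o.tT ⟨F, f, b⟩ j
    lS lT tS tT
  rw [← Ex.one_sm _ lT] at d'
  have t := Iv.dg_un (by have := Iv.dim a' (show 5 ≤ 12 by norm_num); omega) d d'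
  rw [Ex.one_sm] at t
  have v := h a₇ w u (by rw [Nat.add_sub_cancel_left]; exact (tS.inj t).symm)
  have z := e' _ _ ⟨a₇, ⟨F, f, b⟩, rfl⟩
  rw [e P p, show ((Al.ph (Al.r ^ 7 * iS a₇) : ℚ) : QQ) = Sk.half from
    (QuotientAddGroup.eq_iff_sub_mem).2 v] at z
  have := In.Gn.pe_two s⁻¹ s' (show J.ν _ X V P = s⁻¹ • s • J.ν _ X V P from (inv_smul_smul _ _).symm) z
  exact this.elim id fun q => q.trans Sk.neg_half

end Crest.Agent.N218.D6
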