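import Crest.Agent.N218.D6.Df2
import Crest.Agent.N218.K.Kln

/-!
# Row 218, block D6 (helper94): the presentations
-/

set_option autoImplicit false

noncomputable section

namespace Crest.Agent.N218.D6

open K K.Cp Pm In

namespace Pr

theorem ca_surj : Function.Surjective ca := fun z => ⟨(1, z, 1), rfl⟩

theorem sts_a : StS Ya cb := fun y z =>
  ⟨(1, 1, z), Subtype.ext (funext fun i => one_mul (y.1 i)), rfl⟩

theorem sts_0 : StS Y0 c1 := fun y z =>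
  ⟨(z, 1, 1), Prod.ext (Subtype.ext (funext fun i => one_mul (y.1.1 i)))
    (Subtype.ext (funext fun i => one_mul (y.2.1 i))), rfl⟩

theorem k1z_0 : K1Z Y0.Q := k1Z_cp thom cb_ct 2 sts_a (k1Z_sp thom ca_ct 2 ca_surj)

theorem c1_pow {k : ℕ} (g : GT) : c1 g ^ 2 ^ (k + 1) = 1 ↔ g ∈ (ph k).range := by
  have h : c1 g ∈ (ck k).range ↔ c1 g ^ Fintype.card (Gk k) = 1 := by
    rw [range_eq_ker (Fo.inc_inj _)]; rfl
  rw [show Fintype.card (Gk k) = 2 ^ (k + 1) by simp] at h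
  exact h.symm.trans ⟨fun ⟨a, e⟩ => ⟨(a, g.2), Prod.ext e rfl⟩,
    fun ⟨a, e⟩ => ⟨a.1, congrArg Prod.fst e⟩⟩

end Pr

theorem pres : PRES :=
  ⟨(cp_sp ca_ct 2 Pr.ca_surj).1, (cp_sp ca_ct 2 Pr.ca_surj).2, cp_pz cb_ct 2 thom Pr.sts_a,
    cp_nil cb_ct 2 thom Pr.sts_a, fun M => cp_pz c1_ct M thom Pr.sts_0,
    fun k m => ln_pz' c1_ct (ph k) (ph_ct k) m Pr.sts_0 (by positivity) Pr.c1_pow Pr.k1z_0⟩

end Crest.Agent.N218.D6

end
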