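import Crest.Agent.N218.D6.Defs

/-!
# Row 218, block D6 (helper12): partial proper maps, units from paths
-/

set_option autoImplicit false
set_option linter.unusedVariables false

open unitInterval Topology Filter Set OnePoint

noncomputable section

namespace Crest.Agent.N218.D6.Uk

open K

open Classical in
/-- extension by `∞` -/
def pe {T B : Type} (O : Set T) (f : T → B) (t : T) : OnePoint B := if t ∈ O then f t else ∞

theorem pe_in {T B : Type} {O : Set T} (f : T → B) {t : T} (h : t ∈ O) : pe O f t = f t := if_pos h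
theorem pe_out {T B : Type} {O : Set T} (f : T → B) {t : T} (h : t ∉ O) : pe O f t = ∞ := if_neg h
theorem pe_eq {T B : Type} {O : Set T} {f : T → B} {t : T} {b : B} (h : pe O f t = b) :
    t ∈ O ∧ f t = b := by
  by_cases o : t ∈ O
  · exact ⟨o, coe_injective ((pe_in f o).symm.trans h)⟩
  · exact absurd ((pe_out f o).symm.trans h) (infty_ne_coe _)

theorem pe_ct {T B : Type} [TopologicalSpace T] [NormedAddCommGroup B] {O : Set T} {f : T → B}
    (hO : IsOpen O) (hf : ContinuousOn f O)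
    (h : ∀ R, ∃ S, IsClosed S ∧ S ⊆ O ∧ ∀ w ∈ O, ‖f w‖ ≤ R → w ∈ S) : Continuous (pe O f) := by
  refine continuous_def.2 fun U hU => ?_
  by_cases i : ∞ ∈ U
  · obtain ⟨c1, c2⟩ := (isOpen_iff_of_mem i).1 hU
    obtain ⟨R, hR⟩ := c2.isBounded.exists_norm_le
    obtain ⟨S, s1, s2, s3⟩ := h R
    rw [← isClosed_compl_iff]
    convert (hf.mono s2).preimage_isClosed_of_isClosed s1 c1 using 1
    ext w
    by_cases o : w ∈ O
    · simp only [mem_compl_iff, mem_preimage, pe_in f o, mem_inter_iff]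
      exact ⟨fun k => ⟨s3 w o (hR _ k), k⟩, fun k => k.2⟩
    · simp only [mem_compl_iff, mem_preimage, pe_out f o, mem_inter_iff]
      exact ⟨fun k => (k i).elim, fun k => (o (s2 k.1)).elim⟩
  · convert hf.isOpen_inter_preimage hO ((isOpen_iff_of_notMem i).1 hU) using 1
    ext w
    by_cases o : w ∈ O
    · simp only [mem_preimage, pe_in f o, mem_inter_iff]
      exact ⟨fun k => ⟨o, k⟩, fun k => k.2⟩
    · simp only [mem_preimage, pe_out f o, mem_inter_iff]
      exact ⟨fun k => (i k).elim, fun k => (o k.1).elim⟩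

variable {Γ : Type} [Group Γ] [TopologicalSpace Γ] [CompactSpace Γ] {Y : GS Γ} {M : LS Γ}
  {W : Rep Γ}

/-- **partial proper equivariant maps are pointed fibre maps** -/
theorem pm_pe {O : Set (Y.Z × M.Z)} {f : Y.Z × M.Z → W.W} (hO : IsOpen O) (hf : ContinuousOn f O)
    (inv : ∀ g, ∀ x ∈ O, (Y.act g x.1, M.act g x.2) ∈ O)
    (eq : ∀ g, ∀ x ∈ O, f (Y.act g x.1, M.act g x.2) = W.ρ g (f x))
    (cp : ∀ R, ∃ S, IsCompact S ∧ S ⊆ O ∧ ∀ w ∈ O, ‖f w‖ ≤ R → w ∈ S) :
    Pm Y M W.ls (pe (B := W.W) O f) := by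
  refine ⟨pe_ct (B := W.W) hO hf fun R => (cp R).imp fun S h => ⟨h.1.isClosed, h.2⟩, fun K k => ?_,
    fun g y w => ?_⟩
  · obtain ⟨R, hR⟩ := IsCompact.isBounded (α := W.W) k |>.exists_norm_le
    obtain ⟨S, s1, s2, s3⟩ := cp R
    refine ⟨Prod.snd '' S, s1.image continuous_snd, fun p w w' n e i => n ?_⟩
    obtain ⟨o, a⟩ := pe_eq e
    exact ⟨(p, w), s3 _ o (hR _ (a ▸ i)), rfl⟩
  · by_cases o : (y, w) ∈ O
    · exact ((pe_in f (inv g _ o)).trans (congrArg _ (eq g _ o))).trans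
        (congrArg (W.ls.sph.act g) (pe_in f o).symm)
    · refine (pe_out f fun i => o ?_).trans (congrArg (W.ls.sph.act g) (pe_out f o).symm)
      have := inv g⁻¹ _ i
      simp only at this
      rwa [← Y.mul, inv_mul_cancel, Y.one, M.inv_act] at this

/-- **a map joined to an isomorphism preserves Thom classes** -/
theorem th_path {N : LS Γ} {G : (IY Y).Z × M.Z → OnePoint N.Z} (h : Pm (IY Y) M N G) (A : M.Iso N)
    (e : ∀ y w, G ((1, y), w) = (A.e w : N.Z)) {F : H1 (Sb Y M) (Sb Y N)}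
    (r : Rg F fun x => G ((0, x.1), x.2)) {l : KS Y N} (hl : (Sb Y N).Th l) :
    (Sb Y M).Th (pull F.f l) := by
  rw [(h.ht r (F1 := A.h1 Y) fun y w => congrArg (pt Y N y) (e y w).symm).pull_eq]
  exact th_iso A (A.mp Y) hl

/-- scaling -/
def scl (W : Rep Γ) {c : ℝ} (hc : c ≠ 0) : W.ls.Iso W.ls :=
  ⟨Homeomorph.smulOfNeZero (α := W.W) c hc, fun g x => ((W.ρ g).map_smul c x).symm⟩

end Crest.Agent.N218.D6.Uk

end
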