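import Crest.Agent.N218.D6.Df2
import Crest.Agent.N218.D6.Uk

/-!
# Row 218, block D6 (helper12): the round trip on the even part has unit degree
-/

set_option autoImplicit false
set_option linter.unusedVariables false

open unitInterval Topology Filter Set OnePoint
open scoped InnerProductSpace ComplexConjugate

noncomputable section

namespace Crest.Agent.N218.D6

open K K.Cp Pm In Uk
open Sk (Cn S2 S3 X22 hfv Frm Sat)

namespace Un

variable {k n : ℕ}

theorem fo_fi (c : (Ev k × Fin n → ℂ) × (Od k × Fin n → ℂ)) : fo (fi c) = c := by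
  refine Prod.ext (funext fun p => ?_) (funext fun p => ?_) <;>
    simp only [fo, fi, ContinuousLinearEquiv.apply_symm_apply]
  · exact dif_pos p.1.2
  · exact dif_neg (Nat.not_even_iff_odd.2 p.1.2)

theorem fi_fo (y : V k (Fin n → ℂ)) : fi (fo y) = y := by
  rw [fi, ContinuousLinearEquiv.symm_apply_eq]
  funext p
  split_ifs <;> rfl

theorem fo_ct : Continuous (fo : V k (Fin n → ℂ) → _) :=
  (continuous_pi fun _ => (continuous_apply _).comp (Fo.co _ _).continuous).prodMk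
    (continuous_pi fun _ => (continuous_apply _).comp (Fo.co _ _).continuous)

theorem fi_ct : Continuous (fi : _ → V k (Fin n → ℂ)) :=
  (Fo.co _ _).symm.continuous.comp (continuous_pi fun p => by split_ifs <;> fun_prop)

theorem fo_smul (c : ℂ) (y : V k (Fin n → ℂ)) : fo (c • y) = c • fo y := by
  simp only [fo, _root_.map_smul]; rfl

theorem s3_ct : Continuous s3 :=
  Continuous.subtype_mk ((PiLp.continuous_toLp 2 _).comp continuous_subtype_val) _
theorem ys_ct : Continuous ys := (s3_ct.comp continuous_fst).prodMk (s3_ct.comp continuous_snd)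
theorem hfv_ct : Continuous hfv := by
  refine (PiLp.continuous_toLp 2 _).comp (continuous_pi fun i => ?_)
  fin_cases i <;> simp <;> fun_prop
theorem hp_ct : Continuous hp :=
  Continuous.subtype_mk (hfv_ct.comp (continuous_subtype_val.comp s3_ct)) _
theorem hx_ct : Continuous hx := (hp_ct.comp continuous_fst).prodMk (hp_ct.comp continuous_snd)

/-- the half turn -/
abbrev hf (k : ℕ) : Ix k := ((2 ^ k : ℕ) : Ix k)

theorem evn_iff (y : V k (Fin n → ℂ)) : Fo.sh (hf k) y = y ↔ (fo y).2 = 0 := by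
  have q : 2 ^ (k + 1) = 2 ^ k + 2 ^ k := by ring
  refine ⟨fun h => funext fun p => ?_, fun h => Fo.D_ext fun j => ?_⟩
  · have := Fo.D_sh (hf k) y p.1.1
    rw [h, Fo.ch_half q, p.1.2.neg_one_pow] at this
    have := congrFun this p.2
    change Fo.D _ _ y p.1.1 p.2 = 0
    simp only [Pi.smul_apply, smul_eq_mul] at this
    linear_combination (1 / 2 : ℂ) * this
  · rw [Fo.D_sh, Fo.ch_half q]
    rcases Nat.even_or_odd j.val with e | e
    · rw [e.neg_one_pow, one_smul]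
    · rw [show Fo.D _ _ y j = 0 from funext fun i => congrFun h (⟨j, e⟩, i), smul_zero]

/-- the action on `S³ × S³` -/
abbrev ac (g : GG k) (y : US 2 × US 2) : US 2 × US 2 := Y0.act (ph k g) y

theorem hp_act (t : Circle) (u u' : US 2) (h : ∀ i, u'.1 i = t * u.1 i) : hp u' = hp u := by
  have e : conj (u'.1 0) * u'.1 1 = conj (u.1 0) * u.1 1 := by
    rw [h, h, map_mul]; linear_combination (conj (u.1 0) * u.1 1) * circ_conj t
  have n : ∀ i, ‖u'.1 i‖ = ‖u.1 i‖ := fun i => by rw [h, norm_mul, Circle.norm_coe, one_mul]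
  refine Subtype.ext ?_
  simp only [hp, hfv, s3, e, n]

theorem hx_act (g : GG k) (y : US 2 × US 2) : hx (ac g y) = hx y :=
  Prod.ext (hp_act g.2.1 _ _ fun _ => rfl) (hp_act g.2.2 _ _ fun _ => rfl)

variable {E : Type} [NormedAddCommGroup E] [InnerProductSpace ℂ E] {π : X22 → E →L[ℂ] E}
  {a a' : Fin n → ℤ} {s : Fin n → S3 × S3 → E}

theorem up_dn (h : Frm π a a' s) (y : US 2 × US 2) (e : V k E) (i : Ix k) :
    up s y (dn s y e) i = π (hx y) (e i) := (h.sp (hx y) (ys y) rfl rfl _).symm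

theorem dn_up (h : Frm π a a' s) (y : US 2 × US 2) (c : V k (Fin n → ℂ)) :
    dn s y (up s y c) = c := by
  funext i j
  simp [dn, up, h.on]

theorem pi_up (h : Frm π a a' s) (y : US 2 × US 2) (c : V k (Fin n → ℂ)) (i : Ix k) :
    π (hx y) (up s y c i) = up s y c i := by rw [← up_dn h, dn_up h]

theorem up_ct (h : Frm π a a' s) :
    Continuous fun x : (US 2 × US 2) × V k (Fin n → ℂ) => up s x.1 x.2 :=
  continuous_pi fun i => continuous_finsetSum _ fun j _ =>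
    Continuous.smul (by fun_prop) ((h.ct j).comp (ys_ct.comp continuous_fst))

theorem dn_ct (h : Frm π a a' s) : Continuous fun x : (US 2 × US 2) × V k E => dn s x.1 x.2 :=
  continuous_pi fun i => continuous_pi fun j =>
    ((h.ct j).comp (ys_ct.comp continuous_fst)).inner (by fun_prop)

theorem co_act (h : Frm π a a' s) (g : GG k) (y : US 2 × US 2) (e : V k E) (j : Ix k) (l : Fin n) :
    Fo.co _ _ (dn s (ac g y) (Fo.sh g.1.toAdd e)) (j, l) =
      (wc j.val (a l) (a' l) (ph k g) : ℂ) * Fo.co _ _ (dn s y e) (j, l) := by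
  have c : ∀ (t : Circle) (z : ℤ), conj ((t : ℂ) ^ z) = (t : ℂ) ^ (-z) := fun t z => by
    rw [map_zpow₀, ← Circle.coe_inv_eq_conj, Circle.coe_inv, inv_zpow']
  have e1 : ∀ i, dn s (ac g y) (Fo.sh g.1.toAdd e) i l =
      ((g.2.1 : ℂ) ^ (-a l) * (g.2.2 : ℂ) ^ (-a' l)) * Fo.sh g.1.toAdd (dn s y e) i l := fun i => by
    simp only [dn, Fo.sh]
    rw [h.eq l (ys y) (ys (ac g y)) g.2.1 g.2.2 rfl rfl, inner_smul_left, map_mul, c, c]
  have e2 := congrFun (Fo.D_sh g.1.toAdd (dn s y e) j) l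
  have e3 : (wc j.val (a l) (a' l) (ph k g) : ℂ) =
      Fo.ch g.1.toAdd ^ j.val * ((g.2.1 : ℂ) ^ (-a l) * (g.2.2 : ℂ) ^ (-a' l)) := by
    simp only [wc, MonoidHom.mul_apply, MonoidHom.pow_apply, MonoidHom.zpow_apply, Circle.coe_mul,
      Circle.coe_pow, Circle.coe_zpow]
    rfl
  rw [Fo.co_apply, Fo.co_apply, e3, mul_comm (_ ^ j.val), mul_assoc, ← Fo.ch_mul]
  refine Eq.trans ?_ (congrArg (_ * ·) e2)
  simp only [Fo.D_apply, Finset.sum_apply, Pi.smul_apply, smul_eq_mul, e1, Finset.mul_sum]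
  exact Finset.sum_congr rfl fun i _ => by ring

theorem dn_act (h : Frm π a a' s) (g : GG k) (y : US 2 × US 2) (e : V k E) :
    fo (dn s (ac g y) (Fo.sh g.1.toAdd e)) =
      ((WE k a a').ρ (ph k g) (fo (dn s y e)).1, (WO k a a').ρ (ph k g) (fo (dn s y e)).2) :=
  Prod.ext (funext fun p => co_act h g y e p.1.1 p.2) (funext fun p => co_act h g y e p.1.1 p.2)

variable (s) in
/-- the even vector with coordinates `z` -/
def ze (y : US 2 × US 2) (z : Ev k × Fin n → ℂ) : V k E := up s y (fi (z, 0))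

theorem ze_act (h : Frm π a a' s) (g : GG k) (y : US 2 × US 2) (z : Ev k × Fin n → ℂ) :
    ze s (ac g y) ((WE k a a').ρ (ph k g) z) = Fo.sh g.1.toAdd (ze s y z) := by
  have e := dn_act h g y (ze s y z)
  rw [ze, dn_up h, fo_fi] at e
  have e' : _ = (((WE k a a').ρ (ph k g) z, 0) : (Ev k × Fin n → ℂ) × (Od k × Fin n → ℂ)) :=
    e.trans (Prod.ext rfl (map_zero ((WO k a a').ρ (ph k g))))
  funext i
  refine (congrArg (fun c => up s (ac g y) (fi c) i) e'.symm).trans ?_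
  simp only [fi_fo, up_dn h, hx_act]
  exact pi_up h y _ _

theorem ze_hf (y : US 2 × US 2) (z : Ev k × Fin n → ℂ) (i : Ix k) :
    ze s y z (i + hf k) = ze s y z i := by
  have := congrFun ((evn_iff (fi (z, 0))).2 (by rw [fo_fi])) i
  simp only [ze, up]
  rw [show fi (z, 0) (i + hf k) = fi (z, 0) i from this]

theorem ze_ct (h : Frm π a a' s) :
    Continuous fun x : (US 2 × US 2) × (Ev k × Fin n → ℂ) => ze s x.1 x.2 :=
  (up_ct h).comp (continuous_fst.prodMk (fi_ct.comp (continuous_snd.prodMk continuous_const)))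

theorem ze_fo (h : Frm π a a' s) (y : US 2 × US 2) {e : V k E} (p : ∀ i, π (hx y) (e i) = e i)
    (ev : ∀ i, e (i + hf k) = e i) : ze s y (fo (dn s y e)).1 = e := by
  have : (fo (dn s y e)).2 = 0 := (evn_iff _).1 (funext fun i => funext fun j => by
    simp only [Fo.sh, dn, ev])
  funext i
  rw [ze, ← this, Prod.mk.eta, fi_fo, up_dn h, p]

theorem fo_ze (h : Frm π a a' s) (y : US 2 × US 2) (z : Ev k × Fin n → ℂ) :
    (fo (dn s y (ze s y z))).1 = z := by rw [ze, dn_up h, fo_fi]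

theorem bdd {Y A B : Type} [TopologicalSpace Y] [CompactSpace Y] [NormedAddCommGroup A]
    [ProperSpace A] [NormedAddCommGroup B] {f : Y × A → B} (hf : Continuous f) (R : ℝ) :
    ∃ C, ∀ y a, ‖a‖ ≤ R → ‖f (y, a)‖ ≤ C := by
  obtain ⟨C, h⟩ := ((isCompact_univ.prod (isCompact_closedBall (0 : A) R)).image
    hf).isBounded.exists_norm_le
  exact ⟨C, fun y a r => h _ ⟨(y, a), ⟨trivial, mem_closedBall_zero_iff.2 r⟩, rfl⟩⟩

section path
variable {n₁ n₂ : ℕ} (D : Data X22 (Cn n₁) (Cn n₂)) (s₂ : Fin n → S3 × S3 → Cn n₂) {T : Type}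

/-- the argument of `h₂` -/
def w (x : (I × ((US 2 × US 2) × T)) × (Ev k × Fin n → ℂ)) (i : Ix k) : (X22 × ℝ) × Cn n₂ :=
  ((hx x.1.2.1, x.1.1), ze s₂ x.1.2.1 x.2 i)
/-- the domain of the path -/
def Oh : Set ((I × ((US 2 × US 2) × T)) × (Ev k × Fin n → ℂ)) := {x | ∀ i, w s₂ x i ∈ D.O₂}
/-- the path -/
def fh (x : (I × ((US 2 × US 2) × T)) × (Ev k × Fin n → ℂ)) : Ev k × Fin n → ℂ :=
  (fo (dn s₂ x.1.2.1 fun i => D.h₂ (w s₂ x i))).1

variable {D s₂} {c κ R₀ M : ℝ} {b b' : Fin n → ℤ} [TopologicalSpace T]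

theorem cw (f2 : Frm D.π₂ b b' s₂) (i : Ix k) :
    Continuous fun x : (I × ((US 2 × US 2) × T)) × (Ev k × Fin n → ℂ) => w s₂ x i := by
  have a : Continuous fun x : (I × ((US 2 × US 2) × T)) × (Ev k × Fin n → ℂ) => (x.1.2.1, x.2) :=
    continuous_fst.snd.fst.prodMk continuous_snd
  have b := continuous_pi_iff.1 ((ze_ct (k := k) f2).comp a) i
  exact ((hx_ct.comp continuous_fst.snd.fst).prodMk
    (continuous_subtype_val.comp continuous_fst.fst)).prodMk b

theorem cd (f2 : Frm D.π₂ b b' s₂) :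
    Continuous fun x : (US 2 × US 2) × V k (Cn n₂) => (fo (dn s₂ x.1 x.2)).1 :=
  (fo_ct.comp (dn_ct f2)).fst

theorem oh_op (h : D.Ok c κ R₀ M) (f2 : Frm D.π₂ b b' s₂) : IsOpen (Oh (k := k) (T := T) D s₂) := by
  rw [Oh, ofPred_forall]
  exact isOpen_iInter_of_finite fun i => h.o₂.preimage (cw f2 i)

theorem fh_ct (h : D.Ok c κ R₀ M) (f2 : Frm D.π₂ b b' s₂) :
    ContinuousOn (fh (k := k) (T := T) D s₂) (Oh D s₂) := by
  have a : ContinuousOn (fun x : (I × ((US 2 × US 2) × T)) × (Ev k × Fin n → ℂ) =>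
      (x.1.2.1, fun i => D.h₂ (w s₂ x i))) (Oh D s₂) := continuous_fst.snd.fst.continuousOn.prodMk
    (continuousOn_pi.2 fun i => h.c₂.comp (cw f2 i).continuousOn fun x o => o i)
  have b := (cd (k := k) f2).comp_continuousOn a
  exact b

theorem fh_cp [CompactSpace T] (h : D.Ok c κ R₀ M) (f2 : Frm D.π₂ b b' s₂) (R : ℝ) :
    ∃ S, IsCompact S ∧ S ⊆ Oh (k := k) (T := T) D s₂ ∧ ∀ x ∈ Oh D s₂, ‖fh D s₂ x‖ ≤ R → x ∈ S := by
  obtain ⟨C1, b1⟩ := bdd (ze_ct (k := k) f2) R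
  obtain ⟨C2, b2⟩ := bdd (cd (k := k) f2) (max (max R₀ C1) 1)
  refine ⟨(univ ×ˢ Metric.closedBall 0 C2) ∩ ⋂ i, (fun x => w s₂ x i) ⁻¹' {z ∈ D.O₂ |
    |z.1.2| ≤ max (max R₀ C1) 1 ∧ ‖D.h₂ z‖ ≤ max (max R₀ C1) 1 ∧ ‖z.2‖ ≤ max (max R₀ C1) 1},
    (isCompact_univ.prod (isCompact_closedBall _ _)).inter_right (isClosed_iInter fun i =>
      (h.k₂ _).isClosed.preimage (cw f2 i)), fun x o i => (mem_iInter.1 o.2 i).1, fun x o e => ?_⟩
  have e1 : ∀ i, ‖D.h₂ (w s₂ x i)‖ ≤ C1 := fun i => by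
    have := (norm_le_pi_norm _ i).trans (b1 x.1.2.1 _ e)
    have z := ze_fo f2 x.1.2.1 (e := fun i => D.h₂ (w s₂ x i)) (fun i => (h.q₂ _ _ _).2.2)
      fun i => by simp only [w, ze_hf]
    simp only [fh, z] at this
    exact this
  have e2 : ∀ i, ‖ze s₂ x.1.2.1 x.2 i‖ ≤ max (max R₀ C1) 1 := fun i => by
    refine le_trans ?_ (le_max_left _ _)
    have t := h.x₂ _ (o i)
    simp only [w, ze, pi_up f2] at t
    rcases le_total R₀ ‖ze s₂ x.1.2.1 x.2 i‖ with u | u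
    · refine le_max_of_le_right (le_trans ?_ ((t u).trans (e1 i)))
      exact le_mul_of_one_le_left (norm_nonneg _) (by linarith [h.hκ])
    · exact le_max_of_le_left u
  refine ⟨⟨trivial, mem_closedBall_zero_iff.2 ?_⟩, mem_iInter.2 fun i => ⟨o i, ?_,
    (e1 i).trans (le_max_of_le_left (le_max_right _ _)), e2 i⟩⟩
  · have := b2 x.1.2.1 _ ((pi_norm_le_iff_of_nonneg (by positivity)).2 e2)
    simp only [fo_ze f2] at this
    exact this
  · exact le_max_of_le_right ((abs_of_nonneg x.1.1.2.1).trans_le x.1.1.2.2)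

omit [TopologicalSpace T] in
theorem w_act (f2 : Frm D.π₂ b b' s₂) (g : GG k) (t : I) (y : US 2 × US 2) (u u' : T)
    (z : Ev k × Fin n → ℂ) (i : Ix k) :
    w s₂ ((t, (ac g y, u')), (WE k b b').ρ (ph k g) z) i = w s₂ ((t, (y, u)), z) (i + g.1.toAdd) :=
  Prod.ext (Prod.ext (hx_act g _) rfl) (congrFun (ze_act f2 g y z) i)

omit [TopologicalSpace T] in
theorem fh_act (f2 : Frm D.π₂ b b' s₂) (g : GG k) (t : I) (y : US 2 × US 2) (u u' : T)
    (z : Ev k × Fin n → ℂ) : fh D s₂ ((t, (ac g y, u')), (WE k b b').ρ (ph k g) z) =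
      (WE k b b').ρ (ph k g) (fh D s₂ ((t, (y, u)), z)) :=
  (congrArg (fun e => (fo (dn s₂ (ac g y) e)).1)
    (funext fun i => congrArg D.h₂ (w_act f2 g t y u u' z i))).trans
    (congrArg Prod.fst (dn_act f2 g y fun i => D.h₂ (w s₂ ((t, (y, u)), z) i)))

omit [TopologicalSpace T] in
theorem pe_one (h : D.Ok c κ R₀ M) (f2 : Frm D.π₂ b b' s₂) (y : (US 2 × US 2) × T)
    (z : Ev k × Fin n → ℂ) : pe (Oh D s₂) (fh D s₂) ((1, y), z) = OnePoint.some (D.μ • z) := by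
  have t := fun i => h.r₂ (hx y.1) 1 (ze s₂ y.1 z i) le_rfl
  have hw : ∀ i, w s₂ ((1, y), z) i = ((hx y.1, 1), ze s₂ y.1 z i) := fun _ => rfl
  have o : ((1, y), z) ∈ Oh D s₂ := fun i => by rw [hw]; exact (t i).1
  refine (pe_in _ o).trans (congrArg OnePoint.some ?_)
  have e : (dn s₂ y.1 fun i => D.h₂ (w s₂ ((1, y), z) i)) = (D.μ : ℂ) • fi (z, 0) := by
    rw [← dn_up f2 y.1 (fi (z, 0))]
    funext i j
    change ⟪_, D.h₂ ((hx y.1, 1), ze s₂ y.1 z i)⟫_ℂ = D.μ * ⟪_, ze s₂ y.1 z i⟫_ℂ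
    rw [(t i).2, ze, pi_up f2, ← Complex.coe_smul, inner_smul_right]
  rw [fh, e, fo_smul, fo_fi]; rfl

omit [TopologicalSpace T] in
theorem pe_zero (h : D.Ok c κ R₀ M) (S : Sat D) {a a' : Fin n → ℤ} {s₁ : Fin n → S3 × S3 → Cn n₁}
    (f1 : Frm D.π₁ a a' s₁) (y : (US 2 × US 2) × T) (z : Ev k × Fin n → ℂ) :
    OnePoint.map Prod.fst (gm k D s₁ s₂ y.1 1 ((mm k D s₁ s₂ y.1 (z, 0)).1, 0)) =
      pe (Oh D s₂) (fh D s₂) ((0, y), z) := by
  have t := fun i => h.l₂ (hx y.1) 0 (ze s₂ y.1 z i) le_rfl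
  have e : up s₁ y.1 (fi ((mm k D s₁ s₂ y.1 (z, 0)).1, 0)) =
      fun i => D.u (hx y.1, ze s₂ y.1 z i) :=
    ze_fo f1 y.1 (fun i => S.u _ _) fun i =>
      congrArg (fun v => D.u (hx y.1, v)) (ze_hf y.1 z i)
  have t0 : rt 1 = 0 := by simp [rt]
  rw [gm, t0, neg_zero, Fo.g_zero, Fo.g_zero, e]
  have hw : ∀ i, w s₂ ((0, y), z) i = ((hx y.1, 0), ze s₂ y.1 z i) := fun _ => rfl
  split_ifs with o
  · have o' : ((0, y), z) ∈ Oh D s₂ := fun i => by rw [hw]; exact (t i).1.2 (o i)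
    rw [pe_in _ o', fh]
    simp only [hw, fun i => (t i).2 (o i)]
    rfl
  · have o' : ((0, y), z) ∉ Oh D s₂ := fun o' => o fun i => (t i).1.1 (by rw [← hw]; exact o' i)
    rw [pe_out _ o']
    rfl

theorem pm_h (h : D.Ok c κ R₀ M) (f2 : Frm D.π₂ b b' s₂) (N : ℕ) :
    Pm (IY ((YT N).res (ph k) (ph_ct k))) ((WE k b b').res (ph k) (ph_ct k)).ls
      ((WE k b b').res (ph k) (ph_ct k)).ls
      (pe (B := ((WE k b b').res (ph k) (ph_ct k)).W) (Oh (T := US N) D s₂) (fh D s₂)) :=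
  pm_pe (oh_op h f2) (fh_ct h f2)
    (fun g x o i => (w_act f2 g x.1.1 x.1.2.1 x.1.2.2 _ x.2 i).symm ▸ o _)
    (fun g x o => fh_act f2 g x.1.1 x.1.2.1 x.1.2.2 _ x.2) (fh_cp h f2)

end path
end Un

open Un in
/-- **leaf UNI** -/
theorem uni : UNI := fun k n n₁ n₂ D c κ R₀ M a a' b b' s₁ s₂ hk h S f1 f2 m p kV ok F r l hl =>
  th_path (pm_h h f2 (m + p)) (scl _ (show D.μ ≠ 0 by linarith [h.hμ])) (pe_one h f2)
    (fun y z => (r y z).trans (congrArg (pt _ _ y) (pe_zero h S f1 y z))) hl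

end Crest.Agent.N218.D6

end
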