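import Crest.Agent.N218.D6.Fin
import Crest.Agent.N218.D6.Pres
import Crest.Agent.N218.D6.Uni
import Crest.Agent.N218.D6.Finb
import Crest.Agent.N218.Sk.SatP
import Crest.Agent.N218.Sk.Fin

/-! # Row 218, block D6 (helper59): the closure -/

namespace Crest.Agent.N218.D6

theorem d6t0 (h1 : LOCA) (h2 : KVE) (h3 : INST) (h5 : LINK1) (h6 : LINK2) (h7 : ALGM) :
    Sk.D6T := fun g p s J hJ =>
  Sk.val_pcd Sk.sat (by norm_num) (fin h1 h2 h3 uni h5 h6 h7 pres finb g p s J hJ)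

end Crest.Agent.N218.D6
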