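import Crest.Agent.N218.D6.Defs

/-!
# Row 218, block D6 (helper79): the pieces are pointed proper equivariant families
-/

set_option autoImplicit false
set_option linter.unusedVariables false
set_option linter.unusedSectionVars false

open Topology Filter Set OnePoint Metric

noncomputable section

namespace Crest.Agent.N218.D6

open K

namespace Ps
variable {P A B : Type} [NormedAddCommGroup A] [NormedAddCommGroup B]

/-- properness by bounds -/
def Bf (g : P × A → OnePoint B) : Prop :=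
  ∀ R : ℝ, ∃ R' : ℝ, ∀ p w (w' : B), g (p, w) = w' → ‖w'‖ ≤ R → ‖w‖ ≤ R'

theorem Bf.prp [ProperSpace A] {g : P × A → OnePoint B} (h : Bf g) : Prp g := fun K' hK' => by
  obtain ⟨R, hR⟩ := hK'.isBounded.exists_norm_le
  obtain ⟨R', h'⟩ := h R
  exact ⟨_, isCompact_closedBall 0 R', fun p w w' n e m =>
    n (mem_closedBall_zero_iff.2 (h' p w w' e (hR _ m)))⟩

theorem bf_of [ProperSpace B] {g : P × A → OnePoint B} (h : Prp g) : Bf g := fun R => by
  obtain ⟨K, hK, h'⟩ := h _ (isCompact_closedBall (0 : B) R)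
  obtain ⟨R', hR⟩ := hK.isBounded.exists_norm_le
  exact ⟨R', fun p w w' e n => hR _ (by_contra fun m => h' p w w' m e (mem_closedBall_zero_iff.2 n))⟩

theorem bdd [TopologicalSpace P] [CompactSpace P] [ProperSpace A] {f : P × A → B}
    (h : Continuous f) (R : ℝ) : ∃ C, ∀ p v, ‖v‖ ≤ R → ‖f (p, v)‖ ≤ C := by
  obtain ⟨C, hC⟩ := (isCompact_univ.prod (isCompact_closedBall (0 : A) R)).exists_bound_of_continuousOn
    h.continuousOn
  exact ⟨C, fun p v n => hC (p, v) ⟨trivial, mem_closedBall_zero_iff.2 n⟩⟩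

theorem map_eq {f : A → B} {p : OnePoint A} {w : B} (h : OnePoint.map f p = w) :
    ∃ v : A, p = v ∧ f v = w := by
  induction p using OnePoint.rec with
  | infty => exact absurd h (infty_ne_coe _)
  | coe v => exact ⟨v, rfl, coe_injective h⟩

/-- translations act continuously on the compactification -/
theorem cont_shift [ProperSpace A] :
    Continuous fun z : A × OnePoint A => OnePoint.map (fun e => e - z.1) z.2 := by
  rw [continuous_iff_continuousAt]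
  rintro ⟨c, w⟩
  induction w using OnePoint.rec with
  | coe w =>
    have e : IsOpenEmbedding (Prod.map id (↑) : A × A → A × OnePoint A) :=
      IsOpenEmbedding.id.prodMap isOpenEmbedding_coe
    exact (e.continuousAt_iff (x := (c, w))).1
      (continuous_coe.comp (continuous_snd.sub continuous_fst)).continuousAt
  | infty =>
    change Tendsto _ _ (𝓝 ∞)
    rw [hasBasis_nhds_infty.tendsto_right_iff]
    rintro K ⟨-, hK⟩
    have k : IsCompact ((fun p : A × A => p.1 + p.2) '' K ×ˢ closedBall c 1) :=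
      (hK.prod (isCompact_closedBall c 1)).image (by fun_prop)
    have a : ∀ᶠ z : A × OnePoint A in 𝓝 (c, ∞), z.2 ∈ (↑) ''
        ((fun p : A × A => p.1 + p.2) '' K ×ˢ closedBall c 1)ᶜ ∪ {∞} :=
      continuous_snd.continuousAt.eventually (hasBasis_nhds_infty.mem_of_mem ⟨k.isClosed, k⟩)
    have b : ∀ᶠ z : A × OnePoint A in 𝓝 (c, ∞), z.1 ∈ closedBall c 1 :=
      continuous_fst.continuousAt.eventually (closedBall_mem_nhds c one_pos)
    filter_upwards [a, b]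
    rintro ⟨q, z⟩ (⟨w, hw, e⟩ | e) m
    · obtain rfl : (w : OnePoint A) = z := e
      exact .inl ⟨w - q, fun n => hw ⟨(w - q, q), ⟨n, m⟩, sub_add_cancel _ _⟩, rfl⟩
    · obtain rfl : z = ∞ := e
      exact .inr rfl

theorem cont_of_coe {T : Type} [TopologicalSpace T] {f : T → A}
    (h : Continuous fun x => (f x : OnePoint A)) : Continuous f :=
  isOpenEmbedding_coe.isInducing.continuous_iff.2 h

theorem bf_coe {f : P × A → B} (h : Bf fun x => (f x : OnePoint B)) (R : ℝ) :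
    ∃ R', ∀ p w, ‖f (p, w)‖ ≤ R → ‖w‖ ≤ R' :=
  (h R).imp fun _ a p w => a p w _ rfl

theorem nle {a : A} {b : B} {R : ℝ} : ‖(a, b)‖ ≤ R ↔ ‖a‖ ≤ R ∧ ‖b‖ ≤ R := norm_prod_le_iff

end Ps
open Ps

theorem pms : PMS := by
  intro Γ Γ' _ _ _ _ _ _ d h
  have cγ : Continuous d.γ := h.pγ.ct
  have cγ0 : Continuous d.γ0 := h.pγ0.ct
  have bγ : Bf d.γ := bf_of h.pγ.pr
  have bγ0 : Bf d.γ0 := bf_of h.pγ0.pr
  have cμ : Continuous d.μ := cont_of_coe h.pμ.ct
  have cμ0 : Continuous d.μ0 := cont_of_coe h.pμ0.ct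
  have ck : Continuous d.k := cont_of_coe h.pk.ct
  have bμ := bf_coe (f := d.μ) (bf_of h.pμ.pr)
  have bμ0 := bf_coe (f := d.μ0) (bf_of h.pμ0.pr)
  have bk := bf_coe (f := d.k) (bf_of h.pk.pr)
  have eμ : ∀ g y (z0 : d.Z0.W) (z1 : d.Z1.W), d.μ (d.Y.act (d.φ g) y,
      (d.Z0.ρ (d.φ g) z0, d.Z1.ρ (d.φ g) z1)) = (d.W0.ρ (d.φ g) (d.μ (y, (z0, z1))).1,
        d.W1.ρ (d.φ g) (d.μ (y, (z0, z1))).2) := fun g y z0 z1 =>
    coe_injective (h.pμ.eq g y (z0, z1))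
  have eμ0 : ∀ g y (z0 : d.Z0.W), d.μ0 (d.Y.act (d.φ g) y, d.Z0.ρ (d.φ g) z0) =
      d.W0.ρ (d.φ g) (d.μ0 (y, z0)) := fun g y z0 => coe_injective (h.pμ0.eq g y z0)
  have ek : ∀ g y (w1 : d.W1.W) (z1 : d.Z1.W), d.k (d.Y.act (d.φ g) y,
      (d.W1.ρ (d.φ g) w1, d.Z1.ρ (d.φ g) z1)) = d.U.ρ (d.φ g) (d.k (y, (w1, z1))) :=
    fun g y w1 z1 => coe_injective (h.pk.eq g y (w1, z1))
  refine ⟨⟨?_, ?_, ?_⟩, ⟨?_, ?_, ?_⟩, ⟨?_, ?_, ?_⟩, ⟨?_, ?_, ?_⟩, ?_, ?_, ?_, ?_⟩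
  · exact continuous_wdg.comp ((cγ.comp (continuous_fst.prodMk continuous_snd.fst)).prodMk
      (continuous_coe.comp continuous_snd.snd))
  · refine Bf.prp (A := d.M1.W) (B := d.T.W) fun R => ?_
    obtain ⟨R', a⟩ := bγ R
    refine ⟨max R' R, fun p ⟨w, r⟩ ⟨z, r'⟩ e n => ?_⟩
    obtain ⟨e1, e2⟩ := wdg_eq_coe e
    obtain rfl : r = r' := coe_injective e2
    exact nle.2 ⟨le_max_of_le_left (a p w z e1 (nle.1 n).1), le_max_of_le_right (nle.1 n).2⟩
  · intro g y w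
    exact (congrArg (fun t => wdg (t, _)) (h.pγ.eq g y w.1)).trans
      (wdg_act2 d.Z.ls d.R.ls g _ (w.2 : OnePoint d.R.W)).symm
  · exact continuous_wdg.comp ((continuous_wdg.comp ((cγ0.comp
      (continuous_fst.prodMk continuous_snd.fst.fst)).prodMk
      (continuous_coe.comp continuous_snd.fst.snd))).prodMk (continuous_coe.comp continuous_snd.snd))
  · refine Bf.prp (A := d.M3.W) (B := d.T.W) fun R => ?_
    obtain ⟨R', a⟩ := bγ0 R
    refine ⟨max R' R, fun p ⟨⟨w, z1⟩, r⟩ ⟨⟨z0, z1'⟩, r'⟩ e n => ?_⟩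
    obtain ⟨e1, e2⟩ := wdg_eq_coe e
    obtain ⟨e3, e4⟩ := wdg_eq_coe e1
    obtain rfl : r = r' := coe_injective e2
    obtain rfl : z1 = z1' := coe_injective e4
    obtain ⟨n1, n2⟩ := nle.1 n
    exact nle.2 ⟨nle.2 ⟨le_max_of_le_left (a p w z0 e3 (nle.1 n1).1),
      le_max_of_le_right (nle.1 n1).2⟩, le_max_of_le_right n2⟩
  · intro g y w
    refine Eq.trans ?_ (wdg_act2 d.Z.ls d.R.ls g _ (w.2 : OnePoint d.R.W)).symm
    refine congrArg (fun t => wdg (t, _)) ?_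
    exact (congrArg (fun t => wdg (t, _)) (h.pγ0.eq g y w.1.1)).trans
      (wdg_act2 d.Z0.ls d.Z1.ls g _ (w.1.2 : OnePoint d.Z1.W)).symm
  · refine continuous_coe.comp (f := fun x : d.Y.Z × (d.U.W × ((d.W0.W × d.W1.W) × (d.Z0.W × d.Z1.W))) =>
      ((x.2.2.1, (d.μ (x.1, x.2.2.2), d.k (x.1, (x.2.2.1.2, x.2.2.2.2)) - x.2.1)) :
        (d.W0.W × d.W1.W) × ((d.W0.W × d.W1.W) × d.U.W))) ?_
    fun_prop
  · refine Bf.prp (A := (d.U.prod d.S).W) (B := d.M1.W) fun R => ?_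
    obtain ⟨R', a⟩ := bμ R
    obtain ⟨C, b⟩ := bdd ck (max R R')
    refine ⟨max (C + R) (max R R'), fun y ⟨η, ⟨w0, w1⟩, z0, z1⟩ r e n => ?_⟩
    obtain rfl := coe_injective e
    obtain ⟨n1, n2⟩ := nle.1 n
    obtain ⟨n2, n3⟩ := nle.1 n2
    have n4 := a _ _ n2
    have n5 := b y (w1, z1) (nle.2 ⟨le_max_of_le_left (nle.1 n1).2, le_max_of_le_right (nle.1 n4).2⟩)
    refine nle.2 ⟨le_max_of_le_left ?_, le_max_of_le_right
      (nle.2 ⟨le_max_of_le_left n1, le_max_of_le_right n4⟩)⟩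
    have := norm_sub_le (d.k (y, (w1, z1))) (d.k (y, (w1, z1)) - η)
    rw [sub_sub_cancel] at this
    exact this.trans (add_le_add n5 n3)
  · rintro g y ⟨η, ⟨w0, w1⟩, z0, z1⟩
    refine congrArg OnePoint.some (Prod.ext rfl (Prod.ext (eμ g y z0 z1) ?_))
    exact (congrArg (· - d.U.ρ (d.φ g) η) (ek g y w1 z1)).trans (map_sub _ _ _).symm
  · refine continuous_coe.comp (f := fun x : d.Y.Z × (d.U.W × ((d.W0.W × d.W1.W) × (d.Z0.W × d.Z1.W))) =>
      (((x.2.2.1.1, -x.2.2.2.2), ((d.μ0 (x.1, x.2.2.2.1), -x.2.2.1.2),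
        d.k (x.1, (x.2.2.1.2, x.2.2.2.2)) - x.2.1)) :
        (d.W0.W × d.Z1.W) × ((d.W0.W × d.W1.W) × d.U.W))) ?_
    fun_prop
  · refine Bf.prp (A := (d.U.prod d.S).W) (B := d.M3.W) fun R => ?_
    obtain ⟨R', a⟩ := bμ0 R
    obtain ⟨C, b⟩ := bdd ck R
    refine ⟨max (C + R) (max R R'), fun y ⟨η, ⟨w0, w1⟩, z0, z1⟩ r e n => ?_⟩
    obtain rfl := coe_injective e
    obtain ⟨n1, n2⟩ := nle.1 n
    obtain ⟨n2, n3⟩ := nle.1 n2
    obtain ⟨m1, m2⟩ := nle.1 n1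
    obtain ⟨m3, m4⟩ := nle.1 n2
    rw [norm_neg] at m2 m4
    have n5 := b y (w1, z1) (nle.2 ⟨m4, m2⟩)
    refine nle.2 ⟨le_max_of_le_left ?_, le_max_of_le_right (nle.2 ⟨le_max_of_le_left
      (nle.2 ⟨m1, m4⟩), nle.2 ⟨le_max_of_le_right (a _ _ m3), le_max_of_le_left m2⟩⟩)⟩
    have := norm_sub_le (d.k (y, (w1, z1))) (d.k (y, (w1, z1)) - η)
    rw [sub_sub_cancel] at this
    exact this.trans (add_le_add n5 n3)
  · rintro g y ⟨η, ⟨w0, w1⟩, z0, z1⟩
    refine congrArg OnePoint.some (Prod.ext (Prod.ext rfl (map_neg (d.Z1.ρ (d.φ g)) z1).symm)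
      (Prod.ext (Prod.ext (eμ0 g y z0) (map_neg (d.W1.ρ (d.φ g)) w1).symm) ?_))
    exact (congrArg (· - d.U.ρ (d.φ g) η) (ek g y w1 z1)).trans (map_sub _ _ _).symm
  · rintro y θ η ⟨⟨w0, w1⟩, z0, z1⟩
    simp only [LD.hh, LD.g1, LD.b1, sub_self, zero_smul, one_smul, Prod.mk_zero_zero]
    refine congrArg₂ (fun s t => wdg (s, t)) ?_
      (congrArg OnePoint.some (Prod.ext (sub_zero (d.μ (y, (z0, z1)))) rfl))
    induction d.γ ((y, θ), (w0, w1)) using OnePoint.rec with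
    | infty => rfl
    | coe a => exact congrArg OnePoint.some (sub_zero a)
  · rintro y θ η ⟨⟨w0, w1⟩, z0, z1⟩
    simp only [LD.hh, LD.g3, LD.b3, sub_zero, zero_smul, one_smul, h.e0, h.m0]
    refine congrArg₂ (fun s t => wdg (s, t)) ?_ (congrArg OnePoint.some
      (Prod.ext (Prod.ext (sub_zero (d.μ0 (y, z0))) (zero_sub w1)) rfl))
    induction d.γ0 ((y, θ), w0) using OnePoint.rec with
    | infty => rfl
    | coe a => exact congrArg OnePoint.some (Prod.ext (sub_zero a) (zero_sub z1))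
  · rintro g y θ t η ⟨⟨w0, w1⟩, z0, z1⟩
    have e1 : d.γ ((d.Y.act (d.φ g) y, θ), (d.W0.ρ (d.φ g) w0, t • d.W1.ρ (d.φ g) w1)) =
        d.Z.ls.sph.act (d.φ g) (d.γ ((y, θ), (w0, t • w1))) := by
      refine Eq.trans ?_ (h.pγ.eq (d.φ g) (y, θ) (w0, t • w1))
      rw [← _root_.map_smul]
      exact congrArg (fun s => d.γ ((d.Y.act (d.φ g) y, s), _))
        (show θ = d.χ (d.φ g) * θ by rw [(h.ker _).2 ⟨g, rfl⟩, one_mul])
    refine Eq.trans ?_ (wdg_act2 d.Z.ls d.R.ls (d.φ g) _ _).symm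
    refine congrArg₂ (fun s t => wdg (s, t)) ?_ (congrArg OnePoint.some (Prod.ext ?_ ?_))
    · refine (congrArg (OnePoint.map _) e1).trans ?_
      induction d.γ ((y, θ), (w0, t • w1)) using OnePoint.rec with
      | infty => rfl
      | coe a =>
        refine congrArg OnePoint.some (Prod.ext ?_ ?_)
        · change d.Z0.ρ _ a.1 - 0 = d.Z0.ρ _ (a.1 - 0)
          rw [sub_zero, sub_zero]
        · change d.Z1.ρ _ a.2 - (1 - t) • d.Z1.ρ _ z1 = d.Z1.ρ _ (a.2 - (1 - t) • z1)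
          rw [map_sub, _root_.map_smul]
    · change d.μ (_, (d.Z0.ρ _ z0, t • d.Z1.ρ _ z1)) - (0, (1 - t) • d.W1.ρ _ w1) =
        (d.W0.ρ _ ((d.μ (y, (z0, t • z1))).1 - 0),
          d.W1.ρ _ ((d.μ (y, (z0, t • z1))).2 - (1 - t) • w1))
      rw [← _root_.map_smul, eμ, Prod.mk_sub_mk, map_sub, map_sub, map_zero, _root_.map_smul]
    · exact (congrArg (· - d.U.ρ (d.φ g) η) (ek g y w1 z1)).trans (map_sub _ _ _).symm
  · intro P _ _ y θ t η
    constructor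
    · refine continuous_wdg.comp (Continuous.prodMk (cont_shift.comp
        (f := fun x : P × ((d.W0.W × d.W1.W) × (d.Z0.W × d.Z1.W)) =>
          (((0 : d.Z0.W), (1 - t x.1) • x.2.2.2), d.γ ((y x.1, θ x.1), (x.2.1.1, t x.1 • x.2.1.2))))
        (by fun_prop)) (continuous_coe.comp
        (f := fun x : P × ((d.W0.W × d.W1.W) × (d.Z0.W × d.Z1.W)) =>
          ((d.μ (y x.1, (x.2.2.1, t x.1 • x.2.2.2)) - (0, (1 - t x.1) • x.2.1.2),
            d.k (y x.1, (x.2.1.2, x.2.2.2)) - η x.1) : (d.W0.W × d.W1.W) × d.U.W)) (by fun_prop)))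
    · refine Bf.prp (A := d.S.W) (B := d.T.W) fun R => ?_
      obtain ⟨C, hC⟩ := isCompact_univ.exists_bound_of_continuousOn η.continuous.continuousOn
      obtain ⟨D, hD⟩ := isCompact_univ.exists_bound_of_continuousOn
        (f := fun p => 1 - t p) (Continuous.continuousOn (by fun_prop))
      obtain ⟨R1, a1⟩ := bk (R + C)
      obtain ⟨R2, a2⟩ := bγ (R + D * R1)
      obtain ⟨R3, a3⟩ := bμ (R + D * R1)
      refine ⟨max R1 (max R2 R3), fun p ⟨⟨w0, w1⟩, z0, z1⟩ ⟨z, r⟩ e n => ?_⟩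
      obtain ⟨e1, e2⟩ := wdg_eq_coe e
      obtain ⟨v, e3, rfl⟩ := map_eq e1
      obtain rfl := coe_injective e2
      obtain ⟨n1, n2⟩ := nle.1 n
      obtain ⟨n2, n3⟩ := nle.1 n2
      have up : ∀ {E : Type} [NormedAddCommGroup E] {u v : E} {a b : ℝ}, ‖u - v‖ ≤ a → ‖v‖ ≤ b →
          ‖u‖ ≤ a + b := fun {E} _ u v a b p q => by
        simpa using (norm_add_le (u - v) v).trans (add_le_add p q)
      obtain ⟨m1, m2⟩ := nle.1 (a1 _ _ (up n3 (hC p trivial)))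
      have D0 : 0 ≤ D := (norm_nonneg _).trans (hD p trivial)
      have sm : ∀ {E E' : Type} [NormedAddCommGroup E] [NormedAddCommGroup E'] [NormedSpace ℝ E']
          {v : E'}, ‖v‖ ≤ R1 → ‖((0 : E), (1 - t p) • v)‖ ≤ D * R1 := fun {E E'} _ _ _ v q =>
        nle.2 ⟨by rw [norm_zero]; exact mul_nonneg D0 ((norm_nonneg _).trans q), by
          rw [norm_smul]; exact mul_le_mul (hD p trivial) q (norm_nonneg _) D0⟩
      exact nle.2 ⟨nle.2 ⟨le_max_of_le_right (le_max_of_le_left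
          (nle.1 (a2 _ _ v e3 (up n1 (sm m2)))).1), le_max_of_le_left m1⟩,
        nle.2 ⟨le_max_of_le_right (le_max_of_le_right (nle.1 (a3 _ _ (up n2 (sm m1)))).1),
          le_max_of_le_left m2⟩⟩

end Crest.Agent.N218.D6

end
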