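import Crest.Agent.N218.D6.Df2
import Crest.Agent.N218.D6.Pms
import Crest.Agent.N218.Pm.Loop0

/-!
# Row 218, block D6 (helper50): the second half of INST
-/

set_option autoImplicit false
set_option linter.unusedVariables false

open Topology Filter Set OnePoint
open scoped InnerProductSpace ComplexConjugate

noncomputable section

namespace Crest.Agent.N218.D6

open K K.Cp Pm In Ps
open Sk (Cn S2 S3 X22 hfv Frm Wt Pcd Sat Val half)

namespace I2

variable {k n : ℕ}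

/-- Fourier coordinates -/
abbrev CC (k n : ℕ) : Type := (Ev k × Fin n → ℂ) × (Od k × Fin n → ℂ)

theorem fo_fi (c : CC k n) : fo (fi c) = c :=
  Prod.ext (funext fun p => by
      simp only [fo, fi, ContinuousLinearEquiv.apply_symm_apply, dif_pos p.1.2])
    (funext fun p => by
      simp only [fo, fi, ContinuousLinearEquiv.apply_symm_apply,
        dif_neg (Nat.not_even_iff_odd.2 p.1.2)])

theorem fi_fo (y : V k (Fin n → ℂ)) : fi (fo y) = y := by
  rw [fi, ContinuousLinearEquiv.symm_apply_eq]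
  funext p; simp only [fo]; split_ifs <;> rfl

theorem fo_zero : fo (0 : V k (Fin n → ℂ)) = 0 := by simp [fo]; exact ⟨rfl, rfl⟩
theorem fi_zero : fi (0 : CC k n) = 0 := by rw [← fo_zero, fi_fo]

theorem fo_ct : Continuous (fo : V k (Fin n → ℂ) → CC k n) :=
  (continuous_pi fun p => (continuous_apply _).comp (Fo.co _ _).continuous).prodMk
    (continuous_pi fun p => (continuous_apply _).comp (Fo.co _ _).continuous)

theorem fi_ct : Continuous (fi : CC k n → V k (Fin n → ℂ)) :=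
  (Fo.co _ _).symm.continuous.comp (continuous_pi fun p => by
    split_ifs
    · exact (continuous_apply _).comp continuous_fst
    · exact (continuous_apply _).comp continuous_snd)

theorem fo_mn (y : V k (Fin n → ℂ)) : fo (mn y) = (0, (fo y).2) := by
  have e : mn y = Yk.mn (Equiv.addRight ((2 ^ k : ℕ) : Ix k)) y := by
    funext i; simp [mn, Yk.mn]
  have h := Fo.D_mn (q := 2 ^ (k + 1)) (m := 2 ^ k) (by ring) y
  rw [e]
  exact Prod.ext (funext fun p => (congrFun (h p.1.1) p.2).trans (by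
      rw [if_neg (Nat.not_odd_iff_even.2 p.1.2)]; rfl))
    (funext fun p => (congrFun (h p.1.1) p.2).trans (by rw [if_pos p.1.2]; rfl))

theorem mn_fi (c : CC k n) : mn (fi c) = fi (0, c.2) := by
  rw [← fi_fo (mn (fi c)), fo_mn, fo_fi]

theorem s3_ct : Continuous s3 :=
  Continuous.subtype_mk ((PiLp.continuous_toLp 2 _).comp continuous_subtype_val) _
theorem ys_ct : Continuous ys := (s3_ct.comp continuous_fst).prodMk (s3_ct.comp continuous_snd)
theorem hp_ct : Continuous hp := by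
  refine Continuous.subtype_mk ?_ _
  refine (PiLp.continuous_toLp 2 _).comp (continuous_pi fun i => ?_)
  have h0 : Continuous fun u : US 2 => u.1 0 := (continuous_apply 0).comp continuous_subtype_val
  have h1 : Continuous fun u : US 2 => u.1 1 := (continuous_apply 1).comp continuous_subtype_val
  have h2 := (Complex.continuous_conj.comp h0).mul h1
  fin_cases i
  · exact continuous_const.mul (Complex.continuous_re.comp h2)
  · exact continuous_const.mul (Complex.continuous_im.comp h2)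
  · exact (h0.norm.pow 2).sub (h1.norm.pow 2)
theorem hx_ct : Continuous hx := (hp_ct.comp continuous_fst).prodMk (hp_ct.comp continuous_snd)

/-- a phase -/
def tw (t : Circle) (u : US 2) : US 2 := ⟨fun i => t * u.1 i, u.2.smul _⟩

theorem s3_tw (t : Circle) (u : US 2) : (s3 (tw t u) : Cn 2) = (t : ℂ) • (s3 u : Cn 2) := rfl

theorem hp_tw (t : Circle) (u : US 2) : hp (tw t u) = hp u := by
  refine Subtype.ext ?_
  have h : (t : ℂ) * conj (t : ℂ) = 1 := by rw [Complex.mul_conj, Circle.normSq_coe]; simp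
  have e : conj ((t : ℂ) * u.1 0) * (t * u.1 1) = conj (u.1 0) * u.1 1 := by
    rw [map_mul]; linear_combination (conj (u.1 0) * u.1 1) * h
  show hfv _ = hfv _
  simp only [hfv, s3, tw, e, norm_mul, Circle.norm_coe, one_mul]

section fr
variable {E : Type} [NormedAddCommGroup E] [InnerProductSpace ℂ E] {π : X22 → E →L[ℂ] E}
  {a a' : Fin n → ℤ} {s : Fin n → S3 × S3 → E}

theorem dn_up (h : Frm π a a' s) (y : US 2 × US 2) (c : V k (Fin n → ℂ)) :
    dn s y (up s y c) = c := by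
  funext i j; simp [dn, up, h.on]

theorem up_dn (h : Frm π a a' s) (y : US 2 × US 2) (e : V k E) (i : Ix k) :
    up s y (dn s y e) i = π (hx y) (e i) := (h.sp (hx y) (ys y) rfl rfl _).symm

theorem pi_up (h : Frm π a a' s) (y : US 2 × US 2) (c : V k (Fin n → ℂ)) (i : Ix k) :
    π (hx y) (up s y c i) = up s y c i := by rw [← up_dn h, dn_up h]

theorem up_zero (y : US 2 × US 2) : up s y (0 : V k (Fin n → ℂ)) = 0 := by
  funext i; simp [up]

theorem mn_up (y : US 2 × US 2) (c : V k (Fin n → ℂ)) : mn (up s y c) = up s y (mn c) := by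
  funext i
  simp only [mn, up, ← Finset.sum_sub_distrib, Finset.smul_sum, Pi.smul_apply, Pi.sub_apply,
    ← sub_smul, smul_assoc]

theorem mn_dn (y : US 2 × US 2) (e : V k E) : mn (dn s y e) = dn s y (mn e) := by
  funext i j
  simp only [mn, dn, Pi.smul_apply, Pi.sub_apply, ← inner_sub_right]
  rw [← Complex.coe_smul, ← Complex.coe_smul, inner_smul_right, smul_eq_mul]

theorem U_ct (h : Frm π a a' s) :
    Continuous fun x : (US 2 × US 2) × CC k n => up s x.1 (fi x.2) :=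
  continuous_pi fun i => continuous_finsetSum _ fun j _ =>
    ((continuous_apply j).comp ((continuous_apply i).comp (fi_ct.comp continuous_snd))).smul
      ((h.ct j).comp (ys_ct.comp continuous_fst))

theorem D_ct (h : Frm π a a' s) :
    Continuous fun x : (US 2 × US 2) × V k E => fo (dn s x.1 x.2) :=
  fo_ct.comp (continuous_pi fun i => continuous_pi fun j =>
    ((h.ct j).comp (ys_ct.comp continuous_fst)).inner ((continuous_apply i).comp continuous_snd))

theorem U_ct' (h : Frm π a a' s) {T : Type} [TopologicalSpace T] {y : T → US 2 × US 2}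
    {c : T → CC k n} (hy : Continuous y) (hc : Continuous c) (i : Ix k) :
    Continuous fun t => up s (y t) (fi (c t)) i :=
  continuous_finsetSum _ fun j _ =>
    ((continuous_apply j).comp ((continuous_apply i).comp (fi_ct.comp hc))).smul
      ((h.ct j).comp (ys_ct.comp hy))

theorem D_ct' (h : Frm π a a' s) {T : Type} [TopologicalSpace T] {y : T → US 2 × US 2}
    {e : T → V k E} (hy : Continuous y) (he : ∀ i, Continuous fun t => e t i) :
    Continuous fun t => fo (dn s (y t) (e t)) :=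
  fo_ct.comp (continuous_pi fun i => continuous_pi fun j =>
    ((h.ct j).comp (ys_ct.comp hy)).inner (he i))

theorem U_bd (h : Frm π a a' s) (R : ℝ) :
    ∃ C, ∀ y (c : CC k n), ‖c‖ ≤ R → ‖up s y (fi c)‖ ≤ C := bdd (U_ct h) R

theorem D_bd [ProperSpace E] (h : Frm π a a' s) (R : ℝ) :
    ∃ C, ∀ y (e : V k E), ‖e‖ ≤ R → ‖fo (dn s y e)‖ ≤ C :=
  bdd (f := fun x : (US 2 × US 2) × V k E => fo (dn s x.1 x.2)) (D_ct h) R

theorem D_U (h : Frm π a a' s) (y : US 2 × US 2) (c : CC k n) :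
    fo (dn s y (up s y (fi c))) = c := by rw [dn_up h, fo_fi]

theorem U_D (h : Frm π a a' s) (y : US 2 × US 2) (e : V k E) (i : Ix k) :
    up s y (fi (fo (dn s y e))) i = π (hx y) (e i) := by rw [fi_fo, up_dn h]

/-- the action on the coordinates -/
def ac (a a' : Fin n → ℤ) (g : GG k) (c : CC k n) : CC k n :=
  ((WE k a a').prod (WO k a a')).ρ (ph k g) c
/-- the action on the base -/
def ay (g : GG k) (y : US 2 × US 2) : US 2 × US 2 := (tw g.2.1 y.1, tw g.2.2 y.2)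

theorem hx_ay (g : GG k) (y : US 2 × US 2) : hx (ay g y) = hx y :=
  Prod.ext (hp_tw _ _) (hp_tw _ _)

theorem D_eq (h : Frm π a a' s) (g : GG k) (y : US 2 × US 2) (e : V k E) :
    fo (dn s (ay g y) fun i => e (i + g.1.toAdd)) = ac a a' g (fo (dn s y e)) := by
  have key : ∀ (l : Ix k) (j : Fin n),
      Fo.co _ _ (dn s (ay g y) fun i => e (i + g.1.toAdd)) (l, j) =
        (wc l.val (a j) (a' j) (ph k g) : ℂ) * Fo.co _ _ (dn s y e) (l, j) := fun l j => by
    have c : ∀ (t : Circle) (m : ℤ), conj ((t : ℂ) ^ m) = (t : ℂ) ^ (-m) := fun t m => by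
      rw [map_zpow₀, ← Circle.coe_inv_eq_conj, Circle.coe_inv, inv_zpow']
    have e1 : ∀ i, dn s (ay g y) (fun i => e (i + g.1.toAdd)) i j =
        ((g.2.1 : ℂ) ^ (-a j) * (g.2.2 : ℂ) ^ (-a' j)) * Fo.sh g.1.toAdd (dn s y e) i j :=
      fun i => by
        simp only [dn, Fo.sh]
        rw [h.eq j (ys y) (ys (ay g y)) g.2.1 g.2.2 rfl rfl, inner_smul_left, map_mul, c, c]
    have e2 := congrFun (Fo.D_sh g.1.toAdd (dn s y e) l) j
    have e3 : (wc l.val (a j) (a' j) (ph k g) : ℂ) =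
        Fo.ch (g.1.toAdd * l) * ((g.2.1 : ℂ) ^ (-a j) * (g.2.2 : ℂ) ^ (-a' j)) := by
      rw [Fo.ch_mul, ← Fo.inc_apply]
      simp [wc, c1, ca, cb, ph]
    rw [Fo.co_apply, Fo.co_apply, e3, mul_comm (Fo.ch _), mul_assoc, ← smul_eq_mul (Fo.ch _),
      ← Pi.smul_apply, ← e2, Fo.D_apply, Fo.D_apply, Finset.sum_apply, Finset.sum_apply,
      Finset.mul_sum]
    exact Finset.sum_congr rfl fun i _ => by
      rw [Pi.smul_apply, Pi.smul_apply, e1, smul_eq_mul, smul_eq_mul]; ring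
  exact Prod.ext (funext fun p => key _ _) (funext fun p => key _ _)

theorem U_eq (h : Frm π a a' s) (g : GG k) (y : US 2 × US 2) (c : CC k n) (i : Ix k) :
    up s (ay g y) (fi (ac a a' g c)) i = up s y (fi c) (i + g.1.toAdd) := by
  rw [← D_U h y c, ← D_eq h, U_D h, hx_ay, D_U h, pi_up h]

theorem ac_l (g : GG k) (z : Ev k × Fin n → ℂ) :
    ac a a' g (z, 0) = ((WE k a a').ρ (ph k g) z, 0) := Prod.ext rfl (map_zero ((WO k a a').ρ (ph k g)))
theorem ac_r (g : GG k) (z : Od k × Fin n → ℂ) :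
    ac a a' g (0, z) = (0, (WO k a a').ρ (ph k g) z) := Prod.ext (map_zero ((WE k a a').ρ (ph k g))) rfl
end fr

theorem mn_pr {E E' : Type} [NormedAddCommGroup E] [NormedSpace ℝ E] [NormedAddCommGroup E']
    [NormedSpace ℝ E'] (y : V k E) (z : V k E') : mn (pr y z) = pr (mn y) (mn z) := by
  funext i; simp [mn, Pm.pr]

variable {n₁ n₂ : ℕ} {D : Data X22 (Cn n₁) (Cn n₂)} {c κ R₀ M : ℝ} {a a' b b' : Fin n → ℤ}
  {s₁ : Fin n → S3 × S3 → Cn n₁} {s₂ : Fin n → S3 × S3 → Cn n₂} {m : ℕ} (p : ℕ)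
  {kV : V k (Cn n₁ × Cn n₂) → Fin m → ℂ}

theorem mm_ct (o : D.Ok c κ R₀ M) (h₁ : Frm D.π₁ a a' s₁) (h₂ : Frm D.π₂ b b' s₂) {T : Type}
    [TopologicalSpace T] {y : T → US 2 × US 2} {z : T → CC k n} (hy : Continuous y)
    (hz : Continuous z) : Continuous fun t => mm k D s₁ s₂ (y t) (z t) :=
  D_ct' h₁ (e := fun t i => D.u (hx (y t), up s₂ (y t) (fi (z t)) i)) hy fun i =>
    o.uc.comp ((hx_ct.comp hy).prodMk (U_ct' h₂ hy hz i))

theorem mm_bd (o : D.Ok c κ R₀ M) (h₁ : Frm D.π₁ a a' s₁) (h₂ : Frm D.π₂ b b' s₂) (R : ℝ) :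
    ∃ R', ∀ y (z : CC k n), ‖mm k D s₁ s₂ y z‖ ≤ R → ‖z‖ ≤ R' := by
  obtain ⟨C, hC⟩ := U_bd (k := k) h₁ R
  obtain ⟨C', hC'⟩ := D_bd (k := k) h₂ (max (max R₀ C) 0)
  refine ⟨C', fun y z e => ?_⟩
  rw [← D_U h₂ y z]
  refine hC' y _ ((pi_norm_le_iff_of_nonneg (le_max_right _ _)).2 fun i => le_max_of_le_left ?_)
  have h1 := (norm_le_pi_norm _ i).trans (hC y _ e)
  rw [mm, U_D h₁] at h1
  rcases le_total R₀ ‖up s₂ y (fi z) i‖ with r | r
  · have h2 := o.ux (hx y) (up s₂ y (fi z) i) (by rwa [pi_up h₂])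
    rw [pi_up h₂] at h2
    refine le_max_of_le_right ?_
    nlinarith [mul_nonneg o.hκ.le (norm_nonneg (up s₂ y (fi z) i))]
  · exact le_max_of_le_left r

theorem mm_eq (h₁ : Frm D.π₁ a a' s₁) (h₂ : Frm D.π₂ b b' s₂) (g : GG k) (y : US 2 × US 2)
    (z : CC k n) : mm k D s₁ s₂ (ay g y) (ac b b' g z) = ac a a' g (mm k D s₁ s₂ y z) := by
  rw [mm, mm, ← D_eq h₁]
  simp only [U_eq h₂, hx_ay]

theorem mm_ev (y : US 2 × US 2) (z : Ev k × Fin n → ℂ) : (mm k D s₁ s₂ y (z, 0)).2 = 0 := by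
  have h1 : mn (up s₂ y (fi (z, 0))) = 0 := by
    rw [mn_up, mn_fi]; exact (congrArg _ fi_zero).trans (up_zero y)
  have h2 : mn (fun i => D.u (hx y, up s₂ y (fi (z, 0)) i)) = 0 := funext fun i => by
    have := congrFun h1 i
    simp only [mn, Pi.zero_apply, smul_eq_zero, sub_eq_zero] at this ⊢
    exact this.imp id fun e => by rw [e]
  have h3 := fo_mn (dn s₁ y fun i => D.u (hx y, up s₂ y (fi (z, 0)) i))
  rw [mn_dn, h2, show dn s₁ y (0 : V k (Cn n₁)) = 0 by funext i j; simp [dn], fo_zero] at h3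
  exact (congrArg Prod.snd h3).symm

theorem m0 (y : (ld k D s₁ s₂ a a' b b' p kV).Y.Z) (z : (ld k D s₁ s₂ a a' b b' p kV).Z0.W) :
    (ld k D s₁ s₂ a a' b b' p kV).μ (y, (z, 0)) = ((ld k D s₁ s₂ a a' b b' p kV).μ0 (y, z), 0) :=
  Prod.ext rfl (mm_ev y.1 z)

theorem pμ (o : D.Ok c κ R₀ M) (h₁ : Frm D.π₁ a a' s₁) (h₂ : Frm D.π₂ b b' s₂) :
    let d := ld k D s₁ s₂ a a' b b' p kV
    Pm d.Y' (d.rs d.Z).ls (d.rs d.W).ls fun x => (d.μ x : OnePoint (d.W0.W × d.W1.W)) :=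
  ⟨continuous_coe.comp (mm_ct o h₁ h₂ (T := ((US 2 × US 2) × US (m + p)) × CC k n)
      continuous_fst.fst continuous_snd),
    Bf.prp (A := CC k n) (B := CC k n) fun R => (mm_bd o h₁ h₂ R).imp fun _ h y z w e r =>
      h y.1 z (by rw [← coe_injective e] at r; exact r),
    fun g y z => congrArg _ (mm_eq h₁ h₂ g y.1 z)⟩

theorem pμ0 (o : D.Ok c κ R₀ M) (h₁ : Frm D.π₁ a a' s₁) (h₂ : Frm D.π₂ b b' s₂) :
    let d := ld k D s₁ s₂ a a' b b' p kV
    Pm d.Y' (d.rs d.Z0).ls (d.rs d.W0).ls fun x => (d.μ0 x : OnePoint d.W0.W) :=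
  ⟨continuous_coe.comp (mm_ct o h₁ h₂ (T := ((US 2 × US 2) × US (m + p)) × (Ev k × Fin n → ℂ))
      continuous_fst.fst (continuous_snd.prodMk continuous_const)).fst,
    Bf.prp (A := Ev k × Fin n → ℂ) (B := Ev k × Fin n → ℂ) fun R =>
      (mm_bd o h₁ h₂ R).imp fun _ h y z w e r => (norm_fst_le ((z, 0) : CC k n)).trans
        (h y.1 (z, 0) (by
          rw [← coe_injective e] at r
          exact norm_prod_le_iff.2 ⟨r, by rw [mm_ev, norm_zero]; exact (norm_nonneg _).trans r⟩)),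
    fun g y z => congrArg (fun w : CC k n => OnePoint.some w.1)
      ((congrArg _ (ac_l g z).symm).trans (mm_eq h₁ h₂ g y.1 (z, 0)))⟩

/-- the odd vector -/
def ov (s₁ : Fin n → S3 × S3 → Cn n₁) (s₂ : Fin n → S3 × S3 → Cn n₂) (y : US 2 × US 2)
    (w : (Od k × Fin n → ℂ) × (Od k × Fin n → ℂ)) : V k (Cn n₁ × Cn n₂) :=
  pr (up s₁ y (fi (0, w.1))) (up s₂ y (fi (0, w.2)))

theorem mn_ov (y : US 2 × US 2) (w z : CC k n) :
    mn (pr (up s₁ y (fi w)) (up s₂ y (fi z))) = ov s₁ s₂ y (w.2, z.2) := by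
  rw [mn_pr, mn_up, mn_up, mn_fi, mn_fi]; rfl

theorem k0 (h₁ : Frm D.π₁ a a' s₁) (h₂ : Frm D.π₂ b b' s₂) (hk : KV k D kV)
    (y : (ld k D s₁ s₂ a a' b b' p kV).Y.Z)
    (v : (ld k D s₁ s₂ a a' b b' p kV).W1.W × (ld k D s₁ s₂ a a' b b' p kV).Z1.W) :
    (ld k D s₁ s₂ a a' b b' p kV).k (y, v) = 0 ↔ v = 0 := by
  refine (hk.z _).trans ((mn_ov y.1 (0, v.1) (0, v.2)).congr_left.trans ⟨fun e => ?_, fun e => ?_⟩)
  · have e1 : up s₁ y.1 (fi (0, v.1)) = 0 := funext fun i => congrArg Prod.fst (congrFun e i)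
    have e2 : up s₂ y.1 (fi (0, v.2)) = 0 := funext fun i => congrArg Prod.snd (congrFun e i)
    have f1 := D_U h₁ y.1 ((0, v.1) : CC k n)
    have f2 := D_U h₂ y.1 ((0, v.2) : CC k n)
    rw [e1, ← up_zero (s := s₁) y.1, dn_up h₁, fo_zero] at f1
    rw [e2, ← up_zero (s := s₂) y.1, dn_up h₂, fo_zero] at f2
    exact Prod.ext (congrArg Prod.snd f1).symm (congrArg Prod.snd f2).symm
  · subst e
    exact congrArg₂ pr ((congrArg _ fi_zero).trans (up_zero _))
      ((congrArg _ fi_zero).trans (up_zero _))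

theorem pk (h₁ : Frm D.π₁ a a' s₁) (h₂ : Frm D.π₂ b b' s₂) (hk : KV k D kV) :
    let d := ld k D s₁ s₂ a a' b b' p kV
    Pm d.Y' (d.rs (d.W1.prod d.Z1)).ls (d.rs d.U).ls fun x => (d.k x : OnePoint d.U.W) := by
  have ct : Continuous fun x : ((US 2 × US 2) × US (m + p)) ×
      (Od k × Fin n → ℂ) × (Od k × Fin n → ℂ) => ov s₁ s₂ x.1.1 x.2 :=
    continuous_pi fun i => Continuous.prodMk
      (U_ct' h₁ continuous_fst.fst (continuous_const.prodMk continuous_snd.fst) i)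
      (U_ct' h₂ continuous_fst.fst (continuous_const.prodMk continuous_snd.snd) i)
  refine ⟨continuous_coe.comp (hk.ct.comp ct),
    Bf.prp (A := (Od k × Fin n → ℂ) × (Od k × Fin n → ℂ)) (B := Fin m → ℂ) fun R => ?_,
    fun g y z => congrArg _ (Eq.trans (congrArg kV (funext fun i => ?_))
      (hk.eq g.1 (ov s₁ s₂ y.1 z)))⟩
  · obtain ⟨R', h⟩ := hk.pr R
    obtain ⟨C, hC⟩ := D_bd (k := k) h₁ R'
    obtain ⟨C', hC'⟩ := D_bd (k := k) h₂ R'
    refine ⟨max C C', fun y z w e r => ?_⟩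
    rw [← coe_injective e] at r
    have h1 := h _ r
    have R0 := (norm_nonneg _).trans h1
    rw [show mn _ = _ from mn_ov y.1 (0, z.1) (0, z.2)] at h1
    have h2 := hC y.1 (up s₁ y.1 (fi (0, z.1))) ((pi_norm_le_iff_of_nonneg R0).2 fun i =>
      (norm_fst_le (ov s₁ s₂ y.1 z i)).trans ((norm_le_pi_norm _ i).trans h1))
    have h3 := hC' y.1 (up s₂ y.1 (fi (0, z.2))) ((pi_norm_le_iff_of_nonneg R0).2 fun i =>
      (norm_snd_le (ov s₁ s₂ y.1 z i)).trans ((norm_le_pi_norm _ i).trans h1))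
    rw [D_U h₁] at h2
    rw [D_U h₂] at h3
    exact max_le_max ((norm_snd_le ((0, z.1) : CC k n)).trans h2)
      ((norm_snd_le ((0, z.2) : CC k n)).trans h3)
  · exact Prod.ext ((congrArg (fun c => up s₁ (ay g y.1) (fi c) i) (ac_r g z.1).symm).trans
      (U_eq h₁ g y.1 _ i)) ((congrArg (fun c => up s₂ (ay g y.1) (fi c) i) (ac_r g z.2).symm).trans
      (U_eq h₂ g y.1 _ i))

theorem sj : Function.Surjective (ld k D s₁ s₂ a a' b b' p kV).χ := fun z => by
  obtain ⟨t, rfl⟩ := Circle.exp_surjective z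
  refine ⟨(Circle.exp (t / (2 ^ (k + 1) : ℕ)), 1, 1), ?_⟩
  show Circle.exp (t / (2 ^ (k + 1) : ℕ)) ^ 2 ^ (k + 1) = _
  rw [← Circle.exp_nsmul, nsmul_eq_mul, mul_div_cancel₀ _ (by positivity)]

theorem ker (g : GT) :
    (ld k D s₁ s₂ a a' b b' p kV).χ g = 1 ↔ g ∈ (ld k D s₁ s₂ a a' b b' p kV).φ.range := by
  refine ⟨fun h => ?_, fun ⟨x, h⟩ => ?_⟩
  · have h1 : (g.1 : ℂ) ^ 2 ^ (k + 1) = 1 := by
      rw [← Circle.coe_pow]; exact congrArg _ h
    obtain ⟨j, -, e⟩ := (Complex.isPrimitiveRoot_exp (2 ^ (k + 1))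
      (by positivity)).eq_pow_of_pow_eq_one h1
    refine ⟨(Multiplicative.ofAdd (j : Ix k), g.2), Prod.ext (Circle.ext ?_) rfl⟩
    show ((ZMod.toCircle (j : Ix k) : Circle) : ℂ) = g.1
    rw [ZMod.toCircle_natCast, ← e, ← Complex.exp_nat_mul]
    congr 1; ring
  · subst h
    show ck k x.1 ^ 2 ^ (k + 1) = 1
    rw [← map_pow, show x.1 ^ 2 ^ (k + 1) = 1 from by
      apply Multiplicative.toAdd.injective
      rw [toAdd_pow, toAdd_one, nsmul_eq_mul, ZMod.natCast_self, zero_mul], map_one]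

theorem hi : Eqv (ld k D s₁ s₂ a a' b b' p kV).φ (ld k D s₁ s₂ a a' b b' p kV).i := fun g y =>
  Prod.ext rfl (Subtype.ext (funext fun i => by
    show Fin.append (fun i => (ck k g.1 : ℂ) * y.2.1 i) 0 i = (ck k g.1 : ℂ) * Fin.append y.2.1 0 i
    refine Fin.addCases (fun i => ?_) (fun i => ?_) i <;> simp))

theorem hu (g : GG k) (y : (ld k D s₁ s₂ a a' b b' p kV).Ym.Z) :
    (ld k D s₁ s₂ a a' b b' p kV).u ((ld k D s₁ s₂ a a' b b' p kV).Ym.act g y) =
      (ld k D s₁ s₂ a a' b b' p kV).U.ρ ((ld k D s₁ s₂ a a' b b' p kV).φ g)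
        ((ld k D s₁ s₂ a a' b b' p kV).u y) := rfl

theorem u0 (y : (ld k D s₁ s₂ a a' b b' p kV).Ym.Z) : (ld k D s₁ s₂ a a' b b' p kV).u y ≠ 0 :=
  fun h => by
    have h1 : Un1 y.2.1 := y.2.2
    rw [show y.2.1 = 0 from h] at h1
    simp [Un1] at h1

theorem g_shift {E : Type} [NormedAddCommGroup E] [NormedSpace ℂ E] (r : ℝ) (j : ℤ) (y : V k E)
    (i : Ix k) : Fo.g (-(r + j)) y i = Fo.g (-r) y (i - j) := by
  rw [neg_add_rev, Fo.g_add, ← Int.cast_neg, Lo.g_int, Int.cast_neg, sub_eq_add_neg]; rfl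

theorem sm (o : D.Ok c κ R₀ M) (st : Sat D) (h₁ : Frm D.π₁ a a' s₁) (h₂ : Frm D.π₂ b b' s₂)
    (hk : KV k D kV) :
    let d := ld k D s₁ s₂ a a' b b' p kV
    ∀ y θ (ρ : ℝ) v, 1 ≤ ρ → d.hh (d.i y) θ 1 (ρ • d.u y) v ≠ ((0 : d.T.W) : OnePoint d.T.W) := by
  intro d y θ ρ v hρ h
  obtain ⟨e1, e2⟩ := wdg_eq_coe h
  obtain ⟨w, e3, e4⟩ := map_eq e1
  have e5 := coe_injective e2
  simp only [one_smul, sub_self, zero_smul] at e3 e4 e5
  have e6 : mm k D s₁ s₂ y.1 v.2 = 0 := (sub_zero _).symm.trans (congrArg Prod.fst e5)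
  have e7 : kV (ov s₁ s₂ y.1 (v.1.2, v.2.2)) = ρ • y.2.1 := sub_eq_zero.1 (congrArg Prod.snd e5)
  obtain rfl : w = 0 := (sub_zero _).symm.trans e4
  have e8 : gm k D s₁ s₂ y.1 θ v.1 = OnePoint.some 0 := e3
  rw [gm] at e8
  split_ifs at e8 with hO
  swap
  · exact infty_ne_coe _ e8
  have e9 := coe_injective e8
  set Y := up s₁ y.1 (fi v.1) with hY
  set r := rt θ
  have hv : Fo.g r (fun i => D.v (hx y.1, Fo.g (-r) Y i)) = 0 := funext fun i => by
    have k1 := U_D h₂ y.1 (Fo.g r fun i => D.v (hx y.1, Fo.g (-r) Y i)) i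
    rw [e9, fi_zero, up_zero, Lo.g_N r (D.π₂ (hx y.1))] at k1
    simp only [fun i => o.vp _ (hO i)] at k1
    exact k1.symm
  refine hk.sm ((hx y.1, (r : UnitAddCircle)), pr Y (up s₂ y.1 (fi v.2))) (fun i => ?_) ?_ y.2 ρ hρ
    (by rw [← hk.od, hY, mn_ov]; exact e7)
  · show (hx y.1, Fo.g (-rep (r : UnitAddCircle)) Y i) ∈ D.Ov
    rw [Lo.rep_coe, g_shift]; exact hO _
  · show pr (fun i => Y i - D.π₁ (hx y.1) (Y i) - D.u (hx y.1, up s₂ y.1 (fi v.2) i))
      ((fun i => up s₂ y.1 (fi v.2) i - D.π₂ (hx y.1) (up s₂ y.1 (fi v.2) i)) -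
        Fo.g (rep (r : UnitAddCircle)) fun i =>
          D.v (hx y.1, Fo.g (-rep (r : UnitAddCircle)) Y i)) = 0
    have k1 : (Fo.g (rep (r : UnitAddCircle)) fun i =>
        D.v (hx y.1, Fo.g (-rep (r : UnitAddCircle)) Y i)) = 0 := by
      simp only [Lo.rep_coe, g_shift]
      rw [Fo.g_add, Lo.g_int, ← hv]
      exact congrArg _ (funext fun i => by simp only [Fo.sh, add_sub_cancel_right])
    rw [k1]
    funext i
    have k2 := U_D h₁ y.1 (fun i => D.u (hx y.1, up s₂ y.1 (fi v.2) i)) i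
    rw [show fo _ = 0 from e6, fi_zero, up_zero, st.u] at k2
    simp only [Pm.pr, hY, pi_up h₁, pi_up h₂, ← k2, sub_self, Pi.zero_apply, Pi.sub_apply]
    rfl

end I2

end Crest.Agent.N218.D6

end
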