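import Crest.Agent.N218.D6.Inst1
import Crest.Agent.N218.D6.Inst2

/-! # Row 218, block D6 (helper34): leaf INST -/

namespace Crest.Agent.N218.D6

theorem inst : INST := fun _ _ _ _ _ _ _ _ _ _ _ _ _ _ _ _ o st h₁ h₂ _ p _ hk =>
  ⟨I2.sj p, I2.ker p, I1.pγ p o h₁ h₂, I1.pγ0 p o h₁ h₂, I1.e0 p, I2.pμ p o h₁ h₂,
    I2.pμ0 p o h₁ h₂, I2.m0 p, I2.pk p h₁ h₂ hk, I2.k0 p h₁ h₂ hk, I2.hi p, I2.hu p, I2.u0 p,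
    I2.sm p o st h₁ h₂ hk⟩

end Crest.Agent.N218.D6
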