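import Crest.Agent.N218.D6.Df2
import Crest.Agent.N218.Pm.Loop

/-!
# Row 218, block D6 (helper99): leaf KVE, the cycle
-/

set_option autoImplicit false
set_option linter.unusedVariables false

open unitInterval Set
open scoped ComplexConjugate

noncomputable section

namespace Crest.Agent.N218.D6

open K K.Cp Pm In
open Sk (Cn)

namespace Kv
variable {k : ℕ} {E : Type} [NormedAddCommGroup E] [NormedSpace ℂ E]

theorem hq (k : ℕ) : 2 ^ (k + 1) = 2 ^ k + 2 ^ k := by ring

theorem mn_yk (y : V k E) : mn y = Yk.mn (Equiv.addRight ((2 ^ k : ℕ) : Ix k)) y := by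
  funext i; simp [mn, Yk.mn]

theorem D_mn (y : V k E) (j : Ix k) :
    Fo.D _ E (mn y) j = if Odd j.val then Fo.D _ E y j else 0 := by
  rw [mn_yk]; exact Fo.D_mn (hq k) y j

theorem mul_inv {j : Ix k} (h : Odd j.val) : j * j⁻¹ = 1 := by
  have := ZMod.coe_mul_inv_eq_one (n := 2 ^ (k + 1)) j.val
    (Nat.Coprime.pow_right _ (Nat.coprime_two_right.2 h))
  rwa [ZMod.natCast_zmod_val] at this

theorem ex_ne {j : Ix k} (h : Odd j.val) : (j⁻¹).val ≠ 0 := fun e => by
  have := mul_inv h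
  rw [(ZMod.val_eq_zero _).1 e, mul_zero] at this
  have : Fact (1 < 2 ^ (k + 1)) := ⟨Nat.one_lt_two_pow (by omega)⟩
  exact zero_ne_one (α := Ix k) ‹_›

variable {N : ℕ} (e : E ≃L[ℂ] (Fin N → ℂ))

/-- powers of the odd Fourier coefficients -/
def k0 (v : V k E) : (Ix k × Fin N) ⊕ Fin 7 → ℂ :=
  Sum.elim (fun p => if Odd p.1.val then e (Fo.D _ E v p.1) p.2 ^ (p.1⁻¹).val else 0) 0

theorem k0_ct : Continuous (k0 (k := k) e) := continuous_pi fun p => by
  rcases p with p | p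
  · simp only [k0, Sum.elim_inl]
    split_ifs
    · fun_prop
    · exact continuous_const
  · exact continuous_const

theorem k0_sh (a : Ix k) (v : V k E) (p) : k0 e (Fo.sh a v) p = Fo.ch a * k0 e v p := by
  rcases p with p | p
  · simp only [k0, Sum.elim_inl]
    split_ifs with h
    · rw [Fo.D_sh, map_smul, Pi.smul_apply, smul_eq_mul, mul_pow, ← Fo.ch_mul, mul_assoc,
        mul_inv h, mul_one]
    · rw [mul_zero]
  · exact (mul_zero _).symm

theorem k0_mn (v : V k E) : k0 e (mn v) = k0 e v := funext fun p => by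
  rcases p with p | p
  · simp only [k0, Sum.elim_inl]
    split_ifs with h
    · rw [D_mn, if_pos h]
    · rfl
  · rfl

theorem k0_bd (R : ℝ) : ∃ R', ∀ v : V k E, (∀ p, ‖k0 e v p‖ ≤ R) → ‖mn v‖ ≤ R' := by
  refine ⟨‖(Fo.D (2 ^ (k + 1)) E).symm.toContinuousLinearMap‖ * (‖(e.symm : (Fin N → ℂ) →L[ℂ] E)‖ * max 1 R),
    fun v h => ?_⟩
  rw [← (Fo.D (2 ^ (k + 1)) E).symm_apply_apply (mn v)]
  refine (Fo.D (2 ^ (k + 1)) E).symm.toContinuousLinearMap.le_opNorm_of_le
    ((pi_norm_le_iff_of_nonneg (by positivity)).2 fun j => ?_)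
  rw [D_mn]
  split_ifs with hj
  · rw [← e.symm_apply_apply (Fo.D _ E v j)]
    refine (e.symm : (Fin N → ℂ) →L[ℂ] E).le_opNorm_of_le
      ((pi_norm_le_iff_of_nonneg (by positivity)).2 fun i => ?_)
    have := h (.inl (j, i))
    simp only [k0, Sum.elim_inl, if_pos hj, norm_pow] at this
    rcases le_total ‖e (Fo.D _ E v j) i‖ 1 with c | c
    · exact le_max_of_le_left c
    · exact le_max_of_le_right ((le_self_pow₀ c (ex_ne hj)).trans this)
  · rw [norm_zero]; positivity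

theorem k0_z (v : V k E) : k0 e v = 0 ↔ mn v = 0 := by
  rw [mn_yk, Fo.mn_zero_iff (hq k)]
  refine ⟨fun h j hj => e.injective (funext fun i => ?_), fun h => funext fun p => ?_⟩
  · have := congrFun h (.inl (j, i))
    simp only [k0, Sum.elim_inl, if_pos hj] at this
    rw [map_zero]; exact eq_zero_of_pow_eq_zero this
  · rcases p with p | p
    · simp only [k0, Sum.elim_inl]
      split_ifs with c
      · rw [h _ c, map_zero]; exact zero_pow (ex_ne c)
      · rfl
    · rfl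

theorem us_ge {m : ℕ} (u : US m) : 1 ≤ m * ‖u.1‖ ^ 2 := by
  have h := congrArg Complex.re u.2
  rw [Complex.re_sum] at h
  calc (1 : ℝ) = _ := h.symm
    _ ≤ ∑ _i : Fin m, ‖u.1‖ ^ 2 := Finset.sum_le_sum fun i _ => by
      rw [Complex.conj_mul', ← Complex.ofReal_pow, Complex.ofReal_re]
      exact pow_le_pow_left₀ (norm_nonneg _) (norm_le_pi_norm u.1 i) 2
    _ = _ := by simp

end Kv
open Kv

theorem kve : KVE := by
  intro k n n₁ n₂ D c κ R₀ M a a' b b' s₁ s₂ hk hD _ _ _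
  let e : (Cn n₁ × Cn n₂) ≃L[ℂ] (Fin (Module.finrank ℂ (Cn n₁ × Cn n₂)) → ℂ) :=
    .ofFinrankEq (by simp)
  let f := (Fintype.equivFin ((Ix k × Fin (Module.finrank ℂ (Cn n₁ × Cn n₂))) ⊕ Fin 7)).symm
  obtain ⟨R, hR⟩ := Data.LR_bd (k := k) hD 0
  obtain ⟨C, hC⟩ := ((isCompact_closedBall (0 : V k (Cn n₁ × Cn n₂)) R).image
    (k0_ct e)).isBounded.exists_norm_le
  set m := Fintype.card ((Ix k × Fin (Module.finrank ℂ (Cn n₁ × Cn n₂))) ⊕ Fin 7) with hm
  have m7 : 7 ≤ m := by rw [hm, Fintype.card_sum, Fintype.card_fin]; omega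
  obtain ⟨ε, e0, e1⟩ : ∃ ε : ℝ, 0 < ε ∧ ε * (|C| + 1) * (m + 1) = 1 :=
    ⟨((|C| + 1) * (m + 1))⁻¹, by positivity, by field_simp⟩
  have e2 : (ε : ℂ) ≠ 0 := Complex.ofReal_ne_zero.2 e0.ne'
  refine ⟨m, fun v i => ε * k0 e v (f i), m7,
    continuous_pi fun i => continuous_const.mul ((continuous_apply _).comp (k0_ct e)),
    fun g v => funext fun i => ?_, fun v => by simp only [k0_mn], fun R => ?_, fun v => ?_, ?_⟩
  · exact (congrArg _ (k0_sh e g.toAdd v _)).trans (mul_left_comm _ _ _)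
  · obtain ⟨R', h⟩ := k0_bd (k := k) e (R / ε)
    refine ⟨R', fun v hv => h v fun p => ?_⟩
    have := (norm_le_pi_norm _ (f.symm p)).trans hv
    rw [Equiv.apply_symm_apply, norm_mul, Complex.norm_real, Real.norm_of_nonneg e0.le] at this
    rwa [le_div_iff₀' e0]
  · rw [← k0_z e]
    refine ⟨fun h => funext fun p => ?_, fun h => funext fun i => by simp [h]⟩
    have := congrFun h (f.symm p)
    rw [Equiv.apply_symm_apply] at this
    exact (mul_eq_zero.1 this).resolve_left e2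
  · intro x hx h0 u ρ hρ h
    have b := (hR (((x.1.1, rep x.1.2), 1), x.2) hx (by
      rw [← norm_zero (E := V k (Cn n₁ × Cn n₂)), ← h0]
      simp [Data.LR, Data.Orb])).1
    have b2 := hC _ ⟨x.2, mem_closedBall_zero_iff.2 b, rfl⟩
    have b3 : ‖ρ • u.1‖ ≤ ε * |C| := h ▸ (pi_norm_le_iff_of_nonneg (by positivity)).2 fun i => by
      rw [norm_mul, Complex.norm_real, Real.norm_of_nonneg e0.le]
      exact mul_le_mul_of_nonneg_left ((norm_le_pi_norm _ _).trans (b2.trans (le_abs_self C))) e0.le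
    rw [norm_smul, Real.norm_of_nonneg (by linarith)] at b3
    have u0 := norm_nonneg u.1
    have b4 : ‖u.1‖ * (m + 1) < 1 := by
      have : ‖u.1‖ ≤ ε * |C| := by nlinarith
      have p : (0 : ℝ) < m + 1 := by positivity
      nlinarith [mul_pos e0 p]
    have := us_ge u
    have m0 : (0 : ℝ) ≤ m := by positivity
    nlinarith [mul_nonneg m0 u0]

end Crest.Agent.N218.D6
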