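import Crest.Agent.N218.D6.Df2

/-!
# Row 218, block D6 (helper34): kit for the coordinates `fo, fi, up, dn`
-/

set_option autoImplicit false
set_option linter.unusedVariables false

open Topology Filter Set OnePoint
open scoped InnerProductSpace ComplexConjugate

noncomputable section

namespace Crest.Agent.N218.D6

open K K.Cp Pm In
open Sk (Cn S2 S3 X22 hfv Frm Sat)

variable {k n : ℕ}

/-- the coordinate space -/
abbrev CC (k n : ℕ) : Type := (Ev k × Fin n → ℂ) × (Od k × Fin n → ℂ)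

/-! ## `fo` and `fi` -/

theorem fo_fi (c : CC k n) : fo (fi c) = c := by
  refine Prod.ext (funext fun p => ?_) (funext fun p => ?_)
  · simp only [fo, fi, ContinuousLinearEquiv.apply_symm_apply, dif_pos p.1.2]
  · simp only [fo, fi, ContinuousLinearEquiv.apply_symm_apply,
      dif_neg (Nat.not_even_iff_odd.2 p.1.2)]

theorem fi_fo (y : V k (Fin n → ℂ)) : fi (fo y) = y := by
  rw [fi, ContinuousLinearEquiv.symm_apply_eq]
  funext p
  split_ifs <;> rfl

variable (k n) in
/-- Fourier coordinates as a linear homeomorphism -/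
def foE : V k (Fin n → ℂ) ≃L[ℂ] CC k n :=
  LinearEquiv.toContinuousLinearEquiv
    { toFun := fo, invFun := fi, left_inv := fi_fo, right_inv := fo_fi
      map_add' := fun x y => by simp only [fo, map_add]; rfl
      map_smul' := fun a y => by simp only [fo, _root_.map_smul]; rfl }

theorem foE_apply (y : V k (Fin n → ℂ)) : foE k n y = fo y := rfl
theorem foE_symm (c : CC k n) : (foE k n).symm c = fi c := rfl
theorem fo_inj : Function.Injective (fo : V k (Fin n → ℂ) → CC k n) := (foE k n).injective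
theorem fi_inj : Function.Injective (fi : CC k n → V k (Fin n → ℂ)) := (foE k n).symm.injective
@[fun_prop] theorem ct_fo : Continuous (fo : V k (Fin n → ℂ) → CC k n) := (foE k n).continuous
@[fun_prop] theorem ct_fi : Continuous (fi : CC k n → V k (Fin n → ℂ)) := (foE k n).symm.continuous
theorem fo_add (x y : V k (Fin n → ℂ)) : fo (x + y) = fo x + fo y := (foE k n).map_add x y
theorem fo_sub (x y : V k (Fin n → ℂ)) : fo (x - y) = fo x - fo y := (foE k n).map_sub x y
theorem fo_neg (x : V k (Fin n → ℂ)) : fo (-x) = -fo x := (foE k n).map_neg x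
theorem fo_zero : fo (0 : V k (Fin n → ℂ)) = 0 := (foE k n).map_zero
theorem fo_smul (a : ℂ) (x : V k (Fin n → ℂ)) : fo (a • x) = a • fo x := (foE k n).map_smul a x
theorem fo_rsmul (a : ℝ) (x : V k (Fin n → ℂ)) : fo (a • x) = a • fo x :=
  (foE k n).toContinuousLinearMap.map_smul_of_tower a x
theorem fi_add (x y : CC k n) : fi (x + y) = fi x + fi y := (foE k n).symm.map_add x y
theorem fi_sub (x y : CC k n) : fi (x - y) = fi x - fi y := (foE k n).symm.map_sub x y
theorem fi_neg (x : CC k n) : fi (-x) = -fi x := (foE k n).symm.map_neg x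
theorem fi_zero : fi (0 : CC k n) = 0 := (foE k n).symm.map_zero
theorem fi_smul (a : ℂ) (x : CC k n) : fi (a • x) = a • fi x := (foE k n).symm.map_smul a x
theorem fi_rsmul (a : ℝ) (x : CC k n) : fi (a • x) = a • fi x :=
  (foE k n).symm.toContinuousLinearMap.map_smul_of_tower a x
theorem fo_bd : ∃ C : ℝ, 0 < C ∧ ∀ y : V k (Fin n → ℂ), ‖fo y‖ ≤ C * ‖y‖ :=
  (foE k n).toContinuousLinearMap.bound
theorem fi_bd : ∃ C : ℝ, 0 < C ∧ ∀ c : CC k n, ‖fi c‖ ≤ C * ‖c‖ :=
  (foE k n).symm.toContinuousLinearMap.bound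

/-- multipliers are diagonal -/
theorem fo_mu (ν : Ix k → ℂ) (y : V k (Fin n → ℂ)) : fo (Fo.mu ν y) =
    (fun p => ν p.1.1 * (fo y).1 p, fun p => ν p.1.1 * (fo y).2 p) :=
  Prod.ext (funext fun p => congrFun (Fo.D_mu ν y p.1.1) p.2)
    (funext fun p => congrFun (Fo.D_mu ν y p.1.1) p.2)
theorem mu_fi (ν : Ix k → ℂ) (c : CC k n) : Fo.mu ν (fi c) =
    fi (fun p => ν p.1.1 * c.1 p, fun p => ν p.1.1 * c.2 p) :=
  fo_inj (by rw [fo_mu, fo_fi, fo_fi])
/-- so are diagonal maps of the slots -/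
theorem fo_dg (l : Fin n → ℂ) (y : V k (Fin n → ℂ)) : fo (fun i j => l j * y i j) =
    (fun p => l p.2 * (fo y).1 p, fun p => l p.2 * (fo y).2 p) := by
  have (p : Ix k × Fin n) : Fo.co _ _ (fun i j => l j * y i j) p = l p.2 * Fo.co _ _ y p := by
    simp only [Fo.co_apply, Fo.D_apply, Finset.sum_apply, Pi.smul_apply, smul_eq_mul,
      Finset.mul_sum, mul_left_comm]
  exact Prod.ext (funext fun p => this _) (funext fun p => this _)

section mn
variable {E : Type} [NormedAddCommGroup E] [NormedSpace ℂ E]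
theorem mn_mu (y : V k E) : mn y = Fo.mu (fun j : Ix k => if Odd j.val then 1 else 0) y := by
  rw [← Fo.mn_eq (m := 2 ^ k) (by ring)]
  funext i
  simp [mn, Yk.mn]
theorem mu_mn (ν : Ix k → ℂ) (y : V k E) : Fo.mu ν (mn y) = mn (Fo.mu ν y) := by
  rw [mn_mu, mn_mu, Fo.mu_comm]
theorem g_mn (r : ℝ) (y : V k E) : Fo.g r (mn y) = mn (Fo.g r y) := mu_mn _ y
theorem mn_eq0 {y : V k E} : mn y = 0 ↔ ∀ i, y (i + 2 ^ k) = y i := by
  simp only [funext_iff, mn, Pi.zero_apply, smul_eq_zero, sub_eq_zero]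
  exact forall_congr' fun i => ⟨fun h => (h.resolve_left (by norm_num)).symm, fun h => .inr h.symm⟩
theorem mn_g {r : ℝ} {y : V k E} (h : mn y = 0) : mn (Fo.g r y) = 0 := by
  rw [← g_mn, h, map_zero]
/-- nonlinear maps of the slots keep the even part -/
theorem mn_nl {F : Type} [NormedAddCommGroup F] [NormedSpace ℂ F] (f : E → F) {y : V k E}
    (h : mn y = 0) : mn (fun i => f (y i)) = 0 :=
  mn_eq0.2 fun i => congrArg f (mn_eq0.1 h i)
end mn

theorem fo_mn (y : V k (Fin n → ℂ)) : fo (mn y) = (0, (fo y).2) := by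
  rw [mn_mu, fo_mu]
  refine Prod.ext (funext fun p => ?_) (funext fun p => ?_)
  · simp [Nat.not_odd_iff_even.2 p.1.2]
  · simp [p.1.2]
theorem mn_fi (c : CC k n) : mn (fi c) = fi (0, c.2) := fo_inj (by rw [fo_mn, fo_fi, fo_fi])
theorem fo_snd {y : V k (Fin n → ℂ)} : (fo y).2 = 0 ↔ mn y = 0 :=
  ⟨fun h => fo_inj (by rw [fo_mn, h, fo_zero]; rfl),
    fun h => by have := fo_mn y; rw [h, fo_zero] at this; exact (congrArg Prod.snd this).symm⟩
theorem mn_fi0 (w : Ev k × Fin n → ℂ) : mn (fi ((w, 0) : CC k n)) = 0 := fo_snd.1 (by rw [fo_fi])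

/-! ## the base -/

@[fun_prop] theorem ct_s3 : Continuous s3 := Continuous.subtype_mk (by fun_prop) _
theorem ct_hfv : Continuous hfv := by
  refine (PiLp.continuous_toLp 2 _).comp (continuous_pi fun i => ?_)
  fin_cases i <;> simp <;> fun_prop
@[fun_prop] theorem ct_hp : Continuous hp :=
  Continuous.subtype_mk (ct_hfv.comp (continuous_subtype_val.comp ct_s3)) _
@[fun_prop] theorem ct_ys : Continuous ys := by unfold ys; fun_prop
@[fun_prop] theorem ct_hx : Continuous hx := by unfold hx; fun_prop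

theorem s3_act {u u' : US 2} {t : Circle} (h : ∀ i, u'.1 i = t * u.1 i) :
    (s3 u' : Cn 2) = (t : ℂ) • (s3 u : Cn 2) := by
  ext i; exact h i
theorem hp_act {u u' : US 2} {t : Circle} (h : ∀ i, u'.1 i = t * u.1 i) : hp u' = hp u := by
  have e : conj (u'.1 0) * u'.1 1 = conj (u.1 0) * u.1 1 := by
    rw [h, h, map_mul, mul_mul_mul_comm, ← Circle.coe_inv_eq_conj, ← Circle.coe_mul, inv_mul_cancel,
      Circle.coe_one, one_mul]
  have e' (i : Fin 2) : ‖u'.1 i‖ = ‖u.1 i‖ := by rw [h, norm_mul, Circle.norm_coe, one_mul]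
  refine Subtype.ext ?_
  change !₂[2 * (conj (u'.1 0) * u'.1 1).re, 2 * (conj (u'.1 0) * u'.1 1).im,
    ‖u'.1 0‖ ^ 2 - ‖u'.1 1‖ ^ 2] = _
  rw [e, e', e']; rfl
/-- the action on `S³ × S³` -/
def ay (g : GT) (y : US 2 × US 2) : US 2 × US 2 := Y0.act g y
theorem hx_ay (g : GT) (y : US 2 × US 2) : hx (ay g y) = hx y :=
  Prod.ext (hp_act (t := ca g) fun _ => rfl) (hp_act (t := cb g) fun _ => rfl)

/-! ## `up` and `dn` -/

section fr
variable {E : Type} [NormedAddCommGroup E] [InnerProductSpace ℂ E] (s : Fin n → S3 × S3 → E)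
  (y : US 2 × US 2)

/-- one slot of `up` -/
def uL : (Fin n → ℂ) →L[ℂ] E := ∑ j, (ContinuousLinearMap.proj j).smulRight (s j (ys y))
/-- one slot of `dn` -/
def dL : E →L[ℂ] (Fin n → ℂ) := ContinuousLinearMap.pi fun j => innerSL ℂ (s j (ys y))
theorem up_eq (c : V k (Fin n → ℂ)) : up s y c = fun i => uL s y (c i) := by
  funext i; simp [up, uL]
theorem dn_eq (e : V k E) : dn s y e = fun i => dL s y (e i) := rfl
theorem up_add (c c' : V k (Fin n → ℂ)) : up s y (c + c') = up s y c + up s y c' := by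
  simp only [up_eq, Pi.add_apply, map_add]; rfl
theorem up_sub (c c' : V k (Fin n → ℂ)) : up s y (c - c') = up s y c - up s y c' := by
  simp only [up_eq, Pi.sub_apply, map_sub]; rfl
theorem up_neg (c : V k (Fin n → ℂ)) : up s y (-c) = -up s y c := by
  simp only [up_eq, Pi.neg_apply, map_neg]; rfl
theorem up_zero : up s y (0 : V k (Fin n → ℂ)) = 0 := by
  simp only [up_eq, Pi.zero_apply, map_zero]; rfl
theorem up_smul (a : ℂ) (c : V k (Fin n → ℂ)) : up s y (a • c) = a • up s y c := by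
  simp only [up_eq, Pi.smul_apply, _root_.map_smul]; rfl
theorem up_rsmul (a : ℝ) (c : V k (Fin n → ℂ)) : up s y (a • c) = a • up s y c := by
  simp only [up_eq, Pi.smul_apply, ContinuousLinearMap.map_smul_of_tower]; rfl
theorem dn_add (c c' : V k E) : dn s y (c + c') = dn s y c + dn s y c' := by
  simp only [dn_eq, Pi.add_apply, map_add]; rfl
theorem dn_sub (c c' : V k E) : dn s y (c - c') = dn s y c - dn s y c' := by
  simp only [dn_eq, Pi.sub_apply, map_sub]; rfl
theorem dn_neg (c : V k E) : dn s y (-c) = -dn s y c := by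
  simp only [dn_eq, Pi.neg_apply, map_neg]; rfl
theorem dn_zero : dn s y (0 : V k E) = 0 := by
  simp only [dn_eq, Pi.zero_apply, map_zero]; rfl
theorem dn_smul (a : ℂ) (c : V k E) : dn s y (a • c) = a • dn s y c := by
  simp only [dn_eq, Pi.smul_apply, _root_.map_smul]; rfl
theorem dn_rsmul (a : ℝ) (c : V k E) : dn s y (a • c) = a • dn s y c := by
  simp only [dn_eq, Pi.smul_apply, ContinuousLinearMap.map_smul_of_tower]; rfl
theorem mu_up (ν : Ix k → ℂ) (c : V k (Fin n → ℂ)) : Fo.mu ν (up s y c) = up s y (Fo.mu ν c) := by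
  rw [up_eq, up_eq, Fo.mu_N]
theorem mu_dn (ν : Ix k → ℂ) (e : V k E) : Fo.mu ν (dn s y e) = dn s y (Fo.mu ν e) := by
  rw [dn_eq, dn_eq, Fo.mu_N]
theorem g_up (r : ℝ) (c : V k (Fin n → ℂ)) : Fo.g r (up s y c) = up s y (Fo.g r c) := mu_up s y _ c
theorem g_dn (r : ℝ) (e : V k E) : Fo.g r (dn s y e) = dn s y (Fo.g r e) := mu_dn s y _ e
theorem mn_up (c : V k (Fin n → ℂ)) : mn (up s y c) = up s y (mn c) := by
  rw [mn_mu, mn_mu, mu_up]
theorem mn_dn (e : V k E) : mn (dn s y e) = dn s y (mn e) := by rw [mn_mu, mn_mu, mu_dn]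
theorem sh_up (a : Ix k) (c : V k (Fin n → ℂ)) : Fo.sh a (up s y c) = up s y (Fo.sh a c) := rfl
theorem sh_dn (a : Ix k) (e : V k E) : Fo.sh a (dn s y e) = dn s y (Fo.sh a e) := rfl
theorem mn_up0 (w : Ev k × Fin n → ℂ) : mn (up s y (fi ((w, 0) : CC k n))) = 0 := by
  rw [mn_up, mn_fi0, up_zero]
theorem fo_dn0 {e : V k E} (h : mn e = 0) : (fo (dn s y e)).2 = 0 :=
  fo_snd.2 (by rw [mn_dn, h, dn_zero])

variable {s} {π : X22 → E →L[ℂ] E} {a a' : Fin n → ℤ} (h : Frm π a a' s)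
include h

theorem ct_up {T : Type*} [TopologicalSpace T] {y : T → US 2 × US 2} {c : T → V k (Fin n → ℂ)}
    (hy : Continuous y) (hc : Continuous c) : Continuous fun t => up s (y t) (c t) :=
  continuous_pi fun i => continuous_finsetSum _ fun j _ =>
    ((continuous_apply j).comp ((continuous_apply i).comp hc)).smul
      ((h.ct j).comp (ct_ys.comp hy))
theorem ct_dn {T : Type*} [TopologicalSpace T] {y : T → US 2 × US 2} {e : T → V k E}
    (hy : Continuous y) (he : Continuous e) : Continuous fun t => dn s (y t) (e t) :=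
  continuous_pi fun i => continuous_pi fun j =>
    ((h.ct j).comp (ct_ys.comp hy)).inner ((continuous_apply i).comp he)
theorem up_dn (e : V k E) : up s y (dn s y e) = fun i => π (hx y) (e i) :=
  funext fun i => (h.sp (hx y) (ys y) rfl rfl (e i)).symm
theorem dn_up (c : V k (Fin n → ℂ)) : dn s y (up s y c) = c := by
  funext i j
  simp [dn, up, h.on]
theorem pi_up (c : V k (Fin n → ℂ)) (i : Ix k) : π (hx y) (up s y c i) = up s y c i := by
  have := up_dn y h (up s y c)
  rw [dn_up y h] at this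
  exact (congrFun this i).symm
theorem dn_pi (e : V k E) : dn s y (fun i => π (hx y) (e i)) = dn s y e := by
  rw [← up_dn y h, dn_up y h]
theorem up_dn' {e : V k E} (he : ∀ i, π (hx y) (e i) = e i) : up s y (dn s y e) = e :=
  (up_dn y h e).trans (funext he)
theorem up_inj : Function.Injective (up (k := k) s y) := fun c c' e => by
  rw [← dn_up y h c, e, dn_up y h]
theorem norm_s (j : Fin n) (z : S3 × S3) : ‖s j z‖ = 1 := by
  have := h.on j j z
  rw [norm_eq_sqrt_re_inner (𝕜 := ℂ), this, if_pos rfl]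
  simp
theorem norm_dn (e : V k E) : ‖dn s y e‖ ≤ ‖e‖ :=
  (pi_norm_le_iff_of_nonneg (norm_nonneg _)).2 fun i =>
    (pi_norm_le_iff_of_nonneg (norm_nonneg _)).2 fun j => (norm_inner_le_norm _ _).trans (by
      rw [norm_s h, one_mul]; exact norm_le_pi_norm e i)
theorem norm_up (c : V k (Fin n → ℂ)) : ‖up s y c‖ ≤ n * ‖c‖ :=
  (pi_norm_le_iff_of_nonneg (by positivity)).2 fun i => (norm_sum_le _ _).trans (by
    refine (Finset.sum_le_card_nsmul _ _ ‖c‖ fun j _ => ?_).trans (by simp)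
    rw [norm_smul, norm_s h, mul_one]
    exact (norm_le_pi_norm (c i) j).trans (norm_le_pi_norm c i))
theorem le_up (c : V k (Fin n → ℂ)) : ‖c‖ ≤ ‖up s y c‖ := by
  have := norm_dn y h (up s y c)
  rwa [dn_up y h] at this
theorem pi_g (r : ℝ) {e : V k E} (he : ∀ i, π (hx y) (e i) = e i) (i : Ix k) :
    π (hx y) (Fo.g r e i) = Fo.g r e i := by
  rw [← up_dn' y h he, g_up, pi_up y h]

theorem s_ay (g : GT) (j : Fin n) :
    s j (ys (ay g y)) = ((ca g : ℂ) ^ a j * (cb g : ℂ) ^ a' j) • s j (ys y) :=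
  h.eq j (ys y) (ys (ay g y)) (ca g) (cb g) (s3_act fun _ => rfl) (s3_act fun _ => rfl)
end fr

/-! ## equivariance -/

/-- the action on the coordinates; this is `((WE k a a').prod (WO k a a')).ρ g c` -/
def aw (a a' : Fin n → ℤ) (g : GT) (c : CC k n) : CC k n :=
  (fun p => (wc p.1.1.val (a p.2) (a' p.2) g : ℂ) * c.1 p,
    fun p => (wc p.1.1.val (a p.2) (a' p.2) g : ℂ) * c.2 p)
theorem aw_eq (a a' : Fin n → ℤ) (g : GT) (c : CC k n) :
    ((WE k a a').prod (WO k a a')).ρ g c = aw a a' g c := rfl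
theorem aw_fst (a a' : Fin n → ℤ) (g : GT) (c : CC k n) :
    (aw a a' g c).1 = (WE k a a').ρ g c.1 := rfl
theorem aw_snd (a a' : Fin n → ℤ) (g : GT) (c : CC k n) :
    (aw a a' g c).2 = (WO k a a').ρ g c.2 := rfl
theorem aw_inl (a a' : Fin n → ℤ) (g : GT) (w : Ev k × Fin n → ℂ) :
    aw a a' g ((w, 0) : CC k n) = ((WE k a a').ρ g w, 0) :=
  Prod.ext rfl (funext fun _ => mul_zero _)
theorem aw_inr (a a' : Fin n → ℤ) (g : GT) (w : Od k × Fin n → ℂ) :
    aw a a' g ((0, w) : CC k n) = (0, (WO k a a').ρ g w) :=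
  Prod.ext (funext fun _ => mul_zero _) rfl
theorem wc_apply (j : ℕ) (a a' : ℤ) (g : GT) :
    (wc j a a' g : ℂ) = (c1 g : ℂ) ^ j * ((ca g : ℂ) ^ a * (cb g : ℂ) ^ a')⁻¹ := by
  simp [wc, mul_comm]

section eqv
variable {E : Type} [NormedAddCommGroup E] [NormedSpace ℂ E]
/-- the circle action -/
def ci (z : Circle) : V k E →L[ℂ] V k E := Fo.mu fun j : Ix k => (z : ℂ) ^ j.val
theorem ci_ck (g : Gk k) (e : V k E) : ci (ck k g) e = fun i => e (i + g.toAdd) :=
  (Fo.mu_congr fun j => .inl (Fo.ch_mul _ _).symm).trans (Fo.sh_eq _ _).symm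
theorem ci_exp (r : ℝ) (e : V k E) :
    ci (Circle.exp (2 * Real.pi * r / (2 ^ (k + 1) : ℕ))) e = Fo.g r e :=
  Fo.mu_congr fun j => .inl (by
    rw [Circle.coe_exp, ← Complex.exp_nat_mul, Fo.gs]; congr 1; push_cast; ring)
theorem g_ci (r : ℝ) (z : Circle) (e : V k E) : Fo.g r (ci z e) = ci z (Fo.g r e) :=
  Fo.mu_comm _ _ _
end eqv

section eqv2
variable {E : Type} [NormedAddCommGroup E] [InnerProductSpace ℂ E] {s : Fin n → S3 × S3 → E}
  {π : X22 → E →L[ℂ] E} {a a' : Fin n → ℤ} (h : Frm π a a' s) (g : GT) (y : US 2 × US 2)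
include h

theorem dn_ay (e : V k E) : fo (dn s (ay g y) (ci (c1 g) e)) = aw a a' g (fo (dn s y e)) := by
  have : dn s (ay g y) (ci (c1 g) e) =
      fun i j => ((ca g : ℂ) ^ a j * (cb g : ℂ) ^ a' j)⁻¹ * dn s y (ci (c1 g) e) i j := by
    funext i j
    rw [dn, s_ay y h, inner_smul_left, ← Circle.coe_zpow, ← Circle.coe_zpow, ← Circle.coe_mul,
      ← Circle.coe_inv_eq_conj, Circle.coe_inv]
    rfl
  rw [this, fo_dg, ci, ← mu_dn, fo_mu]
  refine Prod.ext (funext fun p => ?_) (funext fun p => ?_) <;> simp only [aw, wc_apply] <;> ring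
theorem up_ay (c : CC k n) : up s (ay g y) (fi (aw a a' g c)) = ci (c1 g) (up s y (fi c)) := by
  have := dn_ay h g y (up s y (fi c))
  rw [dn_up y h, fo_fi] at this
  rw [← this, fi_fo, up_dn' _ h fun i => ?_]
  rw [ci, mu_up, hx_ay, pi_up y h]
/-- the small group acts by shifts -/
theorem dn_ph (g : GG k) (e : V k E) :
    fo (dn s (ay (ph k g) y) fun i => e (i + g.1.toAdd)) = aw a a' (ph k g) (fo (dn s y e)) := by
  rw [← dn_ay h, ← ci_ck]; rfl
theorem up_ph (g : GG k) (c : CC k n) :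
    up s (ay (ph k g) y) (fi (aw a a' (ph k g) c)) = fun i => up s y (fi c) (i + g.1.toAdd) := by
  rw [up_ay h, ← ci_ck]; rfl
end eqv2

end Crest.Agent.N218.D6

end
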