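import Crest.Agent.N218.D6.Lk0
import Crest.Agent.N218.D6.Kit
import Crest.Agent.N218.Sk.SatP
import Crest.Agent.N218.In.Kit

/-!
# Row 218, block D6, leaf LINK1 (helper56): change of the normalising function and of the cycle
-/

set_option autoImplicit false
set_option linter.unusedVariables false
set_option linter.unusedSectionVars false
set_option maxHeartbeats 400000

open Set unitInterval Metric

noncomputable section

namespace Crest.Agent.N218.D6.Lk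

open K Pm In
open Sk (Cn X22 Sat)

namespace Lb

theorem cp_of {X W : Type} [TopologicalSpace X] [T2Space X] [TopologicalSpace W] [T1Space W]
    [Zero W] {O K : Set X} {f : X → W} (c : ContinuousOn f O) (k : IsCompact K) (s : K ⊆ O)
    (z : ∀ x ∈ O, f x = 0 → x ∈ K) : IsCompact {x ∈ O | f x = 0} := by
  have := k.of_isClosed_subset ((c.mono s).preimage_isClosed_of_isClosed k.isClosed
    (isClosed_singleton (x := 0))) inter_subset_left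
  convert this using 1
  exact Set.ext fun x => ⟨fun a => ⟨z x a.1 a.2, a.2⟩, fun a => ⟨s a.1, a.2⟩⟩

theorem tt_c : Continuous tt := by unfold tt; fun_prop
theorem tt0 {ρ : ℝ} (h : ρ ≤ 5 / 4) : tt ρ = 0 := max_eq_left (min_le_of_right_le (by linarith))
theorem tt1 {ρ : ℝ} (h : 3 / 2 ≤ ρ) : tt ρ = 1 := by
  rw [tt, min_eq_left (by linarith), max_eq_right zero_le_one]
theorem tt_mem (ρ : ℝ) : tt ρ ∈ Icc (0 : ℝ) 1 :=
  ⟨le_max_left _ _, max_le zero_le_one (min_le_left _ _)⟩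

theorem us_le {m : ℕ} (u : US m) : ‖u.1‖ ≤ 1 :=
  (pi_norm_le_iff_of_nonneg zero_le_one).2 fun i => Un1.norm_le u.2 i
theorem us_ge {m : ℕ} (u : US m) : 1 ≤ m * ‖u.1‖ := by
  have a : ‖∑ i, (starRingEnd ℂ) (u.1 i) * u.1 i‖ = 1 := by rw [show _ = _ from u.2, norm_one]
  rw [← a]
  refine (norm_sum_le _ _).trans ((Finset.sum_le_card_nsmul _ _ ‖u.1‖ fun i _ => ?_).trans ?_)
  · rw [norm_mul, RCLike.norm_conj]
    exact (mul_le_of_le_one_left (norm_nonneg _) (Un1.norm_le u.2 i)).trans (norm_le_pi_norm _ i)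
  · simp

section
variable {k : ℕ} {E : Type} [NormedAddCommGroup E] [NormedSpace ℝ E]

/-- translation -/
abbrev tr (g : Ix k) (y : V k E) : V k E := fun i => y (i + g)

theorem tr0 (y : V k E) : tr 0 y = y := funext fun i => congrArg y (add_zero i)
theorem mn_tr (g : Ix k) (y : V k E) : mn (tr g y) = tr g (mn y) :=
  funext fun i => by simp only [mn, tr, add_right_comm]
theorem norm_tr (g : Ix k) (y : V k E) : ‖tr g y‖ = ‖y‖ :=
  (Equiv.addRight g).surjective.pi_norm_comp y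

theorem mn_tr0 {g : Ix k} {y : V k E} (e : mn (tr g y) = 0) : mn y = 0 := by
  rwa [mn_tr, ← norm_eq_zero, norm_tr, norm_eq_zero] at e

theorem pm_act {B : Type} [TopologicalSpace B] {A : PM B k E} (h : A.Ok) (g : Ix k) :
    ∀ b y, (b, y) ∈ A.O → (b, tr g y) ∈ A.O ∧ A.P (b, tr g y) = tr g (A.P (b, y)) := by
  induction g using sh_ind with
  | h0 => exact fun b y a => by simp only [tr0]; exact ⟨a, trivial⟩
  | h1 g ih =>
    intro b y a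
    obtain ⟨u, v⟩ := ih b y a
    unfold tr at *
    rw [← sh_tr, ← sh_tr, ← v]
    exact ⟨h.inv _ u, h.eq _ u⟩
end

variable {k n₁ n₂ m : ℕ} (D : Data X22 (Cn n₁) (Cn n₂)) {c κ R₀ M : ℝ}

/-- zeros lie in the ranges of the projections -/
theorem pv_eq (h : D.Ok c κ R₀ M) (S : Sat D) {b : X22 × UnitAddCircle}
    {v a : V k (Cn n₁ × Cn n₂)} (o : (b, v - a) ∈ (D.Orb k).O)
    (e : (D.Orb k).P (b, v - a) + a = 0) : pv D b.1 v = v := by
  funext i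
  have e1 : (v i).1 = D.π₁ b.1 ((v - a) i).1 + D.u (b.1, ((v - a) i).2) := by
    have : (v i).1 - (a i).1 - D.π₁ b.1 ((v - a) i).1 - D.u (b.1, ((v - a) i).2) + (a i).1 = 0 :=
      congrArg (fun w => (w i).1) e
    rw [← sub_eq_zero, ← this]; abel
  have e2 : (v i).2 = D.π₂ b.1 ((v - a) i).2 + Fo.g (rep b.2)
      (fun i => D.v (b.1, Fo.g (-rep b.2) (s1 (v - a)) i)) i := by
    have : (v i).2 - (a i).2 - D.π₂ b.1 ((v - a) i).2 - Fo.g (rep b.2)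
        (fun i => D.v (b.1, Fo.g (-rep b.2) (s1 (v - a)) i)) i + (a i).2 = 0 :=
      congrArg (fun w => (w i).2) e
    rw [← sub_eq_zero, ← this]; abel
  refine Prod.ext ?_ ?_
  · change D.π₁ b.1 (v i).1 = _
    rw [e1, map_add, h.p₁.id, S.u]
  · change D.π₂ b.1 (v i).2 = _
    have := congrFun (Fo.mu_N (Fo.gs (rep b.2)) (D.π₂ b.1)
      fun i => D.v (b.1, Fo.g (-rep b.2) (s1 (v - a)) i)) i
    rw [e2, map_add, h.p₂.id, Fo.g, ← this]
    exact congrArg (fun w => _ + Fo.mu _ w i) (funext fun j => h.vp _ (o j))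

variable (k n₁ n₂ m) in
/-- the total space -/
abbrev TT : Type := I × ((US 2 × US 2) × US m) × V k (Cn n₁ × Cn n₂) × ℂ

variable (kV : V k (Cn n₁ × Cn n₂) → Fin m → ℂ) (δ : ℝ)

/-- the base point -/
def bb (z : TT k n₁ n₂ m) : X22 × UnitAddCircle := (hx z.2.1.1, ang z.2.2.2)
/-- the normalising function -/
def ta (z : TT k n₁ n₂ m) : ℝ := (1 - z.1) * tt ‖z.2.2.2‖ + z.1 * tau δ ((), z.2.2.1)
/-- the correction -/
def aa (z : TT k n₁ n₂ m) : V k (Cn n₁ × Cn n₂) := (1 - ta δ z) • mn z.2.2.1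
/-- the domain -/
def OO : Set (TT k n₁ n₂ m) := {z | z.2.2.2 ≠ 0 ∧ (bb z, z.2.2.1 - aa δ z) ∈ (D.Orb k).O}
/-- the map -/
def ff (z : TT k n₁ n₂ m) : V k (Cn n₁ × Cn n₂) × (Fin m → ℂ) :=
  ((D.Orb k).P (bb z, z.2.2.1 - aa δ z) + aa δ z,
    kV (z.2.2.1 - (1 - z.1 : ℝ) • (z.2.2.1 - pv D (hx z.2.1.1) z.2.2.1)) - ‖z.2.2.2‖ • z.2.1.2.1)

variable {D kV δ}

theorem ta_c : Continuous (ta δ : TT k n₁ n₂ m → ℝ) := by
  have := tt_c
  unfold ta tau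
  fun_prop
theorem aa_c : Continuous (aa δ : TT k n₁ n₂ m → _) := by
  have := ta_c (k := k) (n₁ := n₁) (n₂ := n₂) (m := m) (δ := δ)
  unfold aa
  fun_prop
theorem ta_mem (hδ : 0 < δ) (z : TT k n₁ n₂ m) : ta δ z ∈ Icc (0 : ℝ) 1 := by
  have a := tt_mem ‖z.2.2.2‖
  have b := (tau_ok hδ).mem ((), z.2.2.1)
  have c := z.1.2
  unfold ta
  constructor <;> nlinarith [a.1, a.2, b.1, b.2, c.1, c.2]
theorem cw_c : ContinuousOn (fun z : TT k n₁ n₂ m => (bb z, z.2.2.1 - aa δ z))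
    {z | z.2.2.2 ≠ 0} := by
  have a : Continuous fun z : TT k n₁ n₂ m => hx z.2.1.1 := by fun_prop
  have b : ContinuousOn (fun z : TT k n₁ n₂ m => ang z.2.2.2) {z | z.2.2.2 ≠ 0} :=
    ang_on.comp (f := fun z : TT k n₁ n₂ m => z.2.2.2) (by fun_prop) fun _ a => a
  have c : Continuous fun z : TT k n₁ n₂ m => z.2.2.1 := by fun_prop
  exact (a.continuousOn.prodMk b).prodMk (c.sub aa_c).continuousOn

theorem op (h : D.Ok c κ R₀ M) : IsOpen (OO D δ : Set (TT k n₁ n₂ m)) :=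
  cw_c.isOpen_inter_preimage (isOpen_ne_fun (by fun_prop) continuous_const) (Sk.Sa.orb_ok h k).op

theorem ct (h : D.Ok c κ R₀ M) (H : KV k D kV) : ContinuousOn (ff D kV δ) (OO D δ) := by
  have p1 := h.p₁.ct
  have p2 := h.p₂.ct
  have := H.ct
  refine ContinuousOn.prodMk (((Sk.Sa.orb_ok h k).ct.comp (cw_c.mono fun _ a => a.1)
    fun _ a => a.2).add aa_c.continuousOn) (Continuous.continuousOn ?_)
  unfold pv
  fun_prop

theorem zer (h : D.Ok c κ R₀ M) (S : Sat D) {z : TT k n₁ n₂ m} (o : z ∈ OO D δ)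
    (e : ff D kV δ z = 0) : (D.Orb k).P (bb z, z.2.2.1 - aa δ z) + aa δ z = 0 ∧
      kV z.2.2.1 = ‖z.2.2.2‖ • z.2.1.2.1 := by
  have e1 : (D.Orb k).P (bb z, z.2.2.1 - aa δ z) + aa δ z = 0 := congrArg Prod.fst e
  have e2 : kV (z.2.2.1 - (1 - z.1 : ℝ) • (z.2.2.1 - pv D (hx z.2.1.1) z.2.2.1)) -
    ‖z.2.2.2‖ • z.2.1.2.1 = 0 := congrArg Prod.snd e
  have p : pv D (hx z.2.1.1) z.2.2.1 = z.2.2.1 := pv_eq D h S o.2 e1
  rw [p, sub_self, smul_zero, sub_zero, sub_eq_zero] at e2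
  exact ⟨e1, e2⟩

theorem mn_ne (H : KV k D kV) {v : V k (Cn n₁ × Cn n₂)} {ζ : ℂ} {u : US m} (a : ζ ≠ 0)
    (e : kV v = ‖ζ‖ • u.1) : mn v ≠ 0 := fun b => by
  rw [(H.z v).2 b, eq_comm, smul_eq_zero, norm_eq_zero] at e
  have := us_ge u
  rw [e.resolve_left a, norm_zero, mul_zero] at this
  linarith

theorem up (h : D.Ok c κ R₀ M) (S : Sat D) (H : KV k D kV) (hδ : 0 < δ) {z : TT k n₁ n₂ m}
    (o : z ∈ OO D δ) (e : ff D kV δ z = 0) : ‖z.2.2.2‖ ≤ 3 / 2 ∨ ‖mn z.2.2.1‖ ≤ δ := by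
  obtain ⟨e1, e2⟩ := zer h S o e
  by_contra n
  rw [not_or, not_le, not_le] at n
  have t : aa δ z = 0 := by
    rw [aa, ta, tt1 n.1.le, (tau_ok hδ).o ((), z.2.2.1) n.2.le]; simp
  have o2 := o.2
  rw [t, sub_zero] at o2
  rw [t, sub_zero, add_zero] at e1
  exact H.sm _ o2 e1 z.2.1.2 _ (by linarith [n.1]) e2

theorem lo (h : D.Ok c κ R₀ M) (S : Sat D) (H : KV k D kV) (hδ : 0 < δ) {z : TT k n₁ n₂ m}
    (o : z ∈ OO D δ) (e : ff D kV δ z = 0) : 5 / 4 ≤ ‖z.2.2.2‖ ∨ δ / 2 ≤ ‖mn z.2.2.1‖ := by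
  obtain ⟨e1, e2⟩ := zer h S o e
  by_contra n
  rw [not_or, not_le, not_le] at n
  have t : ta δ z = 0 := by
    have : tau δ ((), z.2.2.1) = 0 := max_eq_left (min_le_of_right_le (by
      rw [sub_nonpos, div_le_one hδ]; linarith [n.2]))
    rw [ta, tt0 n.1.le, this]; simp
  have o2 := o.2
  rw [aa, t] at o2 e1
  exact mn_ne H o.1 e2 ((Sk.Sa.orb_ok h k).t0 o2 e1)

theorem bds (h : D.Ok c κ R₀ M) (S : Sat D) (H : KV k D kV) (hδ : 0 < δ) : ∃ R C : ℝ,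
    ∀ z ∈ (OO D δ : Set (TT k n₁ n₂ m)), ff D kV δ z = 0 → ‖aa δ z‖ ≤ R ∧ ‖z.2.2.2‖ ≤ C := by
  obtain ⟨R, hR⟩ := H.pr (3 / 2)
  obtain ⟨C, hC⟩ := (isCompact_closedBall (0 : V k (Cn n₁ × Cn n₂)) δ).exists_bound_of_continuousOn
    H.ct.continuousOn
  refine ⟨max R δ, max (3 / 2) (m * C), fun z o e => ?_⟩
  have e2 := (zer h S o e).2
  have u := up h S H hδ o e
  have nk : ‖kV z.2.2.1‖ = ‖z.2.2.2‖ * ‖z.2.1.2.1‖ := by rw [e2, norm_smul, norm_norm]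
  have b1 : ‖mn z.2.2.1‖ ≤ max R δ := u.elim (fun a => le_max_of_le_left (hR _ (by
    rw [nk]
    exact (mul_le_of_le_one_right (norm_nonneg _) (us_le _)).trans a))) le_max_of_le_right
  refine ⟨?_, u.elim le_max_of_le_left fun a => ?_⟩
  · have := ta_mem hδ z
    rw [aa, norm_smul, Real.norm_of_nonneg (sub_nonneg.2 this.2)]
    exact (mul_le_of_le_one_left (norm_nonneg _) (sub_le_self _ this.1)).trans b1
  · have := hC _ (mem_closedBall_zero_iff.2 a)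
    rw [H.od, nk] at this
    refine le_max_of_le_right ((le_mul_of_one_le_right (norm_nonneg _) (us_ge z.2.1.2)).trans ?_)
    rw [mul_left_comm]
    exact mul_le_mul_of_nonneg_left this (Nat.cast_nonneg _)

variable (kV δ) in
/-- a compact set away from `ζ = 0` -/
def KK (R C : ℝ) : Set (TT k n₁ n₂ m) :=
  (univ ×ˢ univ ×ˢ closedBall 0 R ×ˢ closedBall 0 C) ∩
    (({z | 5 / 4 ≤ ‖z.2.2.2‖} ∪ {z | δ / 2 ≤ ‖mn z.2.2.1‖}) ∩
      {z | kV z.2.2.1 = ‖z.2.2.2‖ • z.2.1.2.1})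

theorem KK_cp (H : KV k D kV) (R C : ℝ) : IsCompact (KK kV δ R C) := by
  have := H.ct
  have a : Continuous fun z : TT k n₁ n₂ m => ‖z.2.2.2‖ := by fun_prop
  have b : Continuous fun z : TT k n₁ n₂ m => ‖mn z.2.2.1‖ := by fun_prop
  have c : Continuous fun z : TT k n₁ n₂ m => kV z.2.2.1 := by fun_prop
  have d : Continuous fun z : TT k n₁ n₂ m => ‖z.2.2.2‖ • z.2.1.2.1 := by fun_prop
  exact (isCompact_univ.prod (isCompact_univ.prod ((isCompact_closedBall _ _).prod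
    (isCompact_closedBall _ _)))).inter_right (((isClosed_le continuous_const a).union
      (isClosed_le continuous_const b)).inter (isClosed_eq c d))

theorem KK_ne (H : KV k D kV) (hδ : 0 < δ) (R C : ℝ) : KK kV δ R C ⊆ {z | z.2.2.2 ≠ 0} :=
  fun z a e => by
    have b : kV z.2.2.1 = ‖z.2.2.2‖ • z.2.1.2.1 := a.2.2
    have c : 5 / 4 ≤ ‖z.2.2.2‖ ∨ δ / 2 ≤ ‖mn z.2.2.1‖ := a.2.1
    rw [e, norm_zero, zero_smul, H.z] at b
    rw [e, b, norm_zero, norm_zero] at c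
    rcases c with c | c <;> linarith

theorem cp2 (H : KV k D kV) (hδ : 0 < δ) (R C : ℝ)
    {K : Set ((X22 × UnitAddCircle) × V k (Cn n₁ × Cn n₂))} (k1 : IsCompact K) :
    IsCompact (KK kV δ R C ∩ {z | (bb z, z.2.2.1 - aa δ z) ∈ K}) :=
  have k2 := KK_cp (δ := δ) H R C
  k2.of_isClosed_subset (((cw_c (δ := δ)).mono
    (KK_ne H hδ R C)).preimage_isClosed_of_isClosed k2.isClosed k1.isClosed) inter_subset_left

theorem cp3 {B F : Type} [TopologicalSpace B] [CompactSpace B] [NormedAddCommGroup F]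
    [NormedSpace ℝ F] {A : PM B k F} (h : A.Ok) (R : ℝ) : ∃ (K : Set (B × V k F)) (N : ℝ),
    IsCompact K ∧ K ⊆ A.O ∧ (∀ b w, (b, w) ∈ K → ‖w‖ ≤ N) ∧
      ∀ b w a, (b, w) ∈ A.O → A.P (b, w) + a = 0 → ‖a‖ ≤ R → (b, w) ∈ K := by
  have k1 := h.pp univ isCompact_univ R
  obtain ⟨N, hN⟩ := k1.exists_bound_of_continuousOn continuous_snd.continuousOn
  exact ⟨_, N, k1, fun _ a => a.1, fun b w a => hN _ a, fun b w a o e n =>
    ⟨o, trivial, by rwa [eq_neg_of_add_eq_zero_left e, norm_neg]⟩⟩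

theorem cp (h : D.Ok c κ R₀ M) (S : Sat D) (H : KV k D kV) (hδ : 0 < δ) :
    IsCompact {z ∈ (OO D δ : Set (TT k n₁ n₂ m)) | ff D kV δ z = 0} := by
  obtain ⟨R, C, hb⟩ := bds h S H hδ
  obtain ⟨K, N, k1, s1, hN, hK⟩ := cp3 (Sk.Sa.orb_ok h k) R
  refine cp_of (ct h H) (cp2 H hδ (N + R) C k1) (fun z a => ⟨KK_ne H hδ _ _ a.1, s1 a.2⟩)
    fun z o e => ?_
  obtain ⟨e1, e2⟩ := zer h S o e
  obtain ⟨b3, b2⟩ := hb z o e
  have b4 := hK _ _ _ o.2 e1 b3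
  have b7 : ‖z.2.2.1‖ ≤ N + R := by
    have := norm_add_le (z.2.2.1 - aa δ z) (aa δ z)
    rw [sub_add_cancel] at this
    linarith [hN _ _ b4]
  exact ⟨⟨⟨trivial, trivial, mem_closedBall_zero_iff.2 b7, mem_closedBall_zero_iff.2 b2⟩,
    lo h S H hδ o e, e2⟩, b4⟩

/-- the action -/
def ac (g : GG k) (z : TT k n₁ n₂ m) : TT k n₁ n₂ m :=
  (z.1, (YG k m).act g z.2.1, tr g.1.toAdd z.2.2.1, z.2.2.2)

theorem hx_ac (g : GG k) (z : TT k n₁ n₂ m) : hx (ac g z).2.1.1 = hx z.2.1.1 := hx_ay (ph k g) _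
theorem bb_ac (g : GG k) (z : TT k n₁ n₂ m) : bb (ac g z) = bb z := Prod.ext (hx_ac g z) rfl
theorem aa_ac (g : GG k) (z : TT k n₁ n₂ m) : aa δ (ac g z) = tr g.1.toAdd (aa δ z) := by
  simp only [aa, ta, ac, tau, mn_tr, norm_tr]; rfl

theorem eqv (h : D.Ok c κ R₀ M) (H : KV k D kV) (g : GG k) {z : TT k n₁ n₂ m} (o : z ∈ OO D δ) :
    ac g z ∈ OO D δ ∧ ff D kV δ (ac g z) =
      (tr g.1.toAdd (ff D kV δ z).1, fun j => (ck k g.1 : ℂ) * (ff D kV δ z).2 j) := by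
  obtain ⟨a, b⟩ := pm_act (Sk.Sa.orb_ok h k) g.1.toAdd _ _ o.2
  refine ⟨⟨o.1, ?_⟩, Prod.ext ?_ ?_⟩
  · rw [bb_ac, aa_ac]; exact a
  · simp only [ff, bb_ac, aa_ac]
    exact congrArg (· + tr g.1.toAdd (aa δ z)) b
  · simp only [ff, hx_ac]
    have := H.eq g.1 (z.2.2.1 - (1 - z.1 : ℝ) • (z.2.2.1 - pv D (hx z.2.1.1) z.2.2.1))
    refine (congrArg (· - ‖z.2.2.2‖ • fun j => (ck k g.1 : ℂ) * z.2.1.2.1 j) this).trans ?_
    funext j
    simp only [Pi.sub_apply, Pi.smul_apply, Complex.real_smul]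
    ring

variable (x : ((US 2 × US 2) × US m) × V k (Cn n₁ × Cn n₂) × ℂ)

theorem a0 : aa δ ((0, x) : TT k n₁ n₂ m) = (1 - tt ‖x.2.2‖) • mn x.2.1 := by simp [aa, ta]
theorem a1 : aa δ ((1, x) : TT k n₁ n₂ m) =
    (1 - tau δ ((hx x.1.1, ang x.2.2), x.2.1)) • mn x.2.1 := by simp [aa, ta, tau]
theorem O0 : x ∈ (T2 D kV).O ↔ (0, x) ∈ OO D δ := by
  simp only [OO, mem_ofPred_eq, a0]; rfl
theorem f0 : (T2 D kV).f x = ff D kV δ (0, x) := by
  simp only [ff, a0]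
  refine Prod.ext rfl (congrArg (fun w => kV w - _) ?_)
  simp
theorem O1 : x ∈ (ThV ((D.Orb k).F (tau δ)) kV).O ↔ (1, x) ∈ OO D δ ∧ mn x.2.1 ≠ 0 := by
  simp only [OO, mem_ofPred_eq, a1]
  exact ⟨fun a => ⟨⟨a.1, a.2.2⟩, a.2.1⟩, fun a => ⟨a.1.1, a.2, a.1.2⟩⟩
theorem f1 : (ThV ((D.Orb k).F (tau δ)) kV).f x = ff D kV δ (1, x) := by
  simp only [ff, a1]
  refine Prod.ext rfl (congrArg (fun w => kV w - _) ?_)
  simp

end Lb
open Lb

/-- **sub-leaf L1B** -/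
theorem l1b : L1B := fun k n₁ n₂ m D c κ R₀ M kV δ h S H hδ hF => by
  let P1 : FP (YG k m) (VS k (Cn n₁ × Cn n₂)) (VT k m (Cn n₁ × Cn n₂)) :=
    ⟨{x | (1, x) ∈ OO D δ}, fun x => ff D kV δ (1, x)⟩
  obtain ⟨o0, o1, ht⟩ := FP.ht_of (T2 D kV) P1 (OO D δ) (ff D kV δ) (op h)
    (fun g t x o => (eqv h H g o).1) (ct h H) (fun g t x o => (eqv h H g o).2) (cp h S H hδ)
    O0 (fun x _ => f0 x) (fun _ => Iff.rfl) fun _ _ => rfl
  have sub : (ThV ((D.Orb k).F (tau δ)) kV).O ⊆ P1.O := fun x o => ((O1 x).1 o).1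
  have eq : ∀ x ∈ (ThV ((D.Orb k).F (tau δ)) kV).O,
      (ThV ((D.Orb k).F (tau δ)) kV).f x = P1.f x := fun x o => f1 x
  have z : ∀ x ∈ P1.O, P1.f x = 0 → x ∈ (ThV ((D.Orb k).F (tau δ)) kV).O := fun x o e =>
    (O1 x).2 ⟨o, mn_ne H o.1 (zer h S o e).2⟩
  refine ⟨o0, ht.tr (o1.exc (o1.shrink ?_ (fun g x o => ?_) sub eq z) sub eq z)⟩
  · have : (ThV ((D.Orb k).F (tau δ)) kV).O = P1.O ∩ {x | mn x.2.1 ≠ 0} := Set.ext O1
    rw [this]
    exact o1.op.inter (isOpen_ne_fun (cont_mn continuous_snd.fst) continuous_const)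
  · exact (O1 _).2 ⟨o1.inv g x (sub o), fun e => o.2.1 (mn_tr0 (g := g.1.toAdd) e)⟩

end Crest.Agent.N218.D6.Lk

end
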