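import Crest.Agent.N218.D6.Link1
import Crest.Agent.N218.D6.Lk2

/-! # Row 218, block D6 (helper45): LINK1, unconditional -/

namespace Crest.Agent.N218.D6

/-- **LINK1** -/
theorem link1 : LINK1 := link1_of Lk.l1b

end Crest.Agent.N218.D6
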