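import Crest.Agent.N218.D6.Df2
import Crest.Agent.N218.D3.Rep
import Crest.Agent.N218.K.Inv
import Crest.Agent.N218.K.Cx
import Crest.Agent.N218.K.Kln
import Crest.Agent.N218.Th.Fin

/-! # Row 218, block D6 (helper59): the glue -/

set_option autoImplicit false
set_option linter.unusedVariables false
set_option maxHeartbeats 400000

open Set Module Polynomial

noncomputable section

namespace Crest.Agent.N218.D6
open K K.Cp Pm In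
open Sk (Cn S2 S3 X22 hfv Frm Wt Pcd Sat Val half)

namespace Fn

section
variable {Γ : Type} [Group Γ] [TopologicalSpace Γ] {Y : GS Γ} {χ : Γ →* Circle}

theorem Lc_zpow (s : Nonempty (Sec Y χ)) (h : (1 - Lc Y χ) ^ 2 = 0) (z : ℤ) :
    Lc Y (χ ^ z) = 1 + z * (Lc Y χ - 1) := by
  have i : Lc Y χ⁻¹ = 2 - Lc Y χ := by
    linear_combination (2 - Lc Y χ) * Lc_mul_inv s + Lc Y χ⁻¹ * h
  induction z using Int.induction_on with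
  | zero => simp [Lc_one]
  | succ n ih =>
    rw [zpow_add_one, Lc_mul (sec_zpow s _) s, ih]; push_cast
    linear_combination n * h
  | pred n ih =>
    rw [zpow_sub_one, Lc_mul (sec_zpow s _) (sec_inv s), ih, i]; push_cast
    linear_combination n * h

variable [CompactSpace Γ]

theorem ut_lam {ι : Type} [Fintype ι] {ξ : ι → Γ →* Circle} (hξ : ∀ i, Continuous (ξ i))
    (s : ∀ i, Nonempty (Sec Y (ξ i))) : UT Y (Rep.wt ξ hξ).ls (lam Y ξ hξ) :=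
  let ⟨_, a, _⟩ := ut_wt Th.thom s (.refl (Rep.wt ξ hξ).ls)
  a.of_th (th_lam hξ (Th.thom _) s)
end

variable (M : ℕ)

theorem ea : EqC (Y := Ya) (Y' := Y0) .fst ca ca := fun g _ => ⟨g, rfl, rfl⟩
theorem e0 (χ : GT →* Circle) : EqC (Y := Y0) (Y' := YT M) .fst χ χ := fun g _ => ⟨g, rfl, rfl⟩
theorem sa0 : Nonempty (Sec Y0 ca) := ea.sec ⟨spS0 ca ca_ct 2⟩
theorem sb0 : Nonempty (Sec Y0 cb) := ⟨spS Ya cb cb_ct 2⟩
theorem sa : Nonempty (Sec (YT M) ca) := (e0 M ca).sec sa0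
theorem sb : Nonempty (Sec (YT M) cb) := (e0 M cb).sec sb0
theorem s1 : Nonempty (Sec (YT M) c1) := ⟨spS Y0 c1 c1_ct M⟩
theorem sw (j : ℕ) (a a' : ℤ) : Nonempty (Sec (YT M) (wc j a a')) :=
  sec_mul (sec_pow (s1 M) j) (sec_mul (sec_zpow (sa M) _) (sec_zpow (sb M) _))

theorem La : pull (piB Y0 c1 c1_ct M) (pull (piB Ya cb cb_ct 2) (Lc Ya ca)) = Lc (YT M) ca := by
  rw [pull_Lc ⟨spS0 ca ca_ct 2⟩ ea _ fun _ => rfl, pull_Lc sa0 (e0 M ca) _ fun _ => rfl]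
theorem Lb : pull (piB Y0 c1 c1_ct M) (Lc Y0 cb) = Lc (YT M) cb :=
  pull_Lc sb0 (e0 M cb) _ fun _ => rfl

theorem eul (h : PRES) (k : ℕ) {n : ℕ} (a a' : Fin n → ℤ) :
    pull (z0 (YT M) (WO k a a')) (lam (YT M) _ fun _ => wc_ct _ _ _) =
      Al.eu (Lc (YT M) c1) (pull (piB Y0 c1 c1_ct M) (pull (piB Ya cb cb_ct 2) (Lc Ya ca) - 1))
        (pull (piB Y0 c1 c1_ct M) (Lc Y0 cb - 1)) (fun j : Od k => j.1.val) (-a) (-a') := by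
  have na : (1 - Lc (YT M) ca) ^ 2 = 0 := by
    rw [← La]; simpa using congrArg (fun x => pull (piB Y0 c1 c1_ct M) (pull (piB Ya cb cb_ct 2) x)) h.2.1
  have nb : (1 - Lc (YT M) cb) ^ 2 = 0 := by
    rw [← Lb]; simpa using congrArg (pull (piB Y0 c1 c1_ct M)) h.2.2.2.1
  rw [z0_lam _ fun _ => sw M _ _ _, Fintype.prod_prod_type, map_sub, map_sub, La, Lb, map_one]
  refine Finset.prod_congr rfl fun i _ => Finset.prod_congr rfl fun j _ => ?_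
  rw [wc, Lc_mul (sec_pow (s1 M) _) (sec_mul (sec_zpow (sa M) _) (sec_zpow (sb M) _)),
    Lc_mul (sec_zpow (sa M) _) (sec_zpow (sb M) _), Lc_pow (s1 M), Lc_zpow (sa M) na,
    Lc_zpow (sb M) nb]
  rfl

theorem rkE (n₁ n₂ : ℕ) : finrank ℝ (Cn n₁ × Cn n₂) = 2 * (n₁ + n₂) := by
  rw [finrank_real_of_complex]; simp

theorem main (h1 : LOCA) (h2 : KVE) (h3 : INST) (h4 : UNI) (h5 : LINK1) (h6 : LINK2) (h7 : ALGM)
    (h8 : PRES) (h9 : FINB) (J : AI 5) (hJ : SpD J) (k n n₁ n₂ : ℕ) (D : Data X22 (Cn n₁) (Cn n₂))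
    (c κ R₀ M δ : ℝ) (a a' b b' : Fin n → ℤ) (s₁ : Fin n → S3 × S3 → Cn n₁)
    (s₂ : Fin n → S3 × S3 → Cn n₂) (hk : 16 ≤ k) (o : D.Ok c κ R₀ M) (st : Sat D)
    (f₁ : Frm D.π₁ a a' s₁) (f₂ : Frm D.π₂ b b' s₂) (w : Wt a a' b b') (hδ : 0 < δ)
    (ok : ((D.Orb k).F (tau δ)).Ok) :
    e22.circ.inv J k (sp (Cn n₁ × Cn n₂)) ((D.Orb k).F (tau δ)) = half := by
  obtain ⟨m, kV, hm, kv⟩ := h2 k n n₁ n₂ D c κ R₀ M a a' b b' s₁ s₂ hk o st f₁ f₂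
  obtain ⟨p, hp⟩ : ∃ p, p = 2 * (Fintype.card (Od k) * Fintype.card (Fin n)) + 3 := ⟨_, rfl⟩
  have hd := h3 k n n₁ n₂ D c κ R₀ M a a' b b' s₁ s₂ hk o st f₁ f₂ m p kV kv
  have un := h4 k n n₁ n₂ D c κ R₀ M a a' b b' s₁ s₂ hk o st f₁ f₂ m p kV hd
  have l1 := h5 k n n₁ n₂ D c κ R₀ M a a' b b' s₁ s₂ hk o st f₁ f₂ m p kV kv hd
  let π := aL Y0 c1 c1_ct (ph k) (ph_ct k) (m + p)
  let ρ : C((YG k m).Q, (YG k (m + p)).Q) := (ld k D s₁ s₂ a a' b b' p kV).ρ hd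
  have pi : (pull π).comp (pull (piB Y0 c1 c1_ct (m + p))) =
      pull (piL Y0 c1 c1_ct (ph k) (ph_ct k) (m + p)) := RingHom.ext fun x => (pull_comp _ _ x).symm
  have rh : (pull ρ).comp (pull (piL Y0 c1 c1_ct (ph k) (ph_ct k) (m + p))) =
      pull (piL Y0 c1 c1_ct (ph k) (ph_ct k) m) := RingHom.ext fun x =>
    pull_pull _ _ _ (fun z => by obtain ⟨y, rfl⟩ := (YG k m).pr_surj z; rfl) x
  have pl := aL_L Y0 c1 c1_ct (ph k) (ph_ct k) (m + p)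
  have rp : ∀ χ : GT →* Circle, Nonempty (Sec (YT (m + p)) χ) →
      pull ρ (pull π (Lc (YT (m + p)) χ)) = Lc (YG k m) (χ.comp (ph k)) := fun χ s => by
    rw [← pull_comp]
    exact pull_Lc s (f := (ld k D s₁ s₂ a a' b b' p kV).i)
      (fun g y => ⟨ph k g, hd.hi g y, rfl⟩) _ fun _ => rfl
  obtain ⟨x : KX (YT (m + p)).Q, κ₁ : KX (YT (m + p)).Q, κ₀ : KX (YT (m + p)).Q,
      κw : KX (YG k (m + p)).Q, d : KX (YG k (m + p)).Q, u1, u2, e1, e2, tk, lT, lS, uT, uS, e3⟩ :=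
    h1 _ hd un
    (fun y => let ⟨q, e⟩ := (h8.2.2.2.2.2 k (m + p)).1 y
      ⟨_, (aL_ev Y0 c1 c1_ct (ph k) (ph_ct k) (m + p) q).trans e⟩)
    _ _ _ _ _ _ (ut_lam (fun _ => wc_ct _ _ _) fun _ => sw _ _ _ _)
    (ut_lam (fun _ => wc_ct _ _ _) fun _ => sw _ _ _ _)
    (ut_lam (fun _ => wc_ct _ _ _) fun _ => sw _ _ _ _)
    (ut_lam (fun _ => wc_ct _ _ _) fun _ => sw _ _ _ _) (ut_lam (fun _ => c1_ct) fun _ => s1 _)
    (ut_lam1 Th.thom (c1_ct.pow _) (sec_pow (s1 _) _))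
  obtain ⟨lT', lS', υ, tT, tS, u3, e4⟩ := l1 tk δ hδ ok lT lS _ uT uS e3
  obtain ⟨Λ, υ', lT'', lS'', u4, hΛ, u5, tT', tS', dg⟩ :=
    h6 k m _ hk (D3.Rp.cx_rr (rkE n₁ n₂)) lT' lS' tT tS
  refine h9 J hJ k m _ _ _ lT'' lS'' _ hk hm (adm (by simp) _ _)
    (D3.Rp.cx3 (n := 2) (rkE n₁ n₂) (by simp)) (e22.circ.pb_fr ok) tT' tS'
    (dg _ kV _ ok kv.ct kv.eq (fun x hx e => hx.1 ((kv.z _).1 e)) e4) fun a₇ w' u6 e5 => ?_
  obtain ⟨w1, w2, r, ⟨t, rfl⟩, w3⟩ := w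
  have zq : pull (z0 (YT (m + p)) (Rep.ch (c1 ^ 2 ^ (k + 1)) (c1_ct.pow _)))
      (lam1 (YT (m + p)) (c1 ^ 2 ^ (k + 1)) (c1_ct.pow _)) = 1 - Lc (YT (m + p)) c1 ^ 2 ^ (k + 1) := by
    rw [zero_lam1 _ (sec_pow (s1 _) _) _ fun _ => rfl, Lc_pow (s1 _)]
  have zu : pull (z0 (YT (m + p)) (UU c1 c1_ct m)) (lam (YT (m + p)) _ fun _ => c1_ct) =
      (1 - Lc (YT (m + p)) c1) ^ m := by
    rw [z0_lam _ fun _ => s1 _]; simp
  have e1 := (congrArg (x * ·) zq).symm.trans (e1.trans (congrArg₂ (fun s t => κ₁ * s - κ₀ * t)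
    (eul (m + p) h8 k b b') (eul (m + p) h8 k a a')))
  have e2 := (congrArg₂ (fun s t => pull π s * pull π t * d) (eul (m + p) h8 k b b')
    (eul (m + p) h8 k a a')).symm.trans (e2.trans (congrArg₂
      (fun s t => pull π s * pull π x * κw * pull π t) zu (eul (m + p) h8 k a a')))
  refine h7 (π := pull π) (ρ := pull ρ) (j := pull (pj k m)) (l₀ := LL (ck k) (cc _) m)
    (n := -t - 1) (υ := υ' * υ) (d := d) Λ a₇ w' h8.1 h8.2.2.1 h8.2.1 h8.2.2.2.1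
    (h8.2.2.2.2.1 (m + p)) ?_ ?_ ?_ ?_ (Al.odq_zmod k) (by positivity)
    (pow_dvd_pow 2 (show 8 ≤ k + 1 by omega)) (a := -b) (a' := -b') (b := -a) (b' := -a') ?_ ?_ ?_ hm
    (show 2 * (Fintype.card (Od k) * Fintype.card (Fin n)) + m + 3 ≤ m + p by omega) u1 u2 e1 ?_ (u4.mul u3) hΛ ?_ u6 ?_
  · rw [pi, pl]; exact h8.2.2.2.2.2 k (m + p)
  · rw [pi, rh, rp c1 (s1 _)]; exact h8.2.2.2.2.2 k m
  · simpa using Iv.pz kln (Fo.inc_inj (2 ^ (k + 1))) (r := m) (by omega)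
  · rw [rp c1 (s1 _), K.LL_eq]
    exact pull_Lc ⟨spS0 _ _ _⟩ (f := ⟨fun y : (US 2 × US 2) × US m => y.2, continuous_snd⟩)
      (fun g y => ⟨g.1, rfl, rfl⟩) _ fun _ => rfl
  · simp [w1]
  · simp [w2]
  · simp only [Pi.neg_apply, neg_mul_neg]; linear_combination -w3
  · rw [e2, map_pow, map_sub, map_one]
  · simp only [map_sub, map_one, La, Lb]
    rw [rp ca (sa _), rp cb (sb _)]; exact u5
  · rw [mul_assoc]; exact e5
end Fn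

/-- **FIN** -/
theorem fin : FIN := fun h1 h2 h3 h4 h5 h6 h7 h8 h9 g p s J hJ n₁ n₂ D c κ R₀ M δ o
    ⟨⟨n, a, a', b, b', s₁, s₂, f₁, f₂, w⟩, st⟩ hδ ok =>
  Fn.main h1 h2 h3 h4 h5 h6 h7 h8 h9 J hJ 21 n n₁ n₂ D c κ R₀ M δ a a' b b' s₁ s₂ (by norm_num) o st
    f₁ f₂ w hδ ok

end Crest.Agent.N218.D6

end
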