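import Crest.Agent.N218.D6.Lk
import Crest.Agent.N218.D6.Pres
import Crest.Agent.N218.D6.Fin

/-!
# Row 218, block D6 (helper87): the glue of LINK2
-/

set_option autoImplicit false
set_option linter.unusedVariables false

open Topology Filter Set OnePoint Polynomial

noncomputable section

namespace Crest.Agent.N218.D6.Lk

open K K.Cp Pm In
open Sk (S2 X22)

/-- the span of `1, a, b, a b` -/
def sp4 {A B : Type} [CommRing A] [CommRing B] (j : A →+* B) {a b : B} (ha : a ^ 2 = 0)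
    (hb : b ^ 2 = 0) : Subring B where
  carrier := {y | ∃ c0 c1 c2 c3, y = j c0 + j c1 * a + j c2 * b + j c3 * (a * b)}
  mul_mem' := by
    rintro _ _ ⟨c0, c1, c2, c3, rfl⟩ ⟨d0, d1, d2, d3, rfl⟩
    refine ⟨c0 * d0, c0 * d1 + c1 * d0, c0 * d2 + c2 * d0,
      c0 * d3 + c1 * d2 + c2 * d1 + c3 * d0, ?_⟩
    simp only [map_mul, map_add]
    linear_combination (j c1 * j d1 + (j c1 * j d3 + j c3 * j d1) * b + j c3 * j d3 * b ^ 2) * ha +
      (j c2 * j d2 + (j c2 * j d3 + j c3 * j d2) * a) * hb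
  one_mem' := ⟨1, 0, 0, 0, by simp⟩
  add_mem' := by
    rintro _ _ ⟨c0, c1, c2, c3, rfl⟩ ⟨d0, d1, d2, d3, rfl⟩
    exact ⟨c0 + d0, c1 + d1, c2 + d2, c3 + d3, by simp only [map_add]; ring⟩
  zero_mem' := ⟨0, 0, 0, 0, by simp⟩
  neg_mem' := by
    rintro _ ⟨c0, c1, c2, c3, rfl⟩
    exact ⟨-c0, -c1, -c2, -c3, by simp only [map_neg]; ring⟩

theorem pz_mem {R A : Type} [CommRing R] [CommRing A] {i : R →+* A} {l : A} {M q : ℕ}
    (h : Al.Pz i l M q) (S : Subring A) (h1 : ∀ r, i r ∈ S) (h2 : l ∈ S) (y : A) : y ∈ S := by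
  obtain ⟨p, rfl⟩ := h.1 y
  rw [eval₂_eq_sum_range]
  exact sum_mem fun n _ => mul_mem (h1 _) (pow_mem h2 n)

theorem lam_ex {X X' : Type} [TopologicalSpace X] [TopologicalSpace X'] {A B : Ex X} {N : Ex X'}
    {j : C(X', X)} (q : Hm N B j) (C : H1 A B) {lN : KX N.E} {lA : KX A.E} (tA : A.Th lA)
    (tN : N.Rd lN) (h1 : ∀ x, N.Rd x → ∃ z, B.Rd z ∧ pull q.f z = x)
    (h2 : ∀ z, B.Rd z → pull q.f z = 0 → z = 0) : ∃ Λ : KX X' →+ KX X,
      (∀ y z, B.Rd z → pull q.f z = N.sm y lN → pull C.f z = A.sm (Λ y) lA) ∧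
      ∀ a y, Λ (pull j a * y) = a * Λ y := by
  choose Z z1 z2 using fun y => h1 _ (tN.sm y)
  choose f hf using fun y => tA.ex ((z1 y).hm C)
  have key : ∀ y z, B.Rd z → pull q.f z = N.sm y lN → pull C.f z = A.sm (f y) lA :=
    fun y z r e => by
      rw [← hf, sub_eq_zero.1 (h2 _ (r.sub (z1 y)) (by rw [map_sub, e, z2, sub_self]))]
  refine ⟨AddMonoidHom.mk' f fun y y' => tA.inj ?_, key, fun a y => tA.inj ?_⟩
  · rw [← key _ _ ((z1 y).add (z1 y')) (by rw [map_add, z2, z2, N.add_sm]), map_add, hf, hf,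
      A.add_sm]
  · refine (key _ _ ((z1 y).sm a) (by rw [q.pull_sm, z2, N.sm_sm])).symm.trans ?_
    rw [C.pull_sm, pull_id, hf, A.sm_sm]; rfl

variable (k m : ℕ)

/-- the two Hopf classes -/
abbrev ha : KX (YG k m).Q := Lc (YG k m) (ca.comp (ph k)) - 1
abbrev hb : KX (YG k m).Q := Lc (YG k m) (cb.comp (ph k)) - 1

theorem eG (χ : GT →* Circle) : EqC (Y := Y0) (Y' := YG k m) .fst (χ.comp (ph k)) χ :=
  fun g _ => ⟨ph k g, rfl, rfl⟩

theorem piL_L (χ : GT →* Circle) (s : Nonempty (Sec Y0 χ)) :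
    pull (piL Y0 c1 c1_ct (ph k) (ph_ct k) m) (Lc Y0 χ) = Lc (YG k m) (χ.comp (ph k)) :=
  pull_Lc s (eG k m χ) _ fun _ => rfl

theorem piB_a : pull (piB Ya cb cb_ct 2) (Lc Ya ca) = Lc Y0 ca :=
  pull_Lc ⟨spS0 ca ca_ct 2⟩ Fn.ea _ fun _ => rfl

theorem ha_sq : ha k m ^ 2 = 0 := by
  have := congrArg (fun x => pull (piL Y0 c1 c1_ct (ph k) (ph_ct k) m)
    (pull (piB Ya cb cb_ct 2) x)) pres.2.1
  simp only [map_pow, map_sub, map_one, map_zero, piB_a, piL_L k m ca Fn.sa0] at this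
  rw [← neg_sq, neg_sub]; exact this

theorem hb_sq : hb k m ^ 2 = 0 := by
  have := congrArg (pull (piL Y0 c1 c1_ct (ph k) (ph_ct k) m)) pres.2.2.2.1
  simp only [map_pow, map_sub, map_one, map_zero, piL_L k m cb Fn.sb0] at this
  rw [← neg_sq, neg_sub]; exact this

theorem span (y : KX (YG k m).Q) : ∃ c0 c1 c2 c3, y = pull (pj k m) c0 +
    pull (pj k m) c1 * ha k m + pull (pj k m) c2 * hb k m + pull (pj k m) c3 * (ha k m * hb k m) := by
  let S := sp4 (pull (pj k m)) (ha_sq k m) (hb_sq k m)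
  refine pz_mem (pres.2.2.2.2.2 k m) S (fun r => ?_) ⟨LL (ck k) (cc _) m, 0, 0, 0, ?_⟩ y
  · refine pz_mem pres.2.2.1 (S.comap _) (fun r => ?_) ⟨1, 0, 1, 0, ?_⟩ r
    · refine pz_mem pres.1 ((S.comap _).comap _) (fun r => intCast_mem _ r) ⟨1, 1, 0, 0, ?_⟩ r
      rw [piB_a, piL_L k m ca Fn.sa0]; simp
    · rw [piL_L k m cb Fn.sb0]; simp
  · rw [K.LL_eq, pull_Lc (Y := L k m) (χ := ck k) (Y' := YG k m) (χ' := c1.comp (ph k)) ⟨spS0 _ _ _⟩
      (f := ⟨fun y : (US 2 × US 2) × US m => y.2, continuous_snd⟩)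
      (fun g y => ⟨g.1, rfl, rfl⟩) (pj k m) fun _ => rfl]
    simp

/-- the projection to the lens factor -/
def p2 : C((YG k m).Z, (L k m).Z) := ⟨fun y : (US 2 × US 2) × US m => y.2, continuous_snd⟩
theorem p2_eq : Eqv (pg k) (p2 k m) := fun _ _ => rfl

variable (E : Type) [NormedAddCommGroup E] [NormedSpace ℝ E] [FiniteDimensional ℝ E]

/-- forgetting the second sphere -/
def sA : EqM (YG k m) (NG k E) (YG k m) (NG k E) (fun g => (g.1, g.2.1, 1))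
    ⟨fun y : (US 2 × US 2) × US m => ((y.1.1, e0 1), y.2), by fun_prop⟩ where
  f := .snd
  hg _ _ := Prod.ext (Prod.ext rfl (Subtype.ext (funext fun _ => (one_mul _).symm))) rfl
  hf γ y w := by induction w using OnePoint.rec <;> rfl
  hi _ := rfl
/-- forgetting the first sphere -/
def sB : EqM (YG k m) (NG k E) (YG k m) (NG k E) (fun g => (g.1, 1, g.2.2))
    ⟨fun y : (US 2 × US 2) × US m => ((e0 1, y.1.2), y.2), by fun_prop⟩ where
  f := .snd
  hg _ _ := Prod.ext (Prod.ext (Subtype.ext (funext fun _ => (one_mul _).symm)) rfl) rfl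
  hf γ y w := by induction w using OnePoint.rec <;> rfl
  hi _ := rfl

theorem sA_a : pull (sA k m E).b (ha k m) = ha k m := by
  rw [map_sub, map_one, pull_Lc ((eG k m ca).sec Fn.sa0) (χ' := ca.comp (ph k))
    (fun g y => ⟨_, (sA k m E).hg g y, rfl⟩) _ fun _ => rfl]
theorem sB_b : pull (sB k m E).b (hb k m) = hb k m := by
  rw [map_sub, map_one, pull_Lc ((eG k m cb).sec Fn.sb0) (χ' := cb.comp (ph k))
    (fun g y => ⟨_, (sB k m E).hg g y, rfl⟩) _ fun _ => rfl]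

/-- reordering of the target -/
def iT : (TG k m E).Iso ((TR k m E).ls.res (pg k) (pg_ct k)) where
  e := { toFun := rT k m E
         invFun := fun z : ((((ℝ × ℝ) × ℝ) × V k E) × ℝ) × (Fin m → ℂ) =>
           (((z.1.1.2, z.2), (z.1.1.1, z.1.2)) : (V k E × (Fin m → ℂ)) × R4)
         left_inv := fun _ => rfl
         right_inv := fun _ => rfl
         continuous_toFun := by unfold rT; fun_prop
         continuous_invFun := by fun_prop }
  eq _ _ := rfl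

/-- collecting the trivial factors -/
def iX : ((XX ((ℝ × ℝ) × ℝ) k E).prod (Rep.triv _ ℝ)).ls.Iso
    ((Rr k E).ls.prod (Rep.triv _ R4).ls) where
  e := { toFun := fun z : (((ℝ × ℝ) × ℝ) × V k E) × ℝ => ((z.1.2, (z.1.1, z.2)) : V k E × R4)
         invFun := fun z : V k E × R4 => (((z.2.1, z.1), z.2.2) : (((ℝ × ℝ) × ℝ) × V k E) × ℝ)
         left_inv := fun _ => rfl
         right_inv := fun _ => rfl
         continuous_toFun := by fun_prop
         continuous_invFun := by fun_prop }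
  eq _ _ := rfl

variable {k m E}

theorem van {q : C((Sb (YG k m) (NG k E)).E, (Sb (L k m) (XN k E)).E)} (hq : IsQ q)
    (h2 : ∀ z, (Sb _ _).Rd z → pull q z = 0 → z = 0)
    {C : H1 (Sb (L k m) (AA k E)) (Sb (L k m) (XN k E))} {r : X22 → X22}
    {S : H1 (Sb (L k m) (XN k E)) (Sb (L k m) (XN k E))}
    (rS : Rg S (fun x : US m × X22 × (V k E × ℂ) × R4 => OnePoint.some (r x.2.1, x.2.2)))
    (n : (C.cm S).Ht (Hm.triv _ _)) (σ : C((Sb (YG k m) (NG k E)).E, (Sb (YG k m) (NG k E)).E))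
    (g : US 2 × US 2 → US 2 × US 2) (hg : ∀ y, hx (g y) = r (hx y))
    (hσ : ∀ (y : (US 2 × US 2) × US m) w, σ (pt _ _ y w) = pt _ _ (g y.1, y.2) w)
    {z : KS (L k m) (XN k E)} (rz : (Sb _ _).Rd z) (e : pull σ (pull q z) = pull q z) :
    pull C.f z = 0 := by
  have e1 : pull q (pull S.f z) = pull q z := by
    refine (pull_sq q S.f σ q (fun x => ?_) z).trans e
    obtain ⟨y, w, rfl⟩ := pt_surj x
    rw [hσ, hq, hq, rS.opx, hg]
    induction w using OnePoint.rec <;> rfl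
  rw [← sub_eq_zero.1 (h2 _ ((rz.hm S).sub rz) (by rw [map_sub, e1, sub_self])), ← pull_cm]
  refine (DFunLike.congr_fun n.pull_eq z).trans ((pull_cm _ _ z).trans ?_)
  rw [show pull _ z = 0 from rz, map_zero]

theorem link2 (h1 : EXQ) (h2 : SUR) (h3 : NUL) (h4 : CM1) (h5 : CM2) : LINK2 := by
  intro k m E _ _ _ hk hc lT lS tT tS
  have gd : Gd (L k m) := gd_sp (Fo.inc_inj _) _ m
  obtain ⟨q, hq, q1, q2⟩ := h1 k m E
  obtain ⟨C, hC, G, hG⟩ := h2 k m E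
  obtain ⟨l0, u0⟩ : ∃ l, UT (L k m) (NN k E) l :=
    ((hc.prod (cx_even ℂ 1 (by simp))).prod (cx_even R4 2 (by simp))).ut Th.thom gd
  obtain ⟨lT', uT⟩ : ∃ l, UT (L k m) (TR k m E).ls l :=
    (cx_tt _ _ m ((hc.prod (cx_even R4 2 (by simp))).iso (iX k E))).ut Th.thom gd
  obtain ⟨lS', uS⟩ : ∃ l, UT (L k m) (AA k E) l :=
    ((cx_even ((E3 × E3) × ℂ) 4 (by simp)).prod hc).xr2.ut Th.thom gd
  obtain ⟨β, uβ, -⟩ := ut_even Th.thom (YG k m) R4 2 (by simp)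
  let JN : C((Sb (YG k m) (NG k E)).E, (Sb (L k m) (NN k E)).E) :=
    ((p2_eq k m).eqm (pg_ct k) (NN k E)).hm.f
  have tN : (Sb (YG k m) (NG k E)).Th (pull JN l0) :=
    (u0.pull (pg_ct k) (p2_eq k m) ((p2_eq k m).mp _ _)).th
  let J : C((Sb (YG k m) (TG k m E)).E, (Sb (L k m) (TR k m E).ls).E) :=
    ((p2_eq k m).eqm (pg_ct k) (TR k m E).ls).hm.f.comp ((iT k m E).h1 _).f
  have tJ : (Sb (YG k m) (TG k m E)).Th (pull J lT') := by
    rw [pull_comp]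
    exact th_iso (iT k m E) (fun _ _ => rfl)
      (uT.pull (pg_ct k) (p2_eq k m) ((p2_eq k m).mp _ _)).th
  obtain ⟨υ1, υ1', i1, e1, -⟩ := Ex.Th.unit (A := Sb (YG k m) (TG k m E)) (uβ.th_r tT) tJ
  obtain ⟨υ2, υ2', i2, e2, -⟩ := Ex.Th.unit (A := Sb (YG k m) (NG k E)) tN (uβ.th_r tS)
  let Q : Hm (Sb (YG k m) (NG k E)) (Sb (L k m) (XN k E)) (pj k m) :=
    ⟨q, fun e => by obtain ⟨y, w, rfl⟩ := pt_surj e; rw [hq]; rfl,
      fun x => by obtain ⟨y, rfl⟩ := (YG k m).pr_surj x; exact hq y ∞⟩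
  obtain ⟨Λ, key, lin⟩ := lam_ex Q C uS.th tN.1 q1 q2
  have z0 : ∀ {φ g} (M : EqM (YG k m) (NG k E) (YG k m) (NG k E) φ g) (r : X22 → X22)
      (g' : US 2 × US 2 → US 2 × US 2), (∀ y, hx (g' y) = r (hx y)) →
      (∀ (y : (US 2 × US 2) × US m) w, M.hm.f (pt _ _ y w) = pt _ _ (g' y.1, y.2) w) →
      ((r = fun x => (x.1, hp (e0 1))) ∨ r = fun x => (hp (e0 1), x.2)) →
      ∀ y, pull M.b y = y → Λ y = 0 := fun M r g' a b c y e => by
    obtain ⟨S, rS, n⟩ := h3 k m E C _ r hC c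
    obtain ⟨z, rz, ez⟩ := q1 _ (tN.1.sm y)
    refine uS.th.inj ((key y z rz ez).symm.trans ((van hq q2 rS n M.hm.f g' a b rz ?_).trans
      (Ex.zero_sm _ _).symm))
    rw [ez, M.hm.pull_sm, e, pull_pull M.hm.f JN JN fun x => ?_]
    obtain ⟨y, w, rfl⟩ := pt_surj x
    rw [b]; rfl
  have za := z0 (sA k m E) _ (fun y => (y.1, e0 1)) (fun _ => rfl) (fun _ _ => rfl) (.inl rfl)
  have zb := z0 (sB k m E) _ (fun y => (e0 1, y.2)) (fun _ => rfl) (fun _ _ => rfl) (.inr rfl)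
  refine ⟨Λ, υ1 * υ2, lT', lS', (IsUnit.of_mul_eq_one _ i1).mul (.of_mul_eq_one _ i2), lin, ?_,
    uT.th, uS.th, fun P kV e o ct eq nz he => ?_⟩
  · obtain ⟨y, hy⟩ := tN.ex ((uS.1.hm G).hm Q)
    have e3 : Λ y = 1 := uS.th.inj ((key y _ (uS.1.hm G) hy).symm.trans
      ((hG _).trans (Ex.one_sm _ _).symm))
    obtain ⟨c0, c1, c2, c3, rfl⟩ := span k m y
    rw [map_add, map_add, map_add, ← mul_one (pull (pj k m) c0), lin, lin, lin, lin,
      za 1 (map_one _), za _ (sA_a k m E), zb _ (sB_b k m E)] at e3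
    exact .of_mul_eq_one c3 (by linear_combination e3)
  · obtain ⟨ok, dg⟩ := h4 k m E C P kV hC ⟨o, ct, eq, nz⟩
    have e4 := h5 k m E q J P kV hq (fun _ _ => rfl) ⟨o, ct, eq, nz⟩ ok lT' lT β υ1 tT.1 uβ.1 e1
    rw [← key (υ1 * υ2 * e) ((Qp P kV).pb lT') (uT.1.hm (Qp P kV).hm) ?_]
    · exact dg lT'
    · refine e4.trans ?_
      rw [he, xm, SmD.sm_mul, Ex.sm_sm]
      refine (congrArg _ e2).trans ((Ex.sm_sm _ _ _ _).trans ?_)
      rw [mul_right_comm]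

end Crest.Agent.N218.D6.Lk

end
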