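import Crest.Agent.N218.D6.Lk
import Crest.Agent.N218.D3.Cmp
import Crest.Agent.N218.In.Gen
import Crest.Agent.N218.K.Dcm

/-!
# Row 218, block D6 (helper21): the classifying map in polar coordinates
-/

set_option autoImplicit false
set_option linter.unusedVariables false
set_option linter.unusedSectionVars false

open Topology Filter Set OnePoint unitInterval

noncomputable section

namespace Crest.Agent.N218.D6.Lk

open K K.Cp Pm In D3
open Sk (S2 X22)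

namespace C1

section gen
variable {Γ : Type} [Group Γ] [TopologicalSpace Γ] [CompactSpace Γ] {Y : GS Γ} {M N : LS Γ}
  {W : Rep Γ} {e : N.Z → M.Z} {U : Set M.Z} {e' : M.Z → N.Z}

/-- a problem on an open subset -/
def opn (U : Set M.Z) (e' : M.Z → N.Z) (Q : FP Y N W) : FP Y M W :=
  ⟨{x | x.2 ∈ U ∧ (x.1, e' x.2) ∈ Q.O}, fun x => Q.f (x.1, e' x.2)⟩

theorem pm_oc (h : Oe e U e') (eq : ∀ g n, e (N.act g n) = M.act g (e n)) :
    Pm Y M N fun x => oc U e' x.2 := by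
  refine ⟨h.oc_ct.comp continuous_snd, fun K k => ⟨e '' K, k.image h.ct, fun p w w' n a m =>
    n ⟨w', m, by obtain ⟨o, rfl⟩ := oc_eq.1 a; exact h.ri w o⟩⟩, fun γ y w => ?_⟩
  have i : ∀ g, ∀ w ∈ U, M.act g w = e (N.act g (e' w)) := fun g w o => by rw [eq, h.ri w o]
  by_cases o : w ∈ U
  · change oc U e' (M.act γ w) = N.sph.act γ (oc U e' w)
    rw [oc_in o, i γ w o, oc_in (h.mem _), h.li]; rfl
  · change oc U e' (M.act γ w) = N.sph.act γ (oc U e' w)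
    rw [oc_out o, oc_out fun p => o (by rw [← M.inv_act γ w, i _ _ p]; exact h.mem _)]; rfl

theorem ok_of (h : Oe e U e') (eq : ∀ g n, e (N.act g n) = M.act g (e n)) {Q : FP Y N W}
    (o : (opn U e' Q).Ok) : Q.Ok := by
  have c : Continuous fun x : Y.Z × N.Z => (x.1, e x.2) :=
    continuous_fst.prodMk (h.ct.comp continuous_snd)
  have a : ∀ x : Y.Z × N.Z, (x.1, e x.2) ∈ (opn U e' Q).O ↔ x ∈ Q.O := fun x => by
    simp [opn, h.mem, h.li]
  have b : ∀ x : Y.Z × N.Z, (opn U e' Q).f (x.1, e x.2) = Q.f x := fun x => by simp [opn, h.li]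
  refine ⟨(Set.ext a : _ = Q.O) ▸ o.op.preimage c, fun g x i => (a _).1 ?_,
    (o.ct.comp c.continuousOn fun x i => (a x).2 i).congr fun x _ => (b x).symm,
    fun g x i => ?_, ?_⟩
  · rw [eq]; exact o.inv g _ ((a x).2 i)
  · rw [← b, ← b x, eq]; exact o.eq g _ ((a x).2 i)
  · convert o.cp.image_of_continuousOn (f := fun x => (x.1, e' x.2)) (continuousOn_fst.prodMk
      (h.ct'.comp continuousOn_snd fun x i => i.1.1)) using 1
    ext x
    exact ⟨fun i => ⟨_, ⟨(a x).2 i.1, (b x).trans i.2⟩, Prod.ext rfl (h.li _)⟩,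
      by rintro ⟨z, i, rfl⟩; exact ⟨i.1.2, i.2⟩⟩

theorem ht_opn (h : Oe e U e') (eq : ∀ g n, e (N.act g n) = M.act g (e n)) {Q : FP Y N W}
    (o : Q.Ok) {C : H1 (Sb Y M) (Sb Y N)} (r : Rg C fun x => oc U e' x.2) :
    (opn U e' Q).hm.Ht (C.cm Q.hm) :=
  (cmp' Y M N W _ C Q (opn U e' Q) (pm_oc h eq) r o (fun x => ⟨fun i => ⟨_, oc_in i.1, i.2⟩,
    fun ⟨n, a, b⟩ => ⟨(oc_eq.1 a).1, (oc_eq.1 a).2 ▸ b⟩⟩)
    fun x n a b => (oc_eq.1 a).2 ▸ rfl).2
end gen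

theorem ang_smul {c : ℝ} (h : 0 < c) (w : ℂ) : ang (c • w) = ang w := by
  rw [ang, Complex.real_smul, Complex.arg_real_mul _ h, ang]

theorem n_exp (t : ℝ) (x : S2) : ‖Real.exp t • (x : E3)‖ = Real.exp t := by
  rw [norm_smul, mem_sphere_zero_iff_norm.1 x.2, mul_one, Real.norm_of_nonneg (Real.exp_pos t).le]
theorem ne_exp (t : ℝ) (x : S2) : Real.exp t • (x : E3) ≠ 0 :=
  norm_pos_iff.1 (by rw [n_exp]; exact Real.exp_pos t)
theorem rad_exp (t : ℝ) (x : S2) : Emb.rad E3 (Real.exp t • (x : E3)) = x := Subtype.ext (by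
  rw [Emb.rad_coe (ne_exp t x), n_exp, inv_smul_smul₀ (Real.exp_pos t).ne'])
theorem exp_rad {p : E3} (h : p ≠ 0) : Real.exp (Real.log ‖p‖) • (Emb.rad E3 p : E3) = p := by
  rw [Emb.rad_coe h, Real.exp_log (norm_pos_iff.2 h), smul_inv_smul₀ (norm_ne_zero_iff.2 h)]

variable (k : ℕ) (E : Type) [NormedAddCommGroup E] [NormedSpace ℝ E] [FiniteDimensional ℝ E]

theorem oe : Oe (cI k E) (cU k E) (cE k E) where
  ct := by unfold cI; fun_prop
  op := (isOpen_ne_fun (by fun_prop) continuous_const).inter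
    (isOpen_ne_fun (by fun_prop) continuous_const)
  ct' := by
    have a : ∀ {f : ((((E3 × E3) × ℂ) × V k E) × ℝ) × ℝ → E3}, Continuous f →
        (∀ x ∈ cU k E, f x ≠ 0) → ContinuousOn (fun x => Emb.rad E3 (f x)) (cU k E) ∧
          ContinuousOn (fun x => Real.log ‖f x‖) (cU k E) := fun c h =>
      ⟨(Emb.rad_on E3).comp c.continuousOn h, log_on.comp c.continuousOn h⟩
    have a1 := a (f := fun x => x.1.1.1.1.1) (by fun_prop) fun _ h => h.1
    have a2 := a (f := fun x => x.1.1.1.1.2) (by fun_prop) fun _ h => h.2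
    exact (a1.1.prodMk a2.1).prodMk ((by fun_prop : ContinuousOn _ _).prodMk
      (((a1.2.prodMk a2.2).prodMk (by fun_prop)).prodMk (by fun_prop)))
  mem a := ⟨ne_exp _ _, ne_exp _ _⟩
  li a := by simp only [cE, cI, rad_exp, n_exp, Real.log_exp, neg_neg]
  ri a h := by simp only [cE, cI, exp_rad h.1, exp_rad h.2, neg_neg]

variable {k E} {m : ℕ} {P : Pb (X22 × UnitAddCircle) k E} {kV : V k E → Fin m → ℂ}

/-- the rotation -/
theorem rot (h : Cy P kV) (o : (Tc (ck k) (cc _) m ((e22.circ.pb P).st (Rep.triv _ ℝ))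
      fun z : (((E3 × E3) × ℂ) × V k E) × ℝ => kV z.1.2).Ok) :
    (opn (M := AA k E) (N := XN k E) (cU k E) (cE k E) (Qp P kV)).Ok ∧
    (Tc (ck k) (cc _) m ((e22.circ.pb P).st (Rep.triv _ ℝ))
      fun z : (((E3 × E3) × ℂ) × V k E) × ℝ => kV z.1.2).hm.Ht
      (opn (M := AA k E) (N := XN k E) (cU k E) (cE k E) (Qp P kV)).hm := by
  obtain ⟨p1, p2, -⟩ := e22.circ.core h.ok
  have kc := h.ct
  let O : Set (I × US m × ((((E3 × E3) × ℂ) × V k E) × ℝ) × ℝ) :=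
    {z | z.2.2.1.1.1 ∈ e22.circ.Ω ∧ (e22.circ.π z.2.2.1.1.1, z.2.2.1.1.2) ∈ P.O}
  let f : I × US m × ((((E3 × E3) × ℂ) × V k E) × ℝ) × ℝ →
      ((((ℝ × ℝ) × ℝ) × V k E) × ℝ) × (Fin m → ℂ) := fun z =>
    (((((e22.circ.n z.2.2.1.1.1).1, (1 - z.1) * (e22.circ.n z.2.2.1.1.1).2 - z.1 * z.2.2.2),
      P.h (e22.circ.π z.2.2.1.1.1, z.2.2.1.1.2)), z.2.2.1.2), kV z.2.2.1.1.2 -
      Real.exp (z.1 * (e22.circ.n z.2.2.1.1.1).2 + (1 - z.1) * z.2.2.2) • z.2.1.1)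
  have fc : ContinuousOn f O := by
    have c := p2.comp (f := fun z : I × US m × ((((E3 × E3) × ℂ) × V k E) × ℝ) × ℝ => z.2.2.1.1)
      (s := O) (by fun_prop) fun _ a => a
    have c1 : ContinuousOn (fun z => e22.circ.n z.2.2.1.1.1) O := c.fst
    have c2 : ContinuousOn (fun z => P.h (e22.circ.π z.2.2.1.1.1, z.2.2.1.1.2)) O := c.snd
    have s : ContinuousOn (fun z => (z.1 : ℝ)) O := by fun_prop
    have t : ContinuousOn (fun z => z.2.2.2) O := by fun_prop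
    have r : ContinuousOn (fun z => z.2.2.1.2) O := by fun_prop
    have u : ContinuousOn (fun z => z.2.1.1) O := by fun_prop
    have v : ContinuousOn (fun z => kV z.2.2.1.1.2) O := by fun_prop
    exact (((c1.fst.prodMk (((continuousOn_const.sub s).mul c1.snd).sub (s.mul t))).prodMk
      c2).prodMk r).prodMk (v.sub (((s.mul c1.snd).add ((continuousOn_const.sub s).mul t)).rexp.smul u))
  have D : ∀ s : I, (0 : ℝ) < (1 - s) ^ 2 + s ^ 2 := fun s => by nlinarith [sq_nonneg (1 - 2 * (s : ℝ))]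
  let Ψ : I × US m × ((((E3 × E3) × ℂ) × V k E) × ℝ) × ℝ →
      I × US m × ((((E3 × E3) × ℂ) × V k E) × ℝ) × ℝ := fun z =>
    (z.1, z.2.1, (((z.2.2.1.1.1.1, Real.exp (z.1 * z.2.2.2 / ((1 - z.1) ^ 2 + z.1 ^ 2)) •
      z.2.2.1.1.1.2), z.2.2.1.1.2), z.2.2.1.2), (1 - z.1) * z.2.2.2 / ((1 - z.1) ^ 2 + z.1 ^ 2))
  have k1 := (isCompact_univ.prod o.cp).image (f := Ψ)
    (by fun_prop (disch := exact fun z => (D _).ne'))
  have op : IsOpen O := p1.preimage continuous_snd.snd.fst.fst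
  refine And.right (FP.ht_of (Y := L k m) (M := AA k E) (W := TR k m E) _ _ O f op
    (fun g t x i => ⟨i.1, (ok_act h.ok g.toAdd _ _ i.2).1⟩) fc (fun g t x i => ?_) ?_
    (fun x => and_iff_left trivial) (fun x i => ?_)
    (fun x => ⟨fun i => ⟨⟨i.1, i.2.1⟩, i.2.2⟩, fun i => ⟨i.1.1, i.1.2, i.2⟩⟩) fun x i => ?_)
  · refine Prod.ext (Prod.ext (Prod.ext rfl (ok_act h.ok g.toAdd _ _ i.2).2) rfl) (funext fun j => ?_)
    refine (congrArg (· - _) (congrFun (h.eq g x.2.1.1.2) j)).trans ?_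
    have : ∀ (c a b : ℂ) (r : ℝ), c * a - r • (c * b) = c * (a - r • b) := fun c a b r => by
      rw [mul_sub, mul_smul_comm]
    exact this _ _ _ _
  · have s : Ψ '' univ ×ˢ {x ∈ (Tc (ck k) (cc _) m ((e22.circ.pb P).st (Rep.triv _ ℝ))
        fun z : (((E3 × E3) × ℂ) × V k E) × ℝ => kV z.1.2).O | (Tc (ck k) (cc _) m
        ((e22.circ.pb P).st (Rep.triv _ ℝ))
        fun z : (((E3 × E3) × ℂ) × V k E) × ℝ => kV z.1.2).f x = 0} ⊆ O := by
      rintro _ ⟨z, ⟨-, i, -⟩, rfl⟩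
      refine ⟨⟨i.1.1.1, smul_ne_zero (Real.exp_pos _).ne' i.1.1.2⟩, ?_⟩
      change ((_, ang (_ • _)), _) ∈ _
      rw [ang_smul (Real.exp_pos _)]
      exact i.1.2
    refine (congrArg IsCompact ((Subset.antisymm (fun z i => ⟨?_, i.2⟩)
      fun z i => ⟨s i.1, i.2⟩ : {z ∈ O | f z = 0} = _ ∩ f ⁻¹' {0}))).mpr
      (k1.of_isClosed_subset ((fc.mono s).preimage_isClosed_of_isClosed k1.isClosed
      isClosed_singleton) inter_subset_left)
    obtain ⟨s, u, ⟨⟨⟨p, w⟩, v⟩, r⟩, t⟩ := z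
    obtain ⟨⟨⟨i1, i2⟩, i3⟩, z⟩ := i
    have w0 : 0 < ‖w‖ := norm_pos_iff.2 i2
    have z1 : (1 - s : ℝ) * Real.log ‖w‖ - s * t = 0 := congrArg (·.1.1.1.2) z
    have a : ang (‖w‖⁻¹ • w) = ang w := ang_smul (inv_pos.2 w0) w
    refine ⟨(s, u, (((p, ‖w‖⁻¹ • w), v), r), s * Real.log ‖w‖ + (1 - s) * t),
      ⟨trivial, ⟨⟨⟨i1, smul_ne_zero (inv_pos.2 w0).ne' i2⟩, ?_⟩, trivial⟩, ?_⟩, ?_⟩
    · change ((_, ang (_ • _)), _) ∈ _
      rw [a]; exact i3
    · refine Prod.ext (Prod.ext (Prod.ext (Prod.ext (congrArg (·.1.1.1.1) z) ?_) ?_)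
        (congrArg (·.1.2) z)) (congrArg (·.2) z)
      · change Real.log ‖‖w‖⁻¹ • w‖ = 0
        rw [norm_smul, norm_inv, norm_norm, inv_mul_cancel₀ w0.ne', Real.log_one]
      · change P.h ((_, ang (_ • _)), _) = 0
        rw [a]; exact congrArg (·.1.1.2) z
    · have e1 : s * (s * Real.log ‖w‖ + (1 - s) * t) / ((1 - s) ^ 2 + s ^ 2 : ℝ) = Real.log ‖w‖ := by
        rw [div_eq_iff (D s).ne']; linear_combination -(1 - s : ℝ) * z1
      have e2 : (1 - s) * (s * Real.log ‖w‖ + (1 - s) * t) / ((1 - s) ^ 2 + s ^ 2 : ℝ) = t := by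
        rw [div_eq_iff (D s).ne']; linear_combination (s : ℝ) * z1
      simp only [Ψ, e1, e2, Real.exp_log w0, smul_inv_smul₀ w0.ne']
  · simp only [f, Icc.coe_zero, sub_zero, one_mul, zero_mul, zero_add]; rfl
  · have : Real.exp (e22.circ.n x.2.1.1.1).2 = ‖x.2.1.1.1.2‖ := Real.exp_log (norm_pos_iff.2 i.2.1)
    simp only [f, Icc.coe_one, sub_self, one_mul, zero_mul, add_zero, zero_sub, this]; rfl

end C1

theorem cm1 : CM1 := by
  intro k m E _ _ _ C P kV hC h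
  have fr := Gn.fr_st (e22.circ.pb_fr h.ok) (Rep.triv _ ℝ)
  have l : ((e22.circ.pb P).st (Rep.triv _ ℝ)).Lift (UU (ck k) (cc _) m)
      fun z : (((E3 × E3) × ℂ) × V k E) × ℝ => kV z.1.2 :=
    ⟨(h.ct.comp continuous_fst.snd).continuousOn, fun g x _ => h.eq g x.1.2,
      fun x i => h.nz _ i.1.1.2⟩
  have o := Dc.tc_ok _ _ _ fr l
  obtain ⟨a, b⟩ := C1.rot h o
  have q := C1.ok_of (M := AA k E) (N := XN k E) (C1.oe k E) (fun _ _ => rfl) a
  refine ⟨q, fun x => ⟨_, ⟨_, _, fr.hb, l, o.rp_hm⟩, ?_⟩⟩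
  rw [(b.tr (C1.ht_opn (M := AA k E) (N := XN k E) (C1.oe k E) (fun _ _ => rfl) q hC)).pull_eq]
  exact pull_cm _ _ x

end Crest.Agent.N218.D6.Lk

end
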