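import Crest.Agent.N218.K.Vstb

/-!
# Row 218, block D6 (helper94): base change and stabilisation of the pull-back of a problem
-/

set_option autoImplicit false
set_option linter.unusedVariables false
set_option linter.unusedSectionVars false

open Set OnePoint Topology

noncomputable section

namespace Crest.Agent.N218.D6.Cm

open K

variable {Γ Γ' : Type} [Group Γ] [TopologicalSpace Γ] [CompactSpace Γ] [Group Γ']
  [TopologicalSpace Γ'] [CompactSpace Γ']

/-- stabilisation -/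
theorem pb_stW {Y : GS Γ} {M : LS Γ} {T : Rep Γ} {P : FP Y M T} (h : P.Ok) (W : Rep Γ)
    {l : KS Y T.ls} {m : KS Y W.ls} (hl : (Sb Y T.ls).Rd l) (hm : (Sb Y W.ls).Rd m) :
    (Vs.stW P W).pb (xm l m) = xm (P.pb l) m := by
  obtain ⟨χ, c, e⟩ := h.rp_hm
  obtain ⟨F, r⟩ := (Vs.pm_st (c.pm h) W.ls).exists_rg
  exact (congrArg (· (xm l m)) (Vs.ht_st h c W r).pull_eq).trans (Rg.pull_xm (c.pm h) e r hl hm)

omit [CompactSpace Γ] in
theorem ok_of_stW {Y : GS Γ} {M : LS Γ} {T W : Rep Γ} {P : FP Y M T} (h : (Vs.stW P W).Ok) :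
    P.Ok := by
  have e : IsClosedEmbedding fun x : Y.Z × M.Z => ((x.1, (x.2, 0)) : Y.Z × M.Z × W.W) :=
    Function.LeftInverse.isClosedEmbedding (f := fun x : Y.Z × M.Z × W.W => (x.1, x.2.1))
      (fun _ => rfl) (by fun_prop) (by fun_prop)
  refine ⟨h.op.preimage e.continuous, fun g x m => h.inv g (x.1, (x.2, (0 : W.W))) m,
    continuous_fst.comp_continuousOn (h.ct.comp e.continuous.continuousOn fun _ m => m),
    fun g x m => congrArg Prod.fst (h.eq g (x.1, (x.2, (0 : W.W))) m), ?_⟩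
  refine (congrArg IsCompact (Set.ext fun x => ?_)).mpr (e.isCompact_preimage h.cp)
  exact ⟨fun m => ⟨m.1, Prod.ext m.2 rfl⟩, fun m => ⟨m.1, congrArg Prod.fst m.2⟩⟩

theorem proper_of {A B C D : Type} [TopologicalSpace A] [CompactSpace A] [T2Space A]
    [TopologicalSpace B] [T2Space B] [TopologicalSpace C] [T2Space C] [LocallyCompactSpace C]
    [TopologicalSpace D] [T2Space D] [LocallyCompactSpace D] {j : A × B → C × D}
    (hj : Continuous j) {p : D → B} (hp : Continuous p) (e : ∀ x, p (j x).2 = x.2) :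
    IsProperMap j :=
  isProperMap_iff_isCompact_preimage.2 ⟨hj, fun K k =>
    (isCompact_univ.prod (k.image (hp.comp continuous_snd))).of_isClosed_subset
      (k.isClosed.preimage hj) fun x m => ⟨trivial, _, m, e x⟩⟩

/-- base change along a proper map -/
theorem pb_base {Y : GS Γ} {Y' : GS Γ'} {M : LS Γ} {M' : LS Γ'} {T : Rep Γ} {T' : Rep Γ'}
    (φ : Γ' → Γ) (j : Y'.Z × M'.Z → Y.Z × M.Z) (hj : IsProperMap j)
    (ej : ∀ g x, j (Y'.act g x.1, M'.act g x.2) = (Y.act (φ g) (j x).1, M.act (φ g) (j x).2))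
    (b : T'.W ≃L[ℝ] T.W) (eb : ∀ g v, b (T'.ρ g v) = T.ρ (φ g) (b v))
    (q : C((Sb Y' M').E, (Sb Y M).E)) (π : C((Sb Y' T'.ls).E, (Sb Y T.ls).E))
    (q1 : ∀ y (w : M'.Z), q (pt Y' M' y w) = pt Y M (j (y, w)).1 (j (y, w)).2)
    (i : Y'.Z → Y.Z) (hi : ∀ x, (j x).1 = i x.1) (q0 : ∀ y, q (pt Y' M' y ∞) = pt Y M (i y) ∞)
    (hπ : Mp i (OnePoint.map b) π) {Q : FP Y M T} (h : Q.Ok) {P : FP Y' M' T'}
    (hO : ∀ x, x ∈ P.O ↔ j x ∈ Q.O) (hf : ∀ x, b (P.f x) = Q.f (j x)) (l : KS Y T.ls) :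
    P.Ok ∧ pull q (Q.pb l) = P.pb (pull π l) := by
  have o : P.O = j ⁻¹' Q.O := Set.ext hO
  have f : P.f = fun x => b.symm (Q.f (j x)) := funext fun x => by rw [← hf, b.symm_apply_apply]
  have z : ∀ x, P.f x = 0 ↔ Q.f (j x) = 0 := fun x => by rw [← hf, map_eq_zero_iff _ b.injective]
  have ok : P.Ok := by
    refine ⟨o ▸ h.op.preimage hj.continuous, fun g x m => (hO _).2 (ej g x ▸ h.inv _ _ ((hO _).1 m)),
      ?_, fun g x m => b.injective ?_, ?_⟩
    · rw [f]
      exact b.symm.continuous.comp_continuousOn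
        (h.ct.comp hj.continuous.continuousOn fun x m => (hO x).1 m)
    · rw [hf, eb, hf, ej, h.eq _ _ ((hO _).1 m)]
    · exact (congrArg IsCompact (Set.ext fun x => and_congr (hO x) (z x))).mpr
        (hj.isCompact_preimage h.cp)
  obtain ⟨χ, c, e⟩ := h.rp_hm
  have s : tsupport (χ ∘ j) ⊆ j ⁻¹' tsupport χ :=
    closure_minimal (fun x m => subset_tsupport χ m) ((isClosed_tsupport χ).preimage hj.continuous)
  have c' : P.Cut (χ ∘ j) :=
    ⟨c.ct.comp hj.continuous, fun _ => c.nn _,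
      (hj.isCompact_preimage c.cp).of_isClosed_subset (isClosed_tsupport _) s,
      fun x m => (hO x).2 (c.sub (s m)), fun x m a => c.pos _ ((hO x).1 m) ((z x).1 a),
      fun g x => (congrArg χ (ej g x)).trans (c.inv _ _)⟩
  obtain ⟨F, r, p⟩ := c'.rp ok
  refine ⟨ok, Eq.trans ?_ (congrArg (· (pull π l)) (p.ht_hm ok).pull_eq).symm⟩
  refine pull_sq q Q.hm.f F.f π (sb_ind (fun y => ?_) fun y w => ?_) l
  · rw [q0, Hm.f_inf, Hm.f_inf, hπ]; rfl
  · rw [q1, e, r, hπ, ← show (j (y, w)).1 = i y from hi _]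
    refine congrArg _ ?_
    change Q.col χ (j (y, w)) = _
    rw [FP.col, FP.col]
    change _ = OnePoint.map b (if χ (j (y, w)) = 0 then _ else _)
    split_ifs
    · rfl
    · exact congrArg OnePoint.some (by rw [_root_.map_smul, hf]; rfl)

end Crest.Agent.N218.D6.Cm

end
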