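import Crest.Agent.N218.D6.Lk
import Crest.Agent.N218.D6.Kit
import Crest.Agent.N218.D6.Cm0

/-!
# Row 218, block D6 (helper94): the leaf CM2 of LINK2
-/

set_option autoImplicit false
set_option linter.unusedVariables false

open Set OnePoint

noncomputable section

namespace Crest.Agent.N218.D6.Lk

open K K.Cp Pm In
open Sk (X22)

/-- the reordering as a linear isomorphism -/
def rL (k m : ℕ) (E : Type) [NormedAddCommGroup E] [NormedSpace ℝ E] :
    ((V k E × (Fin m → ℂ)) × R4) ≃L[ℝ] (((((ℝ × ℝ) × ℝ) × V k E) × ℝ) × (Fin m → ℂ)) where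
  toFun := rT k m E
  invFun w := ((w.1.1.2, w.2), (w.1.1.1, w.1.2))
  map_add' _ _ := rfl
  map_smul' _ _ := rfl
  left_inv _ := rfl
  right_inv _ := rfl
  continuous_toFun := by unfold rT; fun_prop
  continuous_invFun := by fun_prop

theorem cm2 : CM2 := by
  intro k m E _ _ _ q J P kV hq hJ hc ok l lT β υ hl hβ e
  have cj : Continuous fun x : ((US 2 × US 2) × US m) × (V k E × ℂ) × R4 =>
      ((x.1.2, (hx x.1.1, x.2)) : US m × X22 × (V k E × ℂ) × R4) := by fun_prop
  obtain ⟨o, h⟩ := Cm.pb_base (Y := L k m) (Y' := YG k m) (M := XN k E) (M' := NG k E)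
    (T := TR k m E) (T' := (VT k m E).prod (Rep.triv _ R4)) (pg k)
    (fun x : ((US 2 × US 2) × US m) × (V k E × ℂ) × R4 =>
      ((x.1.2, (hx x.1.1, x.2)) : US m × X22 × (V k E × ℂ) × R4))
    (Cm.proper_of (A := (YG k m).Z) (B := (NG k E).Z) (C := (L k m).Z) (D := (XN k E).Z) cj
      continuous_snd fun _ => rfl)
    (fun g x => Prod.ext rfl (Prod.ext (hx_ay (ph k g) x.1.1) rfl)) (rL k m E) (fun _ _ => rfl) q J
    (fun y w => hq y (OnePoint.some w)) (fun y : (US 2 × US 2) × US m => y.2) (fun _ => rfl) (fun y => hq y ∞) hJ ok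
    (P := Vs.stW (ThV P kV) (Rep.triv _ R4)) (fun _ => Iff.rfl) (fun _ => rfl) l
  refine h.trans ((congrArg _ e).trans ?_)
  exact ((Vs.stW (ThV P kV) (Rep.triv _ R4)).hm.pull_sm υ _).trans (by
    rw [pull_id]; exact congrArg _ (Cm.pb_stW (Cm.ok_of_stW o) _ hl hβ))

end Crest.Agent.N218.D6.Lk

end
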