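import Crest.Agent.N218.D6.Lk

/-!
# Row 218, block D6, LINK2, leaf EXQ (helper79): excision along the quotient map
-/

set_option autoImplicit false
set_option linter.unusedVariables false

open Topology Filter Set OnePoint ComplexConjugate

noncomputable section

namespace Crest.Agent.N218.D6.Lk

open K K.Cp Pm In
open Sk (S2 X22)

namespace Xq

/-- relative homeomorphisms of ex-spaces are bijective on reduced classes -/
theorem rel_bij {X X' : Type} [TopologicalSpace X] [TopologicalSpace X'] [CompactSpace X]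
    [CompactSpace X'] (A : Ex X') (B : Ex X) (q : C(A.E, B.E))
    (h1 : ∀ x, x ∈ range q ∨ x ∈ range B.s) (h2 : ∀ z, q z ∈ range B.s ↔ z ∈ range A.s)
    (h3 : ∀ z z', q z = q z' → z = z' ∨ z ∈ range A.s) :
    (∀ x, A.Rd x → ∃ z, B.Rd z ∧ pull q z = x) ∧ ∀ z, B.Rd z → pull q z = 0 → z = 0 := by
  have E := exc_of B.s A.s q h1 h2 h3
  refine ⟨fun x hx => ?_, fun z hz e => ?_⟩
  · obtain ⟨x1, rfl, x2⟩ := Db.lift (cr_surj (Function.LeftInverse.injective A.ps)) hx
    obtain ⟨y, rfl, y2⟩ := E.ksrj x2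
    exact ⟨_, Db.rho_f y2, (Db.f_mp _ E.mp y).symm⟩
  · obtain ⟨x1, rfl, x2⟩ := Db.lift (cr_surj (Function.LeftInverse.injective B.ps)) hz
    rw [E.kinj (Db.inj (Crest.Agent.R204.Ex837.stLift_of_section _ (cr A.p) fun a =>
      ContinuousMap.ext fun b => congrArg a (A.ps b)) ((Db.f_mp _ E.mp x1).trans e)
      (by rw [Db.s_mp, x2, map_zero])) x2, map_zero]

theorem hp0 (u : US 2) : (hp u).1 0 = 2 * (conj (u.1 0) * u.1 1).re := rfl
theorem hp1 (u : US 2) : (hp u).1 1 = 2 * (conj (u.1 0) * u.1 1).im := rfl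
theorem hp2 (u : US 2) : (hp u).1 2 = ‖u.1 0‖ ^ 2 - ‖u.1 1‖ ^ 2 := rfl

theorem cms (z : ℂ) : conj z * z = ((‖z‖ ^ 2 : ℝ) : ℂ) := by
  rw [mul_comm, Complex.mul_conj, Complex.normSq_eq_norm_sq]

theorem s2_ext {x y : S2} (h0 : x.1 0 = y.1 0) (h1 : x.1 1 = y.1 1) (h2 : x.1 2 = y.1 2) :
    x = y := Subtype.ext (by
  ext i; fin_cases i
  exacts [h0, h1, h2])

/-- the Hopf map is onto -/
theorem hp_sur (x : S2) : ∃ u, hp u = x := by
  have n : x.1 0 ^ 2 + x.1 1 ^ 2 + x.1 2 ^ 2 = 1 := by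
    have := EuclideanSpace.norm_sq_eq x.1
    rw [norm_eq_of_mem_sphere x, Fin.sum_univ_three] at this
    simpa [sq_abs] using this.symm
  by_cases h : 1 + x.1 2 = 0
  · have h2 : x.1 2 = -1 := by linarith
    rw [h2] at n
    have a : x.1 0 = 0 := by nlinarith [sq_nonneg (x.1 0), sq_nonneg (x.1 1)]
    have b : x.1 1 = 0 := by nlinarith [sq_nonneg (x.1 0), sq_nonneg (x.1 1)]
    refine ⟨⟨![0, 1], by simp [Un1, Fin.sum_univ_two]⟩, s2_ext ?_ ?_ ?_⟩
    · rw [hp0, a]; simp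
    · rw [hp1, b]; simp
    · rw [hp2, h2]; simp
  · have p : 0 < 1 + x.1 2 := lt_of_le_of_ne
      (by nlinarith [sq_nonneg (x.1 0), sq_nonneg (x.1 1), sq_nonneg (x.1 2 + 1)]) (Ne.symm h)
    obtain ⟨r, r0, hr⟩ : ∃ r : ℝ, 0 < r ∧ r ^ 2 = (1 + x.1 2) / 2 :=
      ⟨√((1 + x.1 2) / 2), Real.sqrt_pos.2 (by linarith), Real.sq_sqrt (by linarith)⟩
    have e : ‖(⟨x.1 0 / (2 * r), x.1 1 / (2 * r)⟩ : ℂ)‖ ^ 2 = (1 - x.1 2) / 2 := by
      rw [Complex.sq_norm, Complex.normSq_mk]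
      field_simp
      nlinarith
    have e0 : ‖(r : ℂ)‖ ^ 2 = (1 + x.1 2) / 2 := by rw [Complex.norm_real, Real.norm_eq_abs, sq_abs, hr]
    refine ⟨⟨![r, ⟨x.1 0 / (2 * r), x.1 1 / (2 * r)⟩], ?_⟩, s2_ext ?_ ?_ ?_⟩
    · rw [Un1, Fin.sum_univ_two, cms, cms]
      simp only [Matrix.cons_val_zero, Matrix.cons_val_one, e, e0]
      push_cast; ring
    · rw [hp0]; simp; field_simp
    · rw [hp1]; simp; field_simp
    · rw [hp2]
      simp only [Matrix.cons_val_zero, Matrix.cons_val_one, e, e0]; ring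

/-- the fibres of the Hopf map -/
theorem hp_fib {u v : US 2} (h : hp u = hp v) : ∃ t : Circle, ∀ i, (t : ℂ) * u.1 i = v.1 i := by
  have a : conj (u.1 0) * u.1 1 = conj (v.1 0) * v.1 1 := Complex.ext
    (by have := congrArg (fun x : S2 => x.1 0) h; simp only [hp0] at this; linarith)
    (by have := congrArg (fun x : S2 => x.1 1) h; simp only [hp1] at this; linarith)
  have a' : u.1 0 * conj (u.1 1) = v.1 0 * conj (v.1 1) := by
    simpa using congrArg conj a
  have b := congrArg (fun x : S2 => x.1 2) h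
  simp only [hp2] at b
  have su := us_sq u
  have sv := us_sq v
  have b0 : conj (u.1 0) * u.1 0 = conj (v.1 0) * v.1 0 := by
    rw [cms, cms]; congr 1; linarith
  have b1 : conj (u.1 1) * u.1 1 = conj (v.1 1) * v.1 1 := by
    rw [cms, cms]; congr 1; linarith
  have nv : conj (v.1 0) * v.1 0 + conj (v.1 1) * v.1 1 = 1 := by
    have := v.2; rwa [Un1, Fin.sum_univ_two] at this
  have e0 : (conj (u.1 0) * v.1 0 + conj (u.1 1) * v.1 1) * u.1 0 = v.1 0 := by
    linear_combination v.1 0 * b0 + v.1 1 * a' + v.1 0 * nv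
  have e1 : (conj (u.1 0) * v.1 0 + conj (u.1 1) * v.1 1) * u.1 1 = v.1 1 := by
    linear_combination v.1 0 * a + v.1 1 * b1 + v.1 1 * nv
  generalize conj (u.1 0) * v.1 0 + conj (u.1 1) * v.1 1 = t at e0 e1
  have n : ‖t‖ = 1 := by
    rw [← e0, ← e1, norm_mul, norm_mul] at sv
    have : ‖t‖ ^ 2 = 1 := by linear_combination sv - ‖t‖ ^ 2 * su
    nlinarith [norm_nonneg t]
  exact ⟨⟨t, mem_sphere_zero_iff_norm.2 n⟩, Fin.forall_fin_two.2 ⟨e0, e1⟩⟩

theorem hp_act (t : Circle) {u v : US 2} (h : ∀ i, (t : ℂ) * u.1 i = v.1 i) : hp v = hp u := by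
  have e : conj (v.1 0) * v.1 1 = conj (u.1 0) * u.1 1 := by
    rw [← h, ← h, map_mul]; linear_combination (conj (u.1 0) * u.1 1) * circ_conj t
  refine s2_ext (by rw [hp0, hp0, e]) (by rw [hp1, hp1, e]) ?_
  rw [hp2, hp2, ← h, ← h, norm_mul, norm_mul, Circle.norm_coe, one_mul, one_mul]

theorem hp_ct : Continuous hp := Continuous.subtype_mk (by
  have a : Continuous fun u : US 2 => u.1 0 := (continuous_apply 0).comp continuous_subtype_val
  have b : Continuous fun u : US 2 => u.1 1 := (continuous_apply 1).comp continuous_subtype_val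
  have c : Continuous fun u : US 2 => conj (u.1 0) * u.1 1 := (Complex.continuous_conj.comp a).mul b
  change Continuous fun u : US 2 => (WithLp.toLp 2 ![2 * (conj (u.1 0) * u.1 1).re,
    2 * (conj (u.1 0) * u.1 1).im, ‖u.1 0‖ ^ 2 - ‖u.1 1‖ ^ 2] : EuclideanSpace ℝ (Fin 3))
  refine (PiLp.continuous_toLp 2 _).comp (continuous_pi fun i => ?_)
  fin_cases i
  · exact continuous_const.mul (Complex.continuous_re.comp c)
  · exact continuous_const.mul (Complex.continuous_im.comp c)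
  · exact (a.norm.pow 2).sub (b.norm.pow 2)) _

theorem hx_ct : Continuous hx := (hp_ct.comp continuous_fst).prodMk (hp_ct.comp continuous_snd)

theorem mem_s {Γ : Type} [Group Γ] [TopologicalSpace Γ] [CompactSpace Γ] {Y : GS Γ} {M : LS Γ}
    {y : Y.Z} {w : OnePoint M.Z} : pt Y M y w ∈ range (Sb Y M).s ↔ w = ∞ := by
  refine ⟨fun ⟨b, e⟩ => ?_, fun h => ⟨Y.pr y, h ▸ rfl⟩⟩
  obtain ⟨y', rfl⟩ := Y.pr_surj b
  obtain ⟨g, -, e⟩ := pt_iff.1 ((s_pr y').symm.trans e)
  exact e.symm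

end Xq

open Xq in
theorem exq : EXQ := by
  intro k m E _ _ _
  obtain ⟨F, hF⟩ := sb_map (Y' := YG k m) (M' := NG k E) (Y := L k m) (M := XN k E)
    ⟨fun y : (US 2 × US 2) × US m => y.2, continuous_snd⟩
    (g := fun x : ((US 2 × US 2) × US m) × (V k E × ℂ) × R4 =>
      OnePoint.some (X := X22 × (V k E × ℂ) × R4) (hx x.1.1, x.2))
    (continuous_coe.comp ((hx_ct.comp continuous_fst.fst).prodMk continuous_snd))
    (fun K' c => ⟨Prod.snd '' K', c.image continuous_snd, fun p w w' n e i =>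
      n ⟨w', i, (congrArg Prod.snd (coe_injective e)).symm⟩⟩)
    fun g y => ⟨g.1, rfl, fun w => congrArg OnePoint.some (Prod.ext
      (Prod.ext (hp_act g.2.1 fun _ => rfl).symm (hp_act g.2.2 fun _ => rfl).symm) rfl)⟩
  have hq : IsQ F.f := fun y w => by
    induction w using OnePoint.rec with
    | infty => exact F.hs ((YG k m).pr y)
    | coe w => exact hF y w
  refine ⟨F.f, hq, rel_bij _ _ F.f (sb_ind (fun y => .inr (mem_s.2 rfl)) fun u z => .inl ?_)
    (fun z => ?_) fun z z' e => ?_⟩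
  · obtain ⟨a, ha⟩ := hp_sur z.1.1
    obtain ⟨b, hb⟩ := hp_sur z.1.2
    exact ⟨_, (hF ((a, b), u) z.2).trans (congrArg (fun x => pt (L k m) (XN k E) u
      (OnePoint.some x)) (Prod.ext (Prod.ext ha hb) rfl))⟩
  · obtain ⟨y, w, rfl⟩ := pt_surj z
    rw [hq y w]
    refine mem_s.trans (Iff.trans ?_ mem_s.symm)
    induction w using OnePoint.rec with
    | infty => exact iff_of_true rfl rfl
    | coe w => exact iff_of_false (coe_ne_infty _) (coe_ne_infty _)
  · obtain ⟨y, w, rfl⟩ := pt_surj z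
    obtain ⟨y', w', rfl⟩ := pt_surj z'
    rw [hq y w, hq y' w'] at e
    obtain ⟨g, e1, e2⟩ := pt_iff.1 e
    induction w using OnePoint.rec with
    | infty => exact .inr (mem_s.2 rfl)
    | coe w =>
      induction w' using OnePoint.rec with
      | infty => exact absurd e2 (coe_ne_infty _)
      | coe w' =>
        have e3 := coe_injective e2
        obtain ⟨s, hs⟩ := hp_fib (congrArg (fun x => x.1.1) e3)
        obtain ⟨t, ht⟩ := hp_fib (congrArg (fun x => x.1.2) e3)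
        exact .inl (pt_iff.2 ⟨(g, s, t), Prod.ext (Prod.ext (Subtype.ext (funext hs))
          (Subtype.ext (funext ht))) e1, congrArg OnePoint.some (congrArg Prod.snd e3)⟩)

end Crest.Agent.N218.D6.Lk

end
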