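import Crest.Agent.N218.D6.Lk

/-!
# Row 218, block D6, leaf SUR (helper86): the collapse is onto
-/

set_option autoImplicit false
set_option linter.unusedVariables false
set_option linter.unusedSectionVars false

open Topology Filter Set OnePoint Metric unitInterval

noncomputable section

namespace Crest.Agent.N218.D6.Lk

open K K.Cp Pm In D3
open Sk (S2 X22)

namespace Su

section gen
variable {Γ : Type} [Group Γ] [TopologicalSpace Γ] [CompactSpace Γ] (Y : GS Γ) {W : Rep Γ}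
  {M : LS Γ} {e : M.Z → W.W} {U : Set W.W} {e' : W.W → M.Z}

/-- the collapse along an equivariant open embedding -/
theorem pm_oc (h : Oe e U e') (he : ∀ g n, e (M.act g n) = W.ρ g (e n)) :
    Pm Y W.ls M fun x => oc U e' x.2 := by
  refine ⟨h.oc_ct.comp continuous_snd, fun K k => ⟨e '' K, k.image h.ct, fun p w w' n a m =>
    n ⟨w', m, by obtain ⟨o, rfl⟩ := oc_eq.1 a; exact h.ri w o⟩⟩, fun γ y (w : W.W) => ?_⟩
  change oc U e' (W.ρ γ w) = M.sph.act γ (oc U e' w)
  by_cases o : w ∈ U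
  · have a : W.ρ γ w = e (M.act γ (e' w)) := by rw [he, h.ri w o]
    rw [oc_in o, a, oc_in (h.mem _), h.li]; rfl
  · rw [oc_out o, oc_out fun p => o ?_]
    · rfl
    · rw [← W.inv_apply γ w, ← h.ri _ p, ← he]; exact h.mem _

theorem shr_act {a0 : W.W} (h0 : ∀ g, W.ρ g a0 = a0) (hn : ∀ g a, ‖W.ρ g a‖ = ‖a‖) (r t : ℝ) (γ : Γ)
    (a : W.W) : shr (A := W.W) a0 r t (W.ρ γ a) = W.ls.sph.act γ (shr (A := W.W) a0 r t a) := by
  have e : W.ρ γ a - (1 - t) • a0 = W.ρ γ (a - (1 - t) • a0) := by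
    rw [map_sub, _root_.map_smul, h0]
  unfold shr
  rw [e, hn, ← sc_act]; rfl

/-- **the collapse has a left inverse up to homotopy** -/
theorem gen (h : Oe e U e') (he : ∀ g n, e (M.act g n) = W.ρ g (e n)) (n0 : M.Z)
    (h0 : ∀ g, M.act g n0 = n0) (hn : ∀ g a, ‖W.ρ g a‖ = ‖a‖) {C : H1 (Sb Y W.ls) (Sb Y M)}
    (r : Rg C fun x => oc U e' x.2) :
    ∃ G : H1 (Sb Y M) (Sb Y W.ls), ∀ x, pull C.f (pull G.f x) = x := by
  have f0 : ∀ g, W.ρ g (e n0) = e n0 := fun g => by rw [← he, h0]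
  obtain ⟨ρ, hρ, hb⟩ := nhds_basis_closedBall.mem_iff.1 (h.op.mem_nhds (h.mem n0))
  have m : Pm Y M W.ls fun x => shr (A := W.W) (e n0) ρ 0 (e x.2) := by
    refine ⟨(shr_ct (e n0) hρ).comp ((continuous_const (y := (0 : I))).prodMk
      (h.ct.comp continuous_snd)), fun K k => ⟨e' '' closedBall (e n0) ρ,
        (isCompact_closedBall _ _).image_of_continuousOn (h.ct'.mono hb),
        fun p w w' n a _ => n ⟨e w, ?_, h.li w⟩⟩, fun γ y w => ?_⟩
    · have := (sc_eq (E := W.W) a).1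
      rw [mem_closedBall, dist_eq_norm]
      by_contra o
      refine this (max_eq_left ?_)
      simp only [sub_zero, one_smul, one_mul, add_zero]
      linarith [not_le.1 o]
    · exact (congrArg (shr (e n0) ρ 0) (he γ w)).trans (shr_act f0 hn ρ 0 γ _)
  obtain ⟨G, rG⟩ := m.exists_rg
  have H : Pm (IY Y) W.ls W.ls fun x => shr (A := W.W) (e n0) ρ x.1.1 x.2 :=
    ⟨(shr_ct (e n0) hρ).comp (continuous_fst.fst.prodMk continuous_snd),
      fun K k => (shr_pr (e n0) hρ K k).imp fun K a => ⟨a.1, fun p => a.2 (p.1, ())⟩,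
      fun γ y w => shr_act f0 hn ρ _ γ w⟩
  have ht : (C.cm G).Ht ⟨ContinuousMap.id _, fun _ => rfl, fun _ => rfl⟩ := by
    refine H.ht (fun y (w : W.W) => (Rg.cm r rG y w).trans (congrArg _ ?_))
      fun y w => congrArg (pt Y W.ls y) ?_
    · change opx (fun x : Y.Z × M.Z => shr (A := W.W) (e n0) ρ 0 (e x.2)) (y, oc U e' w) =
        shr (A := W.W) (e n0) ρ 0 w
      by_cases o : w ∈ U
      · rw [oc_in o]
        exact congrArg (shr (A := W.W) (e n0) ρ 0) (h.ri w o)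
      · rw [oc_out o]
        unfold shr
        rw [max_eq_left, sc_zero]
        · rfl
        · have : ¬ ‖w - e n0‖ ≤ ρ := fun i => o (hb (mem_closedBall_iff_norm.2 i))
          simp only [sub_zero, one_smul, one_mul, add_zero]
          linarith [not_le.1 this]
    · exact (shr_one (A := W.W) (e n0) ρ w).symm
  exact ⟨G, fun x => (pull_cm C.f G.f x).symm.trans
    ((DFunLike.congr_fun ht.pull_eq x).trans (pull_id x))⟩
end gen

theorem es_ne (t : ℝ) (x : S2) : Real.exp t • (x : E3) ≠ 0 :=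
  smul_ne_zero (Real.exp_pos t).ne' (ne_zero_of_mem_unit_sphere x)
theorem es_norm (t : ℝ) (x : S2) : ‖Real.exp t • (x : E3)‖ = Real.exp t := by
  rw [norm_smul, norm_eq_of_mem_sphere x, mul_one, Real.norm_of_nonneg (Real.exp_pos t).le]
theorem es_rad (t : ℝ) (x : S2) : Emb.rad E3 (Real.exp t • (x : E3)) = x := Subtype.ext (by
  rw [Emb.rad_coe (es_ne t x), es_norm, inv_smul_smul₀ (Real.exp_pos t).ne'])
theorem es_log (t : ℝ) (x : S2) : Real.log ‖Real.exp t • (x : E3)‖ = t := by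
  rw [es_norm, Real.log_exp]
theorem es_inv {p : E3} (h : p ≠ 0) : Real.exp (Real.log ‖p‖) • (Emb.rad E3 p : E3) = p := by
  rw [Real.exp_log (norm_pos_iff.2 h), Emb.rad_coe h, smul_inv_smul₀ (norm_ne_zero_iff.2 h)]

variable (k : ℕ) (E : Type) [NormedAddCommGroup E] [NormedSpace ℝ E] [FiniteDimensional ℝ E]

/-- polar coordinates are an open embedding -/
theorem oe : Oe (cI k E) (cU k E) (cE k E) := by
  have c1 : Continuous fun a : ((((E3 × E3) × ℂ) × V k E) × ℝ) × ℝ => a.1.1.1.1.1 := by fun_prop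
  have c2 : Continuous fun a : ((((E3 × E3) × ℂ) × V k E) × ℝ) × ℝ => a.1.1.1.1.2 := by fun_prop
  refine ⟨by unfold cI; fun_prop, (isOpen_ne.preimage c1).inter (isOpen_ne.preimage c2), ?_,
    fun a => ⟨es_ne _ _, es_ne _ _⟩, fun a => ?_, fun a o => ?_⟩
  · exact (((Emb.rad_on E3).comp c1.continuousOn fun _ o => o.1).prodMk
      ((Emb.rad_on E3).comp c2.continuousOn fun _ o => o.2)).prodMk
      ((Continuous.continuousOn (by fun_prop)).prodMk
        ((((log_on.comp c1.continuousOn fun _ o => o.1).prodMk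
          (log_on.comp c2.continuousOn fun _ o => o.2)).prodMk
          (Continuous.continuousOn (by fun_prop))).prodMk (Continuous.continuousOn (by fun_prop))))
  · simp only [cE, cI, es_rad, es_log, neg_neg]
  · simp only [cE, cI, es_inv o.1, es_inv o.2, neg_neg]

/-- the source as a representation -/
abbrev AR : Rep (Gk k) := ((XX ((E3 × E3) × ℂ) k E).prod (Rep.triv _ ℝ)).prod (Rep.triv _ ℝ)

theorem norm_rr (g : Gk k) (v : V k E) : ‖(Rr k E).ρ g v‖ = ‖v‖ :=
  (Equiv.addRight g.toAdd).surjective.pi_norm_comp v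

theorem norm_ar (g : Gk k) (a : ((((E3 × E3) × ℂ) × V k E) × ℝ) × ℝ) :
    ‖(AR k E).ρ g a‖ = ‖a‖ := by
  change max (max (max ‖a.1.1.1‖ ‖(Rr k E).ρ g a.1.1.2‖) ‖a.1.2‖) ‖a.2‖ = _
  rw [norm_rr]; rfl

theorem eq_cI (g : Gk k) (n : (XN k E).Z) :
    cI k E ((XN k E).act g n) = (AR k E).ρ g (cI k E n) := rfl

/-- the collapse is a pointed fibre map -/
theorem pm (m : ℕ) : Pm (L k m) (AA k E) (XN k E) fun x => oc (cU k E) (cE k E) x.2 :=
  pm_oc (L k m) (W := AR k E) (M := XN k E) (oe k E) (eq_cI k E)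

end Su

/-- **leaf SUR** -/
theorem sur : SUR := fun k m E _ _ _ => by
  obtain ⟨C, r⟩ := (Su.pm k E m).exists_rg
  exact ⟨C, r, Su.gen (L k m) (W := Su.AR k E) (M := XN k E) (Su.oe k E) (Su.eq_cI k E)
    ((Emb.rad E3 0, Emb.rad E3 0), ((0 : V k E), (0 : ℂ)), (0 : R4)) (fun g => rfl)
    (Su.norm_ar k E) r⟩

end Crest.Agent.N218.D6.Lk

end
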