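import Crest.Agent.N218.D6.Lk

/-!
# Row 218, block D6 (helper39): leaf NUL of LINK2
-/

set_option autoImplicit false
set_option linter.unusedVariables false

open Topology Filter Set OnePoint unitInterval

noncomputable section

namespace Crest.Agent.N218.D6.Lk

open K K.Cp Pm In D3
open Sk (S2 X22)

namespace Nl

/-- partial proper equivariant maps -/
theorem pm_oc {Γ : Type} [Group Γ] [TopologicalSpace Γ] [CompactSpace Γ] {Y : GS Γ} {M N : LS Γ}
    {O : Set (Y.Z × M.Z)} {f : Y.Z × M.Z → N.Z} (hO : IsOpen O) (hf : ContinuousOn f O)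
    (inv : ∀ g, ∀ x ∈ O, (Y.act g x.1, M.act g x.2) ∈ O)
    (eq : ∀ g, ∀ x ∈ O, f (Y.act g x.1, M.act g x.2) = N.act g (f x))
    (cp : ∀ K, IsCompact K → ∃ S, IsCompact S ∧ S ⊆ O ∧ ∀ w ∈ O, f w ∈ K → w ∈ S) :
    Pm Y M N (oc O f) := by
  refine ⟨continuous_iff_continuousAt.2 fun a => ?_, fun K k => ?_, fun g y w => ?_⟩
  · by_cases o : a ∈ O
    · refine (continuous_coe.continuousAt.comp (hf.continuousAt (hO.mem_nhds o))).congr ?_
      filter_upwards [hO.mem_nhds o] with b hb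
      exact (oc_in hb).symm
    · rw [ContinuousAt, oc_out o, hasBasis_nhds_infty.tendsto_right_iff]
      rintro K ⟨-, k⟩
      obtain ⟨S, s1, s2, s3⟩ := cp K k
      filter_upwards [s1.isClosed.isOpen_compl.mem_nhds fun m => o (s2 m)] with b hb
      by_cases p : b ∈ O
      · exact .inl ⟨f b, fun m => hb (s3 b p m), (oc_in p).symm⟩
      · exact .inr (oc_out p)
  · obtain ⟨S, s1, s2, s3⟩ := cp K k
    refine ⟨Prod.snd '' S, s1.image continuous_snd, fun p w w' n e i => n ?_⟩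
    obtain ⟨o, a⟩ := oc_eq.1 e
    exact ⟨(p, w), s3 _ o (a ▸ i), rfl⟩
  · by_cases o : (y, w) ∈ O
    · exact ((oc_in (inv g _ o)).trans (congrArg _ (eq g _ o))).trans
        (congrArg (N.sph.act g) (oc_in o).symm)
    · refine (oc_out fun i => o ?_).trans (congrArg (N.sph.act g) (oc_out o).symm)
      have := inv g⁻¹ _ i
      simp only at this
      rwa [← Y.mul, inv_mul_cancel, Y.one, M.inv_act] at this

/-- null-homotopies at the level of the base -/
structure Nh (r : X22 → X22) (U : Set (I × E3 × E3)) (x : I × E3 × E3 → X22)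
    (l : I × E3 × E3 → ℝ × ℝ) : Prop where
  op : IsOpen U
  cx : ContinuousOn x U
  cl : ContinuousOn l U
  pr : ∀ R : ℝ, ∃ S, IsCompact S ∧ S ⊆ U ∧ ∀ z ∈ U, |(l z).1| ≤ R → |(l z).2| ≤ R → z ∈ S
  u0 : ∀ p, (0, p) ∈ U ↔ p.1 ≠ 0 ∧ p.2 ≠ 0
  x0 : ∀ p, x (0, p) = r (Emb.rad E3 p.1, Emb.rad E3 p.2)
  l0 : ∀ p, l (0, p) = (Real.log ‖p.1‖, Real.log ‖p.2‖)
  u1 : ∀ p, (1, p) ∉ U

theorem Nh.swap {r U x l} (h : Nh r U x l) :
    Nh (fun z => (r z.swap).swap) (Prod.map id Prod.swap ⁻¹' U)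
      (fun z => (x (Prod.map id Prod.swap z)).swap) fun z => (l (Prod.map id Prod.swap z)).swap := by
  have c : Continuous (Prod.map id Prod.swap : I × E3 × E3 → I × E3 × E3) := by fun_prop
  refine ⟨h.op.preimage c, continuous_swap.comp_continuousOn (h.cx.comp c.continuousOn fun _ o => o),
    continuous_swap.comp_continuousOn (h.cl.comp c.continuousOn fun _ o => o), fun R => ?_,
    fun p => (h.u0 p.swap).trans and_comm, fun p => congrArg Prod.swap (h.x0 p.swap),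
    fun p => congrArg Prod.swap (h.l0 p.swap), fun p => h.u1 p.swap⟩
  obtain ⟨S, a, b, d⟩ := h.pr R
  refine ⟨Prod.map id Prod.swap '' S, a.image c, ?_, fun z o e e' => ⟨_, d _ o e' e, rfl⟩⟩
  rintro _ ⟨z, m, rfl⟩
  exact b m

theorem log_bd {a R : ℝ} (h : 0 < a) (e : |Real.log a| ≤ R) : Real.exp (-R) ≤ a ∧ a ≤ Real.exp R :=
  ⟨(Real.le_log_iff_exp_le h).1 (abs_le.1 e).1, (Real.log_le_iff_le_exp h).1 (abs_le.1 e).2⟩

theorem nh1 (x0 : S2) : Nh (fun x => (x.1, x0))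
    {z | z.2.1 ≠ 0 ∧ (z.1 : ℝ) < 1 ∧ 0 < ‖z.2.2‖ + z.1} (fun z => (Emb.rad E3 z.2.1, x0))
    fun z => (Real.log ‖z.2.1‖, Real.log ((‖z.2.2‖ + z.1) / (1 - z.1))) := by
  have o1 : IsOpen {z : I × E3 × E3 | (z.1 : ℝ) < 1} := isOpen_lt (by fun_prop) (by fun_prop)
  have o2 : IsOpen {z : I × E3 × E3 | 0 < ‖z.2.2‖ + z.1} := isOpen_lt (by fun_prop) (by fun_prop)
  refine ⟨(isOpen_ne.preimage (by fun_prop)).inter (o1.inter o2),
    ((Emb.rad_on E3).comp (by fun_prop) fun z o => o.1).prodMk continuousOn_const,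
    (log_on.comp (f := fun z : I × E3 × E3 => z.2.1) (by fun_prop) fun z o => o.1).prodMk
      (ContinuousOn.log (ContinuousOn.div (by fun_prop) (by fun_prop) fun z o =>
        (sub_pos.2 o.2.1).ne') fun z o => (div_pos o.2.2 (sub_pos.2 o.2.1)).ne'),
    fun R => ⟨{z | (Real.exp (-R) ≤ ‖z.2.1‖ ∧ ‖z.2.1‖ ≤ Real.exp R) ∧
      Real.exp (-R) * (1 - z.1) ≤ ‖z.2.2‖ + z.1 ∧ ‖z.2.2‖ + z.1 ≤ Real.exp R * (1 - z.1)}, ?_,
      fun z m => ?_, fun z o e e' => ?_⟩,
    fun p => by simp, fun p => rfl, fun p => by simp, fun p o => by simpa using o.2.1⟩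
  · refine (isCompact_univ.prod ((isCompact_closedBall (0 : E3) (Real.exp R)).prod
      (isCompact_closedBall (0 : E3) (Real.exp R)))).of_isClosed_subset
      (((isClosed_le (by fun_prop) (by fun_prop)).and (isClosed_le (by fun_prop) (by fun_prop))).and
        ((isClosed_le (by fun_prop) (by fun_prop)).and (isClosed_le (by fun_prop) (by fun_prop))))
      fun z m => ⟨trivial, mem_closedBall_zero_iff.2 m.1.2, mem_closedBall_zero_iff.2 ?_⟩
    nlinarith [m.2.2, z.1.2.1, Real.exp_pos R]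
  · have t0 := z.1.2.1
    have t1 := z.1.2.2
    have n := norm_nonneg z.2.2
    have e := Real.exp_pos (-R)
    have k : (z.1 : ℝ) < 1 := lt_of_le_of_ne t1 fun a => by
      have := m.2.2
      rw [a] at this
      linarith
    exact ⟨norm_pos_iff.1 (e.trans_le m.1.1), k, (mul_pos e (sub_pos.2 k)).trans_le m.2.1⟩
  · have k := sub_pos.2 o.2.1
    have := log_bd (div_pos o.2.2 k) e'
    exact ⟨log_bd (norm_pos_iff.2 o.1) e, (le_div_iff₀ k).1 this.1, (div_le_iff₀ k).1 this.2⟩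

variable {k m : ℕ} {E : Type} [NormedAddCommGroup E] [NormedSpace ℝ E] [FiniteDimensional ℝ E]

theorem key {r U x l} (h : Nh r U x l) (hr : Continuous r)
    (C : H1 (Sb (L k m) (AA k E)) (Sb (L k m) (XN k E))) (hC : IsC C) :
    ∃ S : H1 (Sb (L k m) (XN k E)) (Sb (L k m) (XN k E)),
      Rg S (fun x : US m × X22 × (V k E × ℂ) × R4 => OnePoint.some (r x.2.1, x.2.2)) ∧
      (C.cm S).Ht (Hm.triv _ _) := by
  have : ProperSpace (V k E) := FiniteDimensional.proper_real _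
  have s : Pm (L k m) (XN k E) (XN k E)
      fun x : US m × X22 × (V k E × ℂ) × R4 => OnePoint.some (r x.2.1, x.2.2) :=
    ⟨continuous_coe.comp ((hr.comp continuous_snd.fst).prodMk continuous_snd.snd),
      fun K c => ⟨univ ×ˢ (Prod.snd '' K), (isCompact_univ (X := X22)).prod (c.image continuous_snd),
        fun p w w' n e i => n ⟨trivial, w', i, (congrArg Prod.snd (coe_injective e)).symm⟩⟩,
      fun _ _ _ => rfl⟩
  obtain ⟨S, rS⟩ := s.exists_rg
  let b : (I × US m) × ((((E3 × E3) × ℂ) × V k E) × ℝ) × ℝ → I × E3 × E3 :=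
    fun z => (z.1.1, z.2.1.1.1.1)
  have cb : Continuous b := by fun_prop
  let f : (I × US m) × ((((E3 × E3) × ℂ) × V k E) × ℝ) × ℝ → X22 × (V k E × ℂ) × R4 :=
    fun z => (x (b z), (z.2.1.1.2, z.2.1.1.1.2), ((l (b z), -z.2.2), z.2.1.2))
  have H : Pm (IY (L k m)) (AA k E) (XN k E) (oc (b ⁻¹' U) f) := by
    refine pm_oc (Y := IY (L k m)) (M := AA k E) (N := XN k E) (h.op.preimage cb)
      (ContinuousOn.prodMk (h.cx.comp cb.continuousOn fun _ o => o)
        (ContinuousOn.prodMk (f := fun z : (I × US m) × ((((E3 × E3) × ℂ) × V k E) × ℝ) × ℝ =>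
          (z.2.1.1.2, z.2.1.1.1.2)) (by fun_prop)
        (((h.cl.comp cb.continuousOn fun _ o => o).prodMk
          (g := fun z : (I × US m) × ((((E3 × E3) × ℂ) × V k E) × ℝ) × ℝ => -z.2.2)
          (by fun_prop)).prodMk
          (g := fun z : (I × US m) × ((((E3 × E3) × ℂ) × V k E) × ℝ) × ℝ => z.2.1.2)
          (by fun_prop)))) (fun _ _ o => o) (fun _ _ _ => rfl) fun K c => ?_
    obtain ⟨R, hR⟩ := (c.image (continuous_snd (X := X22) (Y := (V k E × ℂ) × R4))).isBounded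
      |>.exists_norm_le
    obtain ⟨S, s1, s2, s3⟩ := h.pr R
    let j : (I × E3 × E3) × US m × (V k E × ℂ) × ℝ × ℝ →
        (I × US m) × ((((E3 × E3) × ℂ) × V k E) × ℝ) × ℝ :=
      fun z => ((z.1.1, z.2.1), (((z.1.2, z.2.2.1.2), z.2.2.1.1), z.2.2.2.1), z.2.2.2.2)
    have cj : Continuous j := by fun_prop
    refine ⟨j '' S ×ˢ univ ×ˢ Metric.closedBall 0 R,
      (s1.prod (isCompact_univ.prod (isCompact_closedBall _ _))).image cj, ?_,
      fun (z : (I × US m) × ((((E3 × E3) × ℂ) × V k E) × ℝ) × ℝ) o i => ?_⟩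
    · rintro _ ⟨z, a, rfl⟩
      exact s2 a.1
    · have a := hR _ ⟨_, i, rfl⟩
      change ‖((z.2.1.1.2, z.2.1.1.1.2), ((l (b z), -z.2.2), z.2.1.2))‖ ≤ R at a
      simp only [Prod.norm_def, max_le_iff, norm_neg] at a
      refine ⟨(b z, z.1.2, (z.2.1.1.2, z.2.1.1.1.2), z.2.1.2, z.2.2),
        ⟨s3 _ o a.2.1.1.1 a.2.1.1.2, trivial, mem_closedBall_zero_iff.2 ?_⟩, rfl⟩
      simp only [Prod.norm_def, max_le_iff]
      exact ⟨a.1, a.2.2, a.2.1.2⟩
  refine ⟨S, rS, H.ht (fun y w => (Rg.cm hC rS y w).trans (congrArg _ ?_))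
    fun y w => congrArg (pt (L k m) (XN k E) y) (oc_out (U := b ⁻¹' U) (h.u1 _)).symm⟩
  change opx (fun x : US m × X22 × (V k E × ℂ) × R4 => OnePoint.some (r x.2.1, x.2.2))
    (y, oc (cU k E) (cE k E) w) = oc (b ⁻¹' U) f ((0, y), w)
  by_cases o : (show ((((E3 × E3) × ℂ) × V k E) × ℝ) × ℝ from w) ∈ cU k E
  · rw [oc_in o, oc_in (U := b ⁻¹' U) ((h.u0 _).2 o)]
    exact congrArg OnePoint.some (Prod.ext (h.x0 _).symm
      (Prod.ext rfl (Prod.ext (Prod.ext (h.l0 _).symm rfl) rfl)))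
  · rw [oc_out o, oc_out (U := b ⁻¹' U) fun a => o ((h.u0 _).1 a)]; rfl

end Nl

/-- **NUL** -/
theorem nul : NUL := by
  rintro k m E _ _ _ C x0 r hC (rfl | rfl)
  · exact Nl.key (Nl.nh1 x0) (by fun_prop) C hC
  · exact Nl.key (Nl.nh1 x0).swap (by fun_prop) C hC

end Crest.Agent.N218.D6.Lk

end
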