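import Crest.Agent.N218.D6.All
import Crest.Agent.N218.D6.Link1F
import Crest.Agent.N218.D6.Link2
import Crest.Agent.N218.D6.LkExq
import Crest.Agent.N218.D6.LkSur
import Crest.Agent.N218.D6.Nulh
import Crest.Agent.N218.D6.LkCm1
import Crest.Agent.N218.D6.LkCm2
import Crest.Agent.N218.D6.Kve
import Crest.Agent.N218.D6.Inst
import Crest.Agent.N218.D6.Algm

/-! D6 from `LOCA` alone. -/

namespace Crest.Agent.N218.D6

theorem link2' : LINK2 := Lk.link2 Lk.exq Lk.sur Lk.nul Lk.cm1 Lk.cm2

theorem d6t1 (h : LOCA) : D6T := fin h kve inst uni link1 link2' algm pres finb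

end Crest.Agent.N218.D6
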