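import Crest.Agent.N218.K.Cx1
import Crest.Agent.N218.K.Lam

/-!
# Row 218, block D6 (helper8): abstract localisation data (FROZEN definitions)
-/

set_option autoImplicit false
set_option linter.unusedVariables false

open unitInterval Topology Filter Set OnePoint

noncomputable section

namespace Crest.Agent.N218.D6

open K

variable {Γ Γ' : Type} [Group Γ] [TopologicalSpace Γ] [Group Γ'] [TopologicalSpace Γ']

/-- the unit circle of a character -/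
def Cr (χ : Γ →* Circle) (hχ : Continuous χ) : GS Γ where
  Z := Circle
  act g θ := χ g * θ
  one z := by rw [map_one, one_mul]
  mul g h z := by rw [map_mul, mul_assoc]
  cont := (hχ.comp continuous_fst).mul continuous_snd

open Classical in
/-- the phase -/
def an (ζ : ℂ) : Circle :=
  if h : ζ = 0 then 1 else ⟨ζ / ‖ζ‖, by simp [Submonoid.unitSphere, h]⟩
/-- the parameter: `0` on `ρ ≤ 5/4`, `1` on `3/2 ≤ ρ` -/
def tt (ρ : ℝ) : ℝ := max 0 (min 1 (4 * ρ - 5))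
/-- the bump: positive exactly on `1 < ρ < 2` -/
def bp (ρ : ℝ) : ℝ := max 0 ((ρ - 1) * (2 - ρ))
/-- the finite value -/
def vl {E : Type} [Zero E] (p : OnePoint E) : E := OnePoint.rec 0 id p

variable (Γ Γ') in
/-- localisation data: `γ` is the circle-level map, `μ` the map back, `k` the cycle -/
structure LD where
  φ : Γ' →* Γ
  hφ : Continuous φ
  χ : Γ →* Circle
  hχ : Continuous χ
  Y : GS Γ
  W0 : Rep Γ
  W1 : Rep Γ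
  Z0 : Rep Γ
  Z1 : Rep Γ
  U : Rep Γ
  γ : (Y.Z × Circle) × (W0.W × W1.W) → OnePoint (Z0.W × Z1.W)
  γ0 : (Y.Z × Circle) × W0.W → OnePoint Z0.W
  μ : Y.Z × (Z0.W × Z1.W) → W0.W × W1.W
  μ0 : Y.Z × Z0.W → W0.W
  k : Y.Z × (W1.W × Z1.W) → U.W
  Ym : GS Γ'
  i : C(Ym.Z, Y.Z)
  u : C(Ym.Z, U.W)

namespace LD
variable (d : LD Γ Γ')

/-- restriction of a representation -/
abbrev rs (V : Rep Γ) : Rep Γ' := V.res d.φ d.hφ
/-- the base at the level of the small group -/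
abbrev Y' : GS Γ' := d.Y.res d.φ d.hφ
/-- the base of `γ` -/
abbrev YC : GS Γ := d.Y.prod (Cr d.χ d.hχ)
abbrev W : Rep Γ := d.W0.prod d.W1
abbrev Z : Rep Γ := d.Z0.prod d.Z1
/-- the source -/
abbrev S : Rep Γ := d.W.prod d.Z
/-- the passive factor -/
abbrev R : Rep Γ := d.W.prod d.U
/-- the target -/
abbrev T : Rep Γ := d.Z.prod d.R
abbrev M1 : Rep Γ := d.W.prod d.R
abbrev M3 : Rep Γ := (d.W0.prod d.Z1).prod d.R

/-- outer gluing map -/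
def g1 (x : (d.Y.Z × Circle) × d.M1.W) : OnePoint d.T.W := wdg (d.γ (x.1, x.2.1), x.2.2)
/-- inner gluing map -/
def g3 (x : (d.Y.Z × Circle) × d.M3.W) : OnePoint d.T.W :=
  wdg (wdg (d.γ0 (x.1, x.2.1.1), x.2.1.2), x.2.2)
/-- outer disc -/
def b1 (x : d.Y.Z × (d.U.W × d.S.W)) : d.M1.W :=
  (x.2.2.1, (d.μ (x.1, x.2.2.2), d.k (x.1, (x.2.2.1.2, x.2.2.2.2)) - x.2.1))
/-- inner disc -/
def b3 (x : d.Y.Z × (d.U.W × d.S.W)) : d.M3.W :=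
  ((x.2.2.1.1, -x.2.2.2.2),
    ((d.μ0 (x.1, x.2.2.2.1), -x.2.2.1.2), d.k (x.1, (x.2.2.1.2, x.2.2.2.2)) - x.2.1))
/-- the cylinder -/
def hh (y : d.Y.Z) (θ : Circle) (t : ℝ) (η : d.U.W) (v : d.S.W) : OnePoint d.T.W :=
  wdg (OnePoint.map (fun e : d.Z0.W × d.Z1.W => e - (0, (1 - t) • v.2.2))
      (d.γ ((y, θ), (v.1.1, t • v.1.2))),
    OnePoint.some (X := d.R.W) (d.μ (y, (v.2.1, t • v.2.2)) - (0, (1 - t) • v.1.2),
      d.k (y, (v.1.2, v.2.2)) - η))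

/-- the source of the dual problem -/
abbrev SC : LS Γ' := (d.rs d.S).ls.prod (LS.triv Γ' ℂ)
/-- **the dual problem** -/
def Th : FP d.Ym d.SC (d.rs d.T) :=
  ⟨{x : d.Ym.Z × d.S.W × ℂ |
      x.2.2 ≠ 0 ∧ d.hh (d.i x.1) (an x.2.2) (tt ‖x.2.2‖) (‖x.2.2‖ • d.u x.1) x.2.1 ≠ ∞},
    fun x : d.Ym.Z × d.S.W × ℂ => vl (E := d.T.W)
      (d.hh (d.i x.1) (an x.2.2) (tt ‖x.2.2‖) (‖x.2.2‖ • d.u x.1) x.2.1)⟩
open Classical in
/-- the end of the push -/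
def F5 (x : d.Ym.Z × d.S.W × ℂ) : OnePoint d.T.W :=
  if bp ‖x.2.2‖ = 0 then ∞ else
    d.hh (d.i x.1) (an x.2.2) (tt ‖x.2.2‖) ((bp ‖x.2.2‖)⁻¹ • d.u x.1) x.2.1

variable [CompactSpace Γ] [CompactSpace Γ']

/-- the axioms -/
structure Ok : Prop where
  sj : Function.Surjective d.χ
  ker : ∀ g, d.χ g = 1 ↔ g ∈ d.φ.range
  pγ : Pm d.YC d.W.ls d.Z.ls d.γ
  pγ0 : Pm d.YC d.W0.ls d.Z0.ls d.γ0
  e0 : ∀ p w, d.γ (p, (w, 0)) = wdg (d.γ0 (p, w), ((0 : d.Z1.W) : OnePoint d.Z1.W))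
  pμ : Pm d.Y' (d.rs d.Z).ls (d.rs d.W).ls fun x => (d.μ x : OnePoint (d.W0.W × d.W1.W))
  pμ0 : Pm d.Y' (d.rs d.Z0).ls (d.rs d.W0).ls fun x => (d.μ0 x : OnePoint d.W0.W)
  m0 : ∀ y z, d.μ (y, (z, 0)) = (d.μ0 (y, z), 0)
  pk : Pm d.Y' (d.rs (d.W1.prod d.Z1)).ls (d.rs d.U).ls fun x => (d.k x : OnePoint d.U.W)
  k0 : ∀ y v, d.k (y, v) = 0 ↔ v = 0
  hi : Eqv d.φ d.i
  hu : ∀ g y, d.u (d.Ym.act g y) = d.U.ρ (d.φ g) (d.u y)
  u0 : ∀ y, d.u y ≠ 0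
  sm : ∀ y θ (ρ : ℝ) v, 1 ≤ ρ → d.hh (d.i y) θ 1 (ρ • d.u y) v ≠ ((0 : d.T.W) : OnePoint d.T.W)

/-- restriction to the small group -/
def π : C(d.Y'.Q, d.Y.Q) := GS.qmap _ _ (.id _) fun g _ => ⟨d.φ g, rfl⟩
/-- restriction to the small lens -/
def ρ (h : d.Ok) : C(d.Ym.Q, d.Y'.Q) :=
  GS.qmap d.Ym d.Y' d.i fun g y => ⟨g, (h.hi g y).symm⟩

/-- the round trip on the fixed part has unit degree -/
def Uni : Prop := ∀ F : H1 (Sb d.Y' (d.rs d.Z0).ls) (Sb d.Y' (d.rs d.Z0).ls),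
  Rg F (fun x => d.γ0 ((x.1, 1), d.μ0 x)) → ∀ l, (Sb _ _).Th l → (Sb _ _).Th (pull F.f l)
end LD

set_option hygiene false in
/-- quantify over localisation data -/
local macro "∀D " h:ident ", " t:term : term =>
  `(∀ {Γ Γ' : Type} [Group Γ] [TopologicalSpace Γ] [CompactSpace Γ] [Group Γ'] [TopologicalSpace Γ']
    [CompactSpace Γ'] (d : LD Γ Γ') ($h : d.Ok), $t)

/-- leaf PMS: the pieces are pointed proper equivariant families -/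
def PMS : Prop := ∀D h,
  Pm d.YC d.M1.ls d.T.ls d.g1 ∧ Pm d.YC d.M3.ls d.T.ls d.g3 ∧
  Pm d.Y' (d.rs (d.U.prod d.S)).ls (d.rs d.M1).ls (fun x => (d.b1 x : OnePoint d.M1.W)) ∧
  Pm d.Y' (d.rs (d.U.prod d.S)).ls (d.rs d.M3).ls (fun x => (d.b3 x : OnePoint d.M3.W)) ∧
  (∀ y θ η v, d.hh y θ 1 η v = d.g1 ((y, θ), d.b1 (y, (η, v)))) ∧
  (∀ y θ η v, d.hh y θ 0 η v = d.g3 ((y, θ), d.b3 (y, (η, v)))) ∧
  (∀ g y θ t η v, d.hh (d.Y.act (d.φ g) y) θ t (d.U.ρ (d.φ g) η) (d.S.ρ (d.φ g) v) =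
    d.T.ls.sph.act (d.φ g) (d.hh y θ t η v)) ∧
  ∀ (P : Type) [TopologicalSpace P] [CompactSpace P] (y : C(P, d.Y.Z)) (θ : C(P, Circle))
    (t : C(P, ℝ)) (η : C(P, d.U.W)),
    Continuous (fun x : P × d.S.W => d.hh (y x.1) (θ x.1) (t x.1) (η x.1) x.2) ∧
      Prp fun x : P × d.S.W => d.hh (y x.1) (θ x.1) (t x.1) (η x.1) x.2

/-- leaf PUSH: the end of the push represents the dual problem -/
def PUSH : Prop := ∀D h, Pm d.Ym d.SC (d.rs d.T).ls d.F5 ∧ d.Th.Ok ∧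
  ∀ F, Rg F d.F5 → d.Th.hm.Ht F

/-- **LOCA**: abstract localisation -/
def LOCA : Prop := ∀D h, d.Uni → Function.Surjective (pull d.π) →
  ∀ lW0 lW1 lZ0 lZ1 lU lq, UT d.Y d.W0.ls lW0 → UT d.Y d.W1.ls lW1 → UT d.Y d.Z0.ls lZ0 →
    UT d.Y d.Z1.ls lZ1 → UT d.Y d.U.ls lU → UT d.Y (ch d.χ d.hχ) lq →
    ∃ (x κ κ0 : KX d.Y.Q) (κw a : KX d.Y'.Q), IsUnit (pull d.π κ) ∧ IsUnit κw ∧
      x * pull (z0 d.Y (Rep.ch d.χ d.hχ)) lq =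
        κ * pull (z0 d.Y d.Z1) lZ1 - κ0 * pull (z0 d.Y d.W1) lW1 ∧
      pull d.π (pull (z0 d.Y d.Z1) lZ1) * pull d.π (pull (z0 d.Y d.W1) lW1) * a =
        pull d.π (pull (z0 d.Y d.U) lU) * pull d.π x * κw * pull d.π (pull (z0 d.Y d.W1) lW1) ∧
      d.Th.Ok ∧ ∃ lT lS, UT d.Ym (d.rs d.T).ls lT ∧ UT d.Ym d.SC lS ∧
        d.Th.pb lT = (Sb _ _).sm (pull (d.ρ h) a) lS

end Crest.Agent.N218.D6

end
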