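import Crest.Agent.N218.D6.Defs
import Crest.Agent.N218.K.Lens
import Crest.Agent.N218.In.Emb
import Crest.Agent.N218.Sk.Sat
import Crest.Agent.N218.Al.D6

/-!
# Row 218, block D6 (helper8): the concrete localisation data and the leaves (FROZEN)
-/

set_option autoImplicit false
set_option linter.unusedVariables false

open unitInterval Topology Filter Set OnePoint Polynomial
open scoped InnerProductSpace ComplexConjugate

noncomputable section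

namespace Crest.Agent.N218.D6

open K K.Cp Pm In
open Sk (Cn S2 S3 X22 hfv Frm Wt Pcd Sat Val half)

/-- the big group `T × T²` -/
abbrev GT : Type := Circle × Circle × Circle
/-- the small group `G × T²` -/
abbrev GG (k : ℕ) : Type := Gk k × Circle × Circle
def c1 : GT →* Circle := MonoidHom.fst _ _
def ca : GT →* Circle := (MonoidHom.fst _ _).comp (MonoidHom.snd _ _)
def cb : GT →* Circle := (MonoidHom.snd _ _).comp (MonoidHom.snd _ _)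
theorem c1_ct : Continuous c1 := continuous_fst
theorem ca_ct : Continuous ca := continuous_snd.fst
theorem cb_ct : Continuous cb := continuous_snd.snd
def ph (k : ℕ) : GG k →* GT := (ck k).prodMap (MonoidHom.id _)
theorem ph_ct (k : ℕ) : Continuous (ph k) := (cc (ck k)).prodMap continuous_id
def pg (k : ℕ) : GG k →* Gk k := MonoidHom.fst _ _
theorem pg_ct (k : ℕ) : Continuous (pg k) := continuous_fst
/-- the weights -/
def wc (j : ℕ) (a a' : ℤ) : GT →* Circle := c1 ^ j * (ca ^ (-a) * cb ^ (-a'))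
theorem wc_ct (j : ℕ) (a a' : ℤ) : Continuous (wc j a a') :=
  (c1_ct.pow j).mul ((ca_ct.zpow _).mul (cb_ct.zpow _))

/-- `S³` -/
abbrev Ya : GS GT := Sp ca ca_ct 2
/-- `S³ × S³` -/
abbrev Y0 : GS GT := YS Ya cb cb_ct 2
/-- `S³ × S³ × S(ℂ^M)` -/
abbrev YT (M : ℕ) : GS GT := YS Y0 c1 c1_ct M
/-- the same for the small group -/
abbrev YG (k m : ℕ) : GS (GG k) := YL Y0 c1 c1_ct (ph k) (ph_ct k) m
theorem YT_res (k m : ℕ) : (YT m).res (ph k) (ph_ct k) = YG k m := rfl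

/-- even and odd frequencies -/
abbrev Ev (k : ℕ) : Type := {j : Ix k // Even j.val}
abbrev Od (k : ℕ) : Type := {j : Ix k // Odd j.val}
variable (k : ℕ) {n : ℕ}
abbrev WE (a a' : Fin n → ℤ) : Rep GT :=
  Rep.wt (fun p : Ev k × Fin n => wc p.1.1.val (a p.2) (a' p.2)) fun _ => wc_ct _ _ _
abbrev WO (a a' : Fin n → ℤ) : Rep GT :=
  Rep.wt (fun p : Od k × Fin n => wc p.1.1.val (a p.2) (a' p.2)) fun _ => wc_ct _ _ _

variable {k}
/-- Fourier coordinates -/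
def fo (y : V k (Fin n → ℂ)) : (Ev k × Fin n → ℂ) × (Od k × Fin n → ℂ) :=
  (fun p => Fo.co _ _ y (p.1.1, p.2), fun p => Fo.co _ _ y (p.1.1, p.2))
/-- the inverse -/
def fi (c : (Ev k × Fin n → ℂ) × (Od k × Fin n → ℂ)) : V k (Fin n → ℂ) :=
  (Fo.co _ _).symm fun p => if h : Even p.1.val then c.1 (⟨p.1, h⟩, p.2)
    else c.2 (⟨p.1, Nat.not_even_iff_odd.1 h⟩, p.2)

theorem us_sq (u : US 2) : ‖u.1 0‖ ^ 2 + ‖u.1 1‖ ^ 2 = 1 := by
  have := u.2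
  rw [Un1, Fin.sum_univ_two, conj_mul_self, conj_mul_self] at this
  exact_mod_cast this
/-- unit vectors as points of `S³` -/
def s3 (u : US 2) : S3 := ⟨WithLp.toLp 2 u.1, by
  rw [mem_sphere_zero_iff_norm, EuclideanSpace.norm_eq, Fin.sum_univ_two]
  simp [us_sq u]⟩
/-- the Hopf map -/
def hp (u : US 2) : S2 := ⟨hfv (s3 u), by
  have h := us_sq u
  rw [mem_sphere_zero_iff_norm, EuclideanSpace.norm_eq, Fin.sum_univ_three, Real.sqrt_eq_one]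
  simp only [Complex.sq_norm, Complex.normSq_apply] at h
  simp [hfv, s3, Complex.sq_norm, Complex.normSq_apply, mul_pow]
  linear_combination ((u.1 0).re * (u.1 0).re + (u.1 0).im * (u.1 0).im +
    ((u.1 1).re * (u.1 1).re + (u.1 1).im * (u.1 1).im) + 1) * h⟩
def ys (y : US 2 × US 2) : S3 × S3 := (s3 y.1, s3 y.2)
def hx (y : US 2 × US 2) : X22 := (hp y.1, hp y.2)

section fr
variable {E : Type} [NormedAddCommGroup E] [InnerProductSpace ℂ E]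
/-- from frame coordinates -/
def up (s : Fin n → S3 × S3 → E) (y : US 2 × US 2) (c : V k (Fin n → ℂ)) : V k E :=
  fun i => ∑ j, c i j • s j (ys y)
/-- to frame coordinates -/
def dn (s : Fin n → S3 × S3 → E) (y : US 2 × US 2) (e : V k E) : V k (Fin n → ℂ) :=
  fun i j => ⟪s j (ys y), e i⟫_ℂ
end fr

/-- padding with zeros -/
def pad (m p : ℕ) : C(US m, US (m + p)) :=
  ⟨fun u => ⟨Fin.append u.1 0, by
    have := u.2
    simpa [Un1, Fin.sum_univ_add] using this⟩,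
    Continuous.subtype_mk (continuous_pi fun i => by
      refine Fin.addCases (fun i => ?_) (fun i => ?_) i
      · simp only [Fin.append_left]; exact (continuous_apply i).comp continuous_subtype_val
      · simp only [Fin.append_right]; exact continuous_const) _⟩
/-- the angle as a real number -/
def rt (θ : Circle) : ℝ := (θ : ℂ).arg / (2 * Real.pi)

section ld
variable {n₁ n₂ : ℕ} (D : Data X22 (Cn n₁) (Cn n₂)) (k)
  (s₁ : Fin n → S3 × S3 → Cn n₁) (s₂ : Fin n → S3 × S3 → Cn n₂)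

open Classical in
/-- `g_r N v g_(-r)` in coordinates -/
def gm (y : US 2 × US 2) (θ : Circle) (c : (Ev k × Fin n → ℂ) × (Od k × Fin n → ℂ)) :
    OnePoint ((Ev k × Fin n → ℂ) × (Od k × Fin n → ℂ)) :=
  if ∀ i, (hx y, Fo.g (-rt θ) (up s₁ y (fi c)) i) ∈ D.Ov then
    OnePoint.some (fo (dn s₂ y (Fo.g (rt θ) fun i => D.v (hx y, Fo.g (-rt θ) (up s₁ y (fi c)) i))))
  else ∞
/-- `N u` in coordinates -/
def mm (y : US 2 × US 2) (c : (Ev k × Fin n → ℂ) × (Od k × Fin n → ℂ)) :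
    (Ev k × Fin n → ℂ) × (Od k × Fin n → ℂ) :=
  fo (dn s₁ y fun i => D.u (hx y, up s₂ y (fi c) i))

/-- cycles for the orbit loop -/
structure KV {m : ℕ} (kV : V k (Cn n₁ × Cn n₂) → Fin m → ℂ) : Prop where
  ct : Continuous kV
  eq : ∀ (g : Gk k) v, kV (fun i => v (i + g.toAdd)) = fun j => (ck k g : ℂ) * kV v j
  od : ∀ v, kV (mn v) = kV v
  pr : ∀ R : ℝ, ∃ R' : ℝ, ∀ v, ‖kV v‖ ≤ R → ‖mn v‖ ≤ R'
  z : ∀ v, kV v = 0 ↔ mn v = 0
  sm : ∀ x ∈ (D.Orb k).O, (D.Orb k).P x = 0 → ∀ (u : US m) (ρ : ℝ), 1 ≤ ρ → kV x.2 ≠ ρ • u.1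

/-- **the localisation data of the orbit loop** -/
def ld (a a' b b' : Fin n → ℤ) {m : ℕ} (p : ℕ) (kV : V k (Cn n₁ × Cn n₂) → Fin m → ℂ) :
    LD GT (GG k) where
  φ := ph k
  hφ := ph_ct k
  χ := c1 ^ 2 ^ (k + 1)
  hχ := c1_ct.pow _
  Y := YT (m + p)
  W0 := WE k a a'
  W1 := WO k a a'
  Z0 := WE k b b'
  Z1 := WO k b b'
  U := UU c1 c1_ct m
  γ x := gm k D s₁ s₂ x.1.1.1 x.1.2 x.2
  γ0 x := OnePoint.map Prod.fst (gm k D s₁ s₂ x.1.1.1 x.1.2 (x.2, 0))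
  μ x := mm k D s₁ s₂ x.1.1 x.2
  μ0 x := (mm k D s₁ s₂ x.1.1 (x.2, 0)).1
  k x := kV (pr (up s₁ x.1.1 (fi (0, x.2.1))) (up s₂ x.1.1 (fi (0, x.2.2))))
  Ym := YG k m
  i := ⟨fun y : (US 2 × US 2) × US m => (y.1, pad m p y.2), by fun_prop⟩
  u := ⟨fun y : (US 2 × US 2) × US m => y.2.1, by fun_prop⟩
end ld

section thv
variable (k) (m : ℕ) (E : Type) [NormedAddCommGroup E] [NormedSpace ℝ E] [FiniteDimensional ℝ E]
/-- the regular representation of the small group -/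
abbrev VV : Rep (GG k) := (Rr k E).res (pg k) (pg_ct k)
/-- source and target -/
abbrev VS : LS (GG k) := (VV k E).ls.prod (LS.triv _ ℂ)
abbrev VT : Rep (GG k) := (VV k E).prod ((UU (ck k) (cc _) m).res (pg k) (pg_ct k))
/-- projection to the lens space -/
def pj : C((YG k m).Q, (Sp (ck k) (cc _) m).Q) :=
  GS.qmap _ _ ⟨fun y : (US 2 × US 2) × US m => y.2, continuous_snd⟩ fun g _ => ⟨g.1, rfl⟩
variable {k m E}
/-- the dual problem of a loop of problems over `S² × S²` -/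
def ThV (P : Pb (X22 × UnitAddCircle) k E) (kV : V k E → Fin m → ℂ) :
    FP (YG k m) (VS k E) (VT k m E) :=
  ⟨{x : ((US 2 × US 2) × US m) × V k E × ℂ | x.2.2 ≠ 0 ∧ ((hx x.1.1, ang x.2.2), x.2.1) ∈ P.O},
    fun x : ((US 2 × US 2) × US m) × V k E × ℂ =>
      (P.h ((hx x.1.1, ang x.2.2), x.2.1), kV x.2.1 - ‖x.2.2‖ • x.1.2.1)⟩
end thv

set_option hygiene false in
/-- quantify over saturated framed data -/
local macro "∀F " t:term : term =>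
  `(∀ (k n n₁ n₂ : ℕ) (D : Data X22 (Cn n₁) (Cn n₂)) (c κ R₀ M : ℝ) (a a' b b' : Fin n → ℤ)
    (s₁ : Fin n → S3 × S3 → Cn n₁) (s₂ : Fin n → S3 × S3 → Cn n₂), 16 ≤ k → D.Ok c κ R₀ M →
    Sat D → Frm D.π₁ a a' s₁ → Frm D.π₂ b b' s₂ → $t)

/-- leaf KVE: `kV v = ε (coordinates of the odd Fourier coefficients) ^ (j⁻¹ mod q)`, padded -/
def KVE : Prop := ∀F ∃ (m : ℕ) (kV : V k (Cn n₁ × Cn n₂) → Fin m → ℂ), 7 ≤ m ∧ KV k D kV
/-- leaf INST -/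
def INST : Prop := ∀F ∀ (m p : ℕ) (kV : V k (Cn n₁ × Cn n₂) → Fin m → ℂ), KV k D kV →
  (ld k D s₁ s₂ a a' b b' p kV).Ok
/-- leaf UNI -/
def UNI : Prop := ∀F ∀ (m p : ℕ) (kV : V k (Cn n₁ × Cn n₂) → Fin m → ℂ),
  (ld k D s₁ s₂ a a' b b' p kV).Ok → (ld k D s₁ s₂ a a' b b' p kV).Uni
/-- leaf LINK1: from coordinates to the orbit loop -/
def LINK1 : Prop := ∀F ∀ (m p : ℕ) (kV : V k (Cn n₁ × Cn n₂) → Fin m → ℂ), KV k D kV →
  (ld k D s₁ s₂ a a' b b' p kV).Ok → (ld k D s₁ s₂ a a' b b' p kV).Th.Ok →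
  ∀ δ : ℝ, 0 < δ → ((D.Orb k).F (tau δ)).Ok → ∀ lT lS (e : KX (YG k m).Q),
    UT _ ((ld k D s₁ s₂ a a' b b' p kV).rs (ld k D s₁ s₂ a a' b b' p kV).T).ls lT →
    UT _ (ld k D s₁ s₂ a a' b b' p kV).SC lS →
    (ld k D s₁ s₂ a a' b b' p kV).Th.pb lT = (Sb _ _).sm e lS →
    ∃ lT' lS' υ, (Sb _ _).Th lT' ∧ (Sb _ _).Th lS' ∧ IsUnit υ ∧
      (ThV ((D.Orb k).F (tau δ)) kV).pb lT' = (Sb (YG k m) _).sm (υ * e) lS'

/-- leaf LINK2: the push-forward along `S² × S² × ℝ⁴ ⊆ ℝ⁸` -/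
def LINK2 : Prop := ∀ (k m : ℕ) (E : Type) [NormedAddCommGroup E] [NormedSpace ℝ E]
  [FiniteDimensional ℝ E], 16 ≤ k → Cx (Rr k E).ls →
  ∀ (lT : KS (YG k m) (VT k m E).ls) (lS : KS (YG k m) (VS k E)), (Sb _ _).Th lT → (Sb _ _).Th lS →
  ∃ (Λ : KX (YG k m).Q →+ KX (Sp (ck k) (cc _) m).Q) (υ : KX (YG k m).Q) (lT' : _) (lS' : _),
    IsUnit υ ∧ (∀ a y, Λ (pull (pj k m) a * y) = a * Λ y) ∧
    IsUnit (Λ ((Lc (YG k m) (ca.comp (ph k)) - 1) * (Lc (YG k m) (cb.comp (ph k)) - 1))) ∧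
    (Sb _ _).Th lT' ∧ (Sb _ _).Th lS' ∧
    ∀ (P : Pb (X22 × UnitAddCircle) k E) (kV : V k E → Fin m → ℂ) (e : KX (YG k m).Q), P.Ok →
      Continuous kV → (∀ (g : Gk k) v, kV (fun i => v (i + g.toAdd)) = fun j => (ck k g : ℂ) * kV v j) →
      (∀ x ∈ P.O, kV x.2 ≠ 0) → (ThV P kV).pb lT = (Sb _ _).sm e lS →
      Dg (ck k) (cc _) m ((e22.circ.pb P).st (Rep.triv _ ℝ)) lT' ((Sb _ _).sm (Λ (υ * e)) lS')

/-- leaf ALGM: `Al.d6` with `7` replaced by `m` -/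
def ALGM : Prop := ∀ {R₁ R A B C C₀ ι J : Type} [CommRing R₁] [CommRing R] [CommRing A] [CommRing B]
  [CommRing C] [CommRing C₀] [Fintype ι] [Fintype J] {q M m : ℕ} {k : ι → ℕ} {a a' b b' : J → ℤ}
  {l₁ : R₁} {i : R₁ →+* R} {l₂ : R} {iA : R →+* A} {l : A} {π : A →+* B} {ρ : B →+* C} {l₀ : C₀}
  {j : C₀ →+* C} {n : ℤ} {x κ κ0 : A} {κw d : B} {υ : C} (Λ : C →+ C₀) (a₇ w : ℤ[X]),
  Al.Pz (Int.castRingHom R₁) l₁ 2 0 → Al.Pz i l₂ 2 0 → (1 - l₁) ^ 2 = 0 → (1 - l₂) ^ 2 = 0 →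
  Al.Pz iA l M 0 → Al.Pz (π.comp iA) (π l) M q → Al.Pz (ρ.comp (π.comp iA)) (ρ (π l)) m q →
  Al.Pz (Int.castRingHom C₀) l₀ m q → j l₀ = ρ (π l) → Al.Odq q k → q ≠ 0 → 256 ∣ q →
  ∑ j, a j = ∑ j, b j → ∑ j, a' j = ∑ j, b' j →
  ∑ j, b j * b' j - ∑ j, a j * a' j = 8 * (2 * n + 1) → 7 ≤ m →
  2 * (Fintype.card ι * Fintype.card J) + m + 3 ≤ M → IsUnit (π κ) → IsUnit κw →
  x * (1 - l ^ q) = κ * Al.eu l (iA (i l₁ - 1)) (iA (l₂ - 1)) k a a' -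
    κ0 * Al.eu l (iA (i l₁ - 1)) (iA (l₂ - 1)) k b b' →
  π (Al.eu l (iA (i l₁ - 1)) (iA (l₂ - 1)) k a a') * π (Al.eu l (iA (i l₁ - 1)) (iA (l₂ - 1)) k b b') *
    d = (1 - π l) ^ m * π x * κw * π (Al.eu l (iA (i l₁ - 1)) (iA (l₂ - 1)) k b b') →
  IsUnit υ → (∀ a y, Λ (j a * y) = a * Λ y) →
  IsUnit (Λ (ρ (π (iA (i l₁ - 1))) * ρ (π (iA (l₂ - 1))))) → IsUnit (aeval l₀ w) →
  Λ (υ * ρ d) = aeval l₀ ((1 - X) ^ (m - 7) * a₇ * w) →
  Al.ph (Al.r ^ 7 * iS a₇) - 1 / 2 ∈ Al.O2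

/-- leaf PRES: presentations -/
def PRES : Prop := Al.Pz (Int.castRingHom _) (Lc Ya ca) 2 0 ∧ (1 - Lc Ya ca) ^ 2 = 0 ∧
  Al.Pz (pull (piB Ya cb cb_ct 2)) (Lc Y0 cb) 2 0 ∧ (1 - Lc Y0 cb) ^ 2 = 0 ∧
  (∀ M, Al.Pz (pull (piB Y0 c1 c1_ct M)) (Lc (YT M) c1) M 0) ∧
  ∀ k m, Al.Pz (pull (piL Y0 c1 c1_ct (ph k) (ph_ct k) m)) (Lc (YG k m) (c1.comp (ph k))) m
    (2 ^ (k + 1))

/-- the specification of the `d`-invariant (`INVD = ∃ J, SpD J`) -/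
def SpD (J : AI 5) : Prop :=
  ∀ {Γ : Type} [Group Γ] [Fintype Γ] [TopologicalSpace Γ] [DiscreteTopology Γ]
    (χ : Γ →* Circle), ∀ X V : Rep Γ, Gq χ → Adm 5 X V → Cx V.ls →
  ∀ o : OD χ (cc χ) X.ls V, ∃ s : ℤˣ, ∀ P φ, DV χ (cc χ) o P φ → J.ν χ X V P = s • φ

theorem invd_iff : INVD ↔ ∃ J, SpD J := Iff.rfl

/-- leaf FINB: from the level `m` to the level `7` -/
def FINB : Prop := ∀ (J : AI 5), SpD J → ∀ (k m : ℕ) (X V : Rep (Gk k)) (P : PB X.ls V) lT lS c,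
  16 ≤ k → 7 ≤ m → Adm 5 X V → Cx (V.prod (Rep.triv _ ℝ)).ls → P.Fr →
  (Sb _ _).Th lT → (Sb _ _).Th lS →
  Dg (ck k) (cc _) m (P.st (Rep.triv _ ℝ)) lT ((Sb _ _).sm c lS) →
  (∀ a₇ w : ℤ[X], IsUnit (ev (ck k) (cc _) m w) →
    c = ev (ck k) (cc _) m ((1 - Polynomial.X) ^ (m - 7) * a₇ * w) →
    Al.ph (Al.r ^ 7 * iS a₇) - 1 / 2 ∈ Al.O2) → J.ν (ck k) X V P = half

/-- **block D6** -/
def D6T : Prop := ∀ (g : GEN) (p : PAN) (s : CST) (J : AI 5), SpD J →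
  Val (i22 g p s J) 21 (fun D => Pcd D ∧ Sat D) half

/-- leaf FIN: the glue -/
def FIN : Prop := LOCA → KVE → INST → UNI → LINK1 → LINK2 → ALGM → PRES → FINB → D6T

end Crest.Agent.N218.D6

end
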