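import Crest.Agent.N218.D3.Defs
import Crest.Agent.N218.K.Inv
import Crest.Agent.N218.K.Cx
import Crest.Agent.N218.K.Kln
import Crest.Agent.N218.K.Denl
import Crest.Agent.N218.Th.Fin

/-! # Row 218, block D6 (helper59): from a big `U = m L` down to `7 L` -/

set_option autoImplicit false
set_option linter.unusedVariables false
set_option maxHeartbeats 400000

open Set Module Polynomial

noncomputable section

namespace Crest.Agent.N218.D6.Fn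
open K

variable {Γ : Type} [Group Γ] [Fintype Γ] [TopologicalSpace Γ] [DiscreteTopology Γ]
  {χ : Γ →* Circle} {X V : Rep Γ}

/-- iterated enlargement -/
theorem enl (g : Function.Injective χ) (hX : Cx X.ls.xr) (hV : Cx V.ls) {r : ℕ} (hr : 0 < r)
    {lS lT} (tS : (Sb (Sp χ (cc χ) r) X.ls.xr).Th lS)
    (tT : (Sb (Sp χ (cc χ) r) (TT χ (cc χ) r V)).Th lT) (n : ℕ) :
    ∀ lS' lT', (Sb (Sp χ (cc χ) (r + n + 1)) X.ls.xr).Th lS' →
      (Sb (Sp χ (cc χ) (r + n + 1)) (TT χ (cc χ) (r + n + 1) V)).Th lT' →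
      ∃ u : ℤ[X], IsUnit (ev χ (cc χ) (r + n + 1) u) ∧ ∀ (P : PB X.ls V) (a : ℤ[X]),
        Dg χ (cc χ) r P lT ((Sb _ _).sm (ev χ (cc χ) r a) lS) →
        Dg χ (cc χ) (r + n + 1) P lT' ((Sb _ _).sm
          (ev χ (cc χ) (r + n + 1) ((1 - Polynomial.X) ^ (n + 1) * a * u)) lS') := by
  induction n with
  | zero =>
    intro lS' lT' a b
    simpa using denl Th.thom kln χ r X V g hr hX hV _ _ _ _ tS tT a b
  | succ n ih =>
    intro lS' lT' a b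
    obtain ⟨_, c⟩ := hX.ut Th.thom (En.gd g (r + n + 1))
    obtain ⟨_, d⟩ := (cx_tt χ (cc χ) (r + n + 1) hV).ut Th.thom (En.gd g (r + n + 1))
    obtain ⟨u, i, h⟩ := ih _ _ c.th d.th
    obtain ⟨u', i', h'⟩ := denl Th.thom kln χ (r + n + 1) X V g (by omega) hX hV _ _ _ _
      c.th d.th a b
    refine ⟨u * u', by rw [map_mul]; exact (En.unit_up kln g (by omega) i).mul i', fun P p k => ?_⟩
    have := h' P _ (h P p k)
    rwa [show (1 - Polynomial.X) * ((1 - Polynomial.X) ^ (n + 1) * p * u) * u' =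
      (1 - Polynomial.X) ^ (n + 1 + 1) * p * (u * u') by ring] at this

/-- **the value from a big cycle** -/
theorem down {J : AI 5} (hJ : D3.SD5 J) (g : Gq χ) (a : Adm 5 X V) (c : Cx V.ls) (n : ℕ)
    {lS lT} (tS : (Sb (Sp χ (cc χ) (7 + n + 1)) X.ls.xr).Th lS)
    (tT : (Sb (Sp χ (cc χ) (7 + n + 1)) (TT χ (cc χ) (7 + n + 1) V)).Th lT) {P : PB X.ls V}
    {d : KX (Sp χ (cc χ) (7 + n + 1)).Q} (h : Dg χ (cc χ) (7 + n + 1) P lT ((Sb _ _).sm d lS)) :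
    ∃ (b u : ℤ[X]) (s : ℤˣ), IsUnit (ev χ (cc χ) (7 + n + 1) u) ∧
      d = ev χ (cc χ) (7 + n + 1) ((1 - Polynomial.X) ^ (n + 1) * b * u) ∧
      J.ν χ X V P = s • ((Al.ph (Al.r ^ 7 * iS b) : ℚ) : QQ) := by
  have hX : Cx X.ls.xr := Adm.cx_odd (m := 2) a c
  obtain ⟨o⟩ := ((oex Th.thom χ X V g c).2 a).1
  obtain ⟨s, hs⟩ := hJ χ X V g a c o
  have dm := Iv.dim a (by norm_num)
  obtain ⟨F, f⟩ := Iv.cl (χ := χ) (Nat.lt_of_succ_lt dm) h.choose_spec.1.fr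
  obtain ⟨e, k⟩ := o.tS.ex (o.tT.1.hm F)
  obtain ⟨b, rfl⟩ := (kln χ 7 g.inj (by norm_num)).1 e
  obtain ⟨u, i, w⟩ := enl g.inj hX c (by norm_num) o.tS o.tT n _ _ tS tT
  refine ⟨b, u, s, i, ?_, hs P _ ⟨b, ⟨F, f, k⟩, rfl⟩⟩
  rw [← Ex.one_sm _ lT] at h
  have := Iv.dg_un (by omega) (w P b ⟨F, f, k⟩) h
  rw [Ex.one_sm] at this
  exact tS.inj this

end Crest.Agent.N218.D6.Fn

end
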