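import Crest.Agent.N218.D6.Kig

/-!
# Row 218, block D6 (helper34): the circle-level maps are pointed, proper and equivariant
-/

set_option autoImplicit false
set_option linter.unusedVariables false

open Topology Filter Set OnePoint

noncomputable section

namespace Crest.Agent.N218.D6.I1

open K K.Cp Pm In
open Sk (Cn S2 S3 X22 hfv Frm Sat)

/-- `a ↦ (a, 0)` on the one-point compactifications is an embedding -/
theorem emb0 {A B : Type} [NormedAddCommGroup A] [NormedAddCommGroup B] [LocallyCompactSpace A]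
    [LocallyCompactSpace B] : IsClosedEmbedding fun a : OnePoint A => wdg (a, ((0 : B) : OnePoint B)) :=
  (continuous_wdg.comp (continuous_id.prodMk continuous_const)).isClosedEmbedding fun a a' e => by
    induction a using OnePoint.rec <;> induction a' using OnePoint.rec <;> simp_all

variable {k n n₁ n₂ : ℕ} {D : Data X22 (Cn n₁) (Cn n₂)} {c κ R₀ M : ℝ} {a a' b b' : Fin n → ℤ}
  {s₁ : Fin n → S3 × S3 → Cn n₁} {s₂ : Fin n → S3 × S3 → Cn n₂} {m : ℕ} (p : ℕ)
  {kV : V k (Cn n₁ × Cn n₂) → Fin m → ℂ}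

theorem gm0 (y : US 2 × US 2) (θ : Circle) (w : Ev k × Fin n → ℂ) :
    gm k D s₁ s₂ y θ (w, 0) = wdg (OnePoint.map Prod.fst (gm k D s₁ s₂ y θ (w, 0)),
      ((0 : Od k × Fin n → ℂ) : OnePoint (Od k × Fin n → ℂ))) := by
  rw [gm_eq]
  by_cases o : Og k D s₁ (rt θ) y (w, 0)
  · rw [gmr_in o]
    exact congrArg OnePoint.some (Prod.ext rfl (fg_snd w))
  · rw [gmr_out o]; rfl

theorem e0 (x : (ld k D s₁ s₂ a a' b b' p kV).Y.Z × Circle) (w : (ld k D s₁ s₂ a a' b b' p kV).W0.W) :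
    (ld k D s₁ s₂ a a' b b' p kV).γ (x, (w, 0)) = wdg ((ld k D s₁ s₂ a a' b b' p kV).γ0 (x, w),
      ((0 : (ld k D s₁ s₂ a a' b b' p kV).Z1.W) : OnePoint (ld k D s₁ s₂ a a' b b' p kV).Z1.W)) :=
  gm0 x.1.1 x.2 w

theorem map_sph {Γ : Type} [Group Γ] [TopologicalSpace Γ] [CompactSpace Γ] (L : LS Γ) (g : Γ)
    (z : OnePoint L.Z) : OnePoint.map (L.act g) z = L.sph.act g z := by
  induction z using OnePoint.rec <;> rfl

variable (o : D.Ok c κ R₀ M) (h₁ : Frm D.π₁ a a' s₁) (h₂ : Frm D.π₂ b b' s₂)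
include o h₁ h₂

theorem pγ : let d := ld k D s₁ s₂ a a' b b' p kV
    Pm d.YC d.W.ls d.Z.ls d.γ := by
  intro d
  obtain ⟨R, hR⟩ := Og_bd (k := k) h₁ o
  refine ⟨?_, fun K' _ => ⟨(Metric.closedBall 0 R : Set (CC k n)),
    isCompact_closedBall (0 : CC k n) R,
    fun x w w' nw e _ => nw ((mem_closedBall_zero_iff (E := CC k n)).2 (hR _ _ _ (gmr_some
      ((gm_eq x.2).symm.trans e)).1))⟩, fun g x w => ?_⟩
  · exact ct_gm (T := (((US 2 × US 2) × US (m + p)) × Circle) × CC k n) h₁ h₂ o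
      continuous_fst.snd continuous_fst.fst.fst continuous_snd
  · exact (gm_ay (y := x.1.1) (c := w) h₁ h₂ g x.2).trans (map_sph d.Z.ls g _)

theorem pγ0 : let d := ld k D s₁ s₂ a a' b b' p kV
    Pm d.YC d.W0.ls d.Z0.ls d.γ0 := by
  intro d
  obtain ⟨R, hR⟩ := Og_bd (k := k) h₁ o
  refine ⟨?_, fun K' _ => ⟨(Metric.closedBall 0 R : Set (Ev k × Fin n → ℂ)),
    isCompact_closedBall (0 : Ev k × Fin n → ℂ) R,
    fun x w w' nw e _ => nw ((mem_closedBall_zero_iff (E := Ev k × Fin n → ℂ)).2 ?_)⟩, fun g x w => ?_⟩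
  · refine (emb0 (A := Ev k × Fin n → ℂ) (B := Od k × Fin n → ℂ)).isInducing.continuous_iff.2 ?_
    exact (ct_gm (T := (((US 2 × US 2) × US (m + p)) × Circle) × (Ev k × Fin n → ℂ)) h₁ h₂ o
      continuous_fst.snd continuous_fst.fst.fst (continuous_snd.prodMk continuous_const)).congr
      fun x => gm0 x.1.1.1 x.1.2 x.2
  · have q : Og k D s₁ (rt x.2) x.1.1 (w, 0) := gmr_ne.1 fun i =>
      infty_ne_coe _ ((congrArg (OnePoint.map Prod.fst) ((gm_eq x.2).trans i)).symm.trans e)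
    exact (norm_fst_le ((w, 0) : CC k n)).trans (hR _ _ _ q)
  · have := gm_ay (y := x.1.1) (c := ((w, 0) : CC k n)) h₁ h₂ g x.2
    rw [aw_inl] at this
    refine (congrArg (OnePoint.map Prod.fst) this).trans ?_
    change _ = d.Z0.ls.sph.act g (OnePoint.map Prod.fst (gm k D s₁ s₂ x.1.1 x.2 (w, 0)))
    induction gm k D s₁ s₂ x.1.1 x.2 (w, 0) using OnePoint.rec <;> rfl

end Crest.Agent.N218.D6.I1

end
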