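import Crest.Agent.N218.D6.Kit
import Crest.Agent.N218.D6.Uk

/-!
# Row 218, block D6 (helper34): the circle-level map `gm` with a real angle
-/

set_option autoImplicit false
set_option linter.unusedVariables false

open Topology Filter Set OnePoint
open scoped InnerProductSpace ComplexConjugate

noncomputable section

namespace Crest.Agent.N218.D6

open K K.Cp Pm In
open Sk (Cn S2 S3 X22 hfv Frm Sat)

/-! ## angles -/

/-- the exponential with period one -/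
def ex (r : ℝ) : Circle := Circle.exp (2 * Real.pi * r)
theorem ex_add (r s : ℝ) : ex (r + s) = ex r * ex s := by rw [ex, mul_add, Circle.exp_add]; rfl
theorem ex_zero : ex 0 = 1 := by rw [ex, mul_zero, Circle.exp_zero]
theorem ex_rt (θ : Circle) : ex (rt θ) = θ := by
  rw [ex, rt, mul_div_cancel₀ _ Real.two_pi_pos.ne', Circle.exp_arg]
theorem ex_eq {r s : ℝ} (h : ex r = ex s) : ∃ m : ℤ, r = s + m := by
  obtain ⟨m, e⟩ := Circle.exp_eq_exp.1 h
  exact ⟨m, mul_left_cancel₀ Real.two_pi_pos.ne' (by linear_combination e)⟩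
theorem rt_ex (r : ℝ) : ∃ m : ℤ, rt (ex r) = r + m := ex_eq (ex_rt _)
theorem ex_q : IsOpenQuotientMap ex :=
  ⟨fun θ => ⟨_, ex_rt θ⟩, Circle.exp.continuous.comp (continuous_const_mul _),
    isLocalHomeomorph_circleExp.isOpenMap.comp
      (Homeomorph.mulLeft₀ _ Real.two_pi_pos.ne').isOpenMap⟩
theorem ex_pow (r : ℝ) {q : ℕ} (hq : q ≠ 0) : Circle.exp (2 * Real.pi * r / q) ^ q = ex r := by
  have : (q : ℝ) ≠ 0 := Nat.cast_ne_zero.2 hq
  rw [← Circle.exp_nsmul, ex]; congr 1; rw [nsmul_eq_mul]; field_simp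
theorem ex_root (z : Circle) {q : ℕ} (hq : q ≠ 0) : ∃ r : ℝ, Circle.exp (2 * Real.pi * r / q) = z := by
  have : (q : ℝ) ≠ 0 := Nat.cast_ne_zero.2 hq
  refine ⟨q * rt z, Eq.trans ?_ (ex_rt z)⟩
  rw [ex]; congr 1; field_simp
theorem arg_an (w : ℂ) : (an w : ℂ).arg = w.arg := by
  unfold an
  split_ifs with h
  · simp [h]
  · change (w / ‖w‖).arg = _
    rw [div_eq_mul_inv, ← Complex.ofReal_inv, Complex.arg_mul_real (inv_pos.2 (norm_pos_iff.2 h))]
theorem rep_ang (w : ℂ) : ∃ m : ℤ, rep (ang w) = rt (an w) + m := by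
  refine ⟨-⌊w.arg / (2 * Real.pi)⌋, ?_⟩
  rw [rt, arg_an, ang, rep, AddCircle.coe_equivIco_mk_apply]; simp [Int.fract, sub_eq_add_neg]
theorem ex_rep (w : ℂ) : ex (rep (ang w)) = an w := by
  obtain ⟨m, e⟩ := rep_ang w
  rw [e, ex_add, ex_rt, ex, Circle.exp_two_pi_mul_int, mul_one]

section fo
variable {q : ℕ} [NeZero q] {E : Type} [NormedAddCommGroup E] [NormedSpace ℂ E]
theorem g_zi (m : ℤ) (y : ZMod q → E) : Fo.g (m : ℝ) y = Fo.sh (m : ZMod q) y := by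
  induction m using Int.induction_on generalizing y with
  | zero => simp [Fo.g_zero, Fo.sh_zero]
  | succ n ih =>
    have := ih (Fo.sh 1 y)
    push_cast at this ⊢
    rw [Fo.g_add, Fo.g_one, this, Fo.sh_sh]
  | pred n ih =>
    have := ih (Fo.sh (-1) y)
    push_cast at this ⊢
    rw [sub_eq_add_neg, Fo.g_add, Fo.g_neg_one, this, Fo.sh_sh, sub_eq_add_neg]
variable (q E) in
theorem g_bd : ∃ C : ℝ, 0 < C ∧ ∀ (r : ℝ) (y : ZMod q → E), ‖Fo.g r y‖ ≤ C * ‖y‖ := by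
  obtain ⟨A, a, hA⟩ := (Fo.D q E).symm.toContinuousLinearMap.bound
  obtain ⟨B, b, hB⟩ := (Fo.D q E).toContinuousLinearMap.bound
  refine ⟨A * B, mul_pos a b, fun r y => (hA _).trans ?_⟩
  rw [mul_assoc]
  refine mul_le_mul_of_nonneg_left (le_trans ?_ (hB y)) a.le
  refine (pi_norm_le_iff_of_nonneg (norm_nonneg _)).2 fun j => ?_
  change ‖Fo.gs r j • Fo.D q E y j‖ ≤ _
  rw [norm_smul, Fo.norm_gs, one_mul]
  exact norm_le_pi_norm (Fo.D q E y) j
end fo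

variable (k : ℕ) {n n₁ n₂ : ℕ} (D : Data X22 (Cn n₁) (Cn n₂))
  (s₁ : Fin n → S3 × S3 → Cn n₁) (s₂ : Fin n → S3 × S3 → Cn n₂)

/-- the argument of `v` -/
def ar (r : ℝ) (y : US 2 × US 2) (c : CC k n) : V k (Cn n₁) := Fo.g (-r) (up s₁ y (fi c))
/-- the domain -/
def Og (r : ℝ) (y : US 2 × US 2) (c : CC k n) : Prop := ∀ i, (hx y, ar k s₁ r y c i) ∈ D.Ov
/-- `N v` of the argument -/
def nv (r : ℝ) (y : US 2 × US 2) (c : CC k n) : V k (Cn n₂) := fun i => D.v (hx y, ar k s₁ r y c i)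
/-- the finite value -/
def fg (r : ℝ) (y : US 2 × US 2) (c : CC k n) : CC k n :=
  fo (dn s₂ y (Fo.g r (nv k D s₁ r y c)))
open Classical in
/-- `gm` with a real angle -/
def gmr (r : ℝ) (y : US 2 × US 2) (c : CC k n) : OnePoint (CC k n) :=
  if Og k D s₁ r y c then OnePoint.some (fg k D s₁ s₂ r y c) else ∞

variable {k D s₁ s₂} {r : ℝ} {y : US 2 × US 2} {c : CC k n}

theorem gm_eq (θ : Circle) : gm k D s₁ s₂ y θ c = gmr k D s₁ s₂ (rt θ) y c := by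
  unfold gm gmr
  exact @if_congr _ _ _ (_) (_) _ _ _ _ Iff.rfl rfl rfl
theorem gmr_in (h : Og k D s₁ r y c) : gmr k D s₁ s₂ r y c = fg k D s₁ s₂ r y c := if_pos h
theorem gmr_out (h : ¬Og k D s₁ r y c) : gmr k D s₁ s₂ r y c = ∞ := if_neg h
theorem gmr_some {w : CC k n} (h : gmr k D s₁ s₂ r y c = w) :
    Og k D s₁ r y c ∧ fg k D s₁ s₂ r y c = w := by
  by_cases o : Og k D s₁ r y c
  · exact ⟨o, coe_injective ((gmr_in o).symm.trans h)⟩
  · exact absurd ((gmr_out o).symm.trans h) (infty_ne_coe _)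
theorem gmr_ne : gmr k D s₁ s₂ r y c ≠ ∞ ↔ Og k D s₁ r y c :=
  ⟨fun h => by_contra fun o => h (gmr_out o), fun o => by rw [gmr_in o]; exact coe_ne_infty _⟩

theorem ar_int (m : ℤ) : ar k s₁ (r + m) y c = Fo.sh (-m : Ix k) (ar k s₁ r y c) := by
  rw [ar, neg_add_rev, Fo.g_add, ← Int.cast_neg, g_zi, Int.cast_neg]; rfl
theorem Og_int (m : ℤ) : Og k D s₁ (r + m) y c ↔ Og k D s₁ r y c := by
  simp only [Og, ar_int]
  exact ⟨fun h i => by simpa [Fo.sh] using h (i + m), fun h i => h _⟩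
theorem fg_int (m : ℤ) : fg k D s₁ s₂ (r + m) y c = fg k D s₁ s₂ r y c := by
  have : nv k D s₁ (r + m) y c = Fo.sh (-m : Ix k) (nv k D s₁ r y c) := by
    funext i; simp only [nv, ar_int]; rfl
  rw [fg, this, Fo.g_add, g_zi, Fo.sh_sh, add_neg_cancel, Fo.sh_zero]; rfl
/-- **period one** -/
theorem gmr_int (m : ℤ) : gmr k D s₁ s₂ (r + m) y c = gmr k D s₁ s₂ r y c :=
  @if_congr _ _ _ (_) (_) _ _ _ _ (Og_int m) (congrArg _ (fg_int m)) rfl
theorem gm_ex : gm k D s₁ s₂ y (ex r) c = gmr k D s₁ s₂ r y c := by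
  obtain ⟨m, e⟩ := rt_ex r
  rw [gm_eq, e, gmr_int]
theorem gm_an (w : ℂ) : gm k D s₁ s₂ y (an w) c = gmr k D s₁ s₂ (rep (ang w)) y c := by
  rw [← gm_ex, ex_rep]
theorem gm_one : gm k D s₁ s₂ y 1 c = gmr k D s₁ s₂ 0 y c := by rw [← gm_ex, ex_zero]
theorem ar_zero : ar k s₁ 0 y c = up s₁ y (fi c) := by rw [ar, neg_zero, Fo.g_zero]
/-- the even part is kept -/
theorem fg_snd (w : Ev k × Fin n → ℂ) : (fg k D s₁ s₂ r y (w, 0)).2 = 0 :=
  fo_dn0 _ _ (mn_g (mn_nl (fun e => D.v (hx y, e)) (mn_g (mn_up0 _ _ _))))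

variable {a a' b b' : Fin n → ℤ} (h₁ : Frm D.π₁ a a' s₁) (h₂ : Frm D.π₂ b b' s₂)

include h₁ in
theorem pi_ar (i : Ix k) : D.π₁ (hx y) (ar k s₁ r y c i) = ar k s₁ r y c i :=
  pi_g y h₁ _ (pi_up y h₁ _) i
include h₁ in
theorem ar_inv : fo (dn s₁ y (Fo.g r (ar k s₁ r y c))) = c := by
  rw [ar, Fo.g_neg', dn_up y h₁, fo_fi]
include h₁ in
theorem ct_ar {T : Type*} [TopologicalSpace T] {r : T → ℝ} {y : T → US 2 × US 2} {c : T → CC k n}
    (hr : Continuous r) (hy : Continuous y) (hc : Continuous c) :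
    Continuous fun t => ar k s₁ (r t) (y t) (c t) :=
  Fo.cont_g hr.neg (ct_up h₁ hy (ct_fi.comp hc))
include h₁ in
theorem ar_ay (g : GT) {ρ : ℝ} (e : Circle.exp (2 * Real.pi * ρ / (2 ^ (k + 1) : ℕ)) = c1 g) :
    ar k s₁ (ρ + r) (ay g y) (aw a a' g c) = ar k s₁ r y c := by
  rw [ar, up_ay h₁, ← e, ci_exp, neg_add_rev, Fo.g_add, Fo.g_neg]; rfl
include h₁ h₂ in
theorem gmr_ay (g : GT) {ρ : ℝ} (e : Circle.exp (2 * Real.pi * ρ / (2 ^ (k + 1) : ℕ)) = c1 g) :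
    gmr k D s₁ s₂ (ρ + r) (ay g y) (aw a a' g c) =
      OnePoint.map (aw b b' g) (gmr k D s₁ s₂ r y c) := by
  have o : Og k D s₁ (ρ + r) (ay g y) (aw a a' g c) ↔ Og k D s₁ r y c := by
    simp only [Og, ar_ay h₁ g e, hx_ay]
  by_cases p : Og k D s₁ r y c
  · have : nv k D s₁ (ρ + r) (ay g y) (aw a a' g c) = nv k D s₁ r y c := by
      funext i; simp only [nv, ar_ay h₁ g e, hx_ay]
    rw [gmr_in p, gmr_in (o.2 p), map_some, fg, fg, ← dn_ay h₂, ← e, ci_exp, Fo.g_add, this]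
  · rw [gmr_out p, gmr_out (mt o.1 p)]; rfl
include h₁ h₂ in
/-- **equivariance** -/
theorem gm_ay (g : GT) (θ : Circle) :
    gm k D s₁ s₂ (ay g y) (c1 g ^ 2 ^ (k + 1) * θ) (aw a a' g c) =
      OnePoint.map (aw b b' g) (gm k D s₁ s₂ y θ c) := by
  obtain ⟨ρ, e⟩ := ex_root (c1 g) (q := 2 ^ (k + 1)) (by positivity)
  rw [gm_eq θ, ← gmr_ay h₁ h₂ g e, ← gm_ex, ex_add, ex_rt, ← e, ex_pow _ (by positivity)]

variable {c₀ κ R₀ M : ℝ} (o : D.Ok c₀ κ R₀ M)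

include o h₂ in
theorem up_fg (p : Og k D s₁ r y c) :
    up s₂ y (fi (fg k D s₁ s₂ r y c)) = Fo.g r (nv k D s₁ r y c) := by
  rw [fg, fi_fo]
  exact up_dn' y h₂ (pi_g y h₂ r fun i => o.vp _ (p i))
include o h₁ in
theorem ar_bd (p : Og k D s₁ r y c) (i : Ix k) : ‖ar k s₁ r y c i‖ ≤ R₀ := by
  have := o.vb _ (p i)
  rwa [pi_ar h₁] at this
include o h₁ in
/-- the domain is bounded -/
theorem Og_bd : ∃ R : ℝ, ∀ r y c, Og k D s₁ r y c → ‖c‖ ≤ R := by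
  obtain ⟨A, a, hA⟩ := fo_bd (k := k) (n := n)
  obtain ⟨B, b, hB⟩ := g_bd (2 ^ (k + 1)) (Cn n₁)
  refine ⟨A * (B * R₀), fun r y c p => ?_⟩
  rw [← ar_inv h₁ (c := c) (r := r) (y := y)]
  refine (hA _).trans (mul_le_mul_of_nonneg_left ((norm_dn y h₁ _).trans ((hB _ _).trans
    (mul_le_mul_of_nonneg_left ?_ b.le))) a.le)
  exact (pi_norm_le_iff_of_nonneg ((norm_nonneg _).trans (ar_bd h₁ o p 0))).2 (ar_bd h₁ o p)
include o h₂ in
theorem nv_bd : ∃ C : ℝ, 0 ≤ C ∧ ∀ r y c, Og k D s₁ r y c →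
    ‖nv k D s₁ r y c‖ ≤ C * ‖fg k D s₁ s₂ r y c‖ := by
  obtain ⟨A, a, hA⟩ := fi_bd (k := k) (n := n)
  obtain ⟨B, b, hB⟩ := g_bd (2 ^ (k + 1)) (Cn n₂)
  refine ⟨B * (n * A), by positivity, fun r y c p => ?_⟩
  rw [← Fo.g_neg r (nv k D s₁ r y c), ← up_fg h₂ o p, mul_assoc, mul_assoc]
  exact (hB _ _).trans (mul_le_mul_of_nonneg_left ((norm_up y h₂ _).trans
    (mul_le_mul_of_nonneg_left (hA _) n.cast_nonneg)) b.le)

section ct
variable {T : Type} [TopologicalSpace T] {r : T → ℝ} {y : T → US 2 × US 2} {c : T → CC k n}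
  (hr : Continuous r) (hy : Continuous y) (hc : Continuous c)
include o h₁ hr hy hc

theorem Og_op : IsOpen {t | Og k D s₁ (r t) (y t) (c t)} := by
  simp only [Og, ofPred_forall]
  exact isOpen_iInter_of_finite fun i => o.vo.preimage
    ((ct_hx.comp hy).prodMk ((continuous_apply i).comp (ct_ar h₁ hr hy hc)))
theorem ct_nv : ContinuousOn (fun t => nv k D s₁ (r t) (y t) (c t))
    {t | Og k D s₁ (r t) (y t) (c t)} :=
  continuousOn_pi.2 fun i => o.vc.comp ((ct_hx.comp hy).prodMk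
    ((continuous_apply i).comp (ct_ar h₁ hr hy hc))).continuousOn fun t p => p i
include h₂
theorem ct_fg : ContinuousOn (fun t => fg k D s₁ s₂ (r t) (y t) (c t))
    {t | Og k D s₁ (r t) (y t) (c t)} := by
  have : Continuous fun x : T × V k (Cn n₂) => fo (dn s₂ (y x.1) (Fo.g (r x.1) x.2)) :=
    ct_fo.comp (ct_dn h₂ (hy.comp continuous_fst) (Fo.cont_g (hr.comp continuous_fst) continuous_snd))
  exact Continuous.comp_continuousOn (f := fun t => (t, nv k D s₁ (r t) (y t) (c t))) this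
    (continuousOn_id.prodMk (ct_nv h₁ o hr hy hc))
theorem ct_gmr : Continuous fun t => gmr k D s₁ s₂ (r t) (y t) (c t) := by
  obtain ⟨C, c0, hC⟩ := nv_bd (k := k) (s₁ := s₁) h₂ o
  refine Uk.pe_ct (Og_op h₁ o hr hy hc) (ct_fg h₁ h₂ o hr hy hc) fun R => ?_
  refine ⟨⋂ i, (fun t => (hx (y t), ar k s₁ (r t) (y t) (c t) i)) ⁻¹'
    {w ∈ D.Ov | ‖D.v w‖ ≤ max (C * R) R₀ ∧ ‖w.2‖ ≤ max (C * R) R₀},
    isClosed_iInter fun i => (o.vk _).isClosed.preimage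
      ((ct_hx.comp hy).prodMk ((continuous_apply i).comp (ct_ar h₁ hr hy hc))),
    fun t p i => (mem_iInter.1 p i).1, fun t p l => mem_iInter.2 fun i =>
      ⟨p i, le_max_of_le_left ?_, le_max_of_le_right (ar_bd h₁ o p i)⟩⟩
  exact ((norm_le_pi_norm (nv k D s₁ (r t) (y t) (c t)) i).trans (hC _ _ _ p)).trans
    (mul_le_mul_of_nonneg_left l c0)
end ct

include o h₁ h₂ in
/-- **continuity of `gm`** -/
theorem ct_gm {T : Type} [TopologicalSpace T] {θ : T → Circle} {y : T → US 2 × US 2}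
    {c : T → CC k n} (hθ : Continuous θ) (hy : Continuous y) (hc : Continuous c) :
    Continuous fun t => gm k D s₁ s₂ (y t) (θ t) (c t) := by
  have : Continuous fun x : Circle × (US 2 × US 2) × CC k n => gm k D s₁ s₂ x.2.1 x.1 x.2.2 := by
    rw [← (ex_q.prodMap .id).continuous_comp_iff]
    exact (ct_gmr h₁ h₂ o continuous_fst continuous_snd.fst continuous_snd.snd).congr
      fun x => gm_ex.symm
  exact Continuous.comp (f := fun t => (θ t, y t, c t)) this (hθ.prodMk (hy.prodMk hc))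

end Crest.Agent.N218.D6

end
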