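import Crest.Agent.N218.D6.Defs

/-! Row 218, block D6 (helper33): a cut of `LOCA` through a patched algebra. -/

set_option autoImplicit false
set_option linter.unusedVariables false

open Set OnePoint

noncomputable section

namespace Crest.Agent.N218.D6.La
open K

section
variable {Γ Γ' : Type} [Group Γ] [TopologicalSpace Γ] [Group Γ'] [TopologicalSpace Γ']
  [CompactSpace Γ] [CompactSpace Γ'] (d : LD Γ Γ')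

/-- `Y × S²` -/
abbrev YS : GS Γ := d.Y.prod (ch d.χ d.hχ).sph
/-- the trivial plane -/
abbrev CT (Γ' : Type) [Group Γ'] [TopologicalSpace Γ'] : LS Γ' := LS.triv Γ' ℂ
/-- `W0 × R` -/
abbrev NN : Rep Γ := d.W0.prod d.R

/-- the patched algebra -/
structure Pat where
  R : Type
  [cr : CommRing R]
  [al : Algebra ℂ R]
  e1 : R →ₐ[ℂ] C((Sb (YS d) d.M1.ls).E, ℂ)
  e3 : R →ₐ[ℂ] C((Sb (YS d) d.M3.ls).E, ℂ)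
  τ : R →ₐ[ℂ] C((Sb d.Y d.T.ls).E, ℂ)
  r1 : ∀ a y (θ : Circle) (m : d.M1.W), e1 a (pt (YS d) d.M1.ls (y, OnePoint.some (θ : ℂ))
    (OnePoint.some m)) = τ a (pt d.Y d.T.ls y (d.g1 ((y, θ), m)))
  r3 : ∀ a y (θ : Circle) (m : d.M3.W), e3 a (pt (YS d) d.M3.ls (y, OnePoint.some (θ : ℂ))
    (OnePoint.some m)) = τ a (pt d.Y d.T.ls y (d.g3 ((y, θ), m)))
  s1 : ∀ a y ζ, e1 a (pt (YS d) d.M1.ls (y, ζ) ∞) = τ a (pt d.Y d.T.ls y ∞)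
  s3 : ∀ a y ζ, e3 a (pt (YS d) d.M3.ls (y, ζ) ∞) = τ a (pt d.Y d.T.ls y ∞)

attribute [instance] Pat.cr Pat.al
end

set_option hygiene false in
/-- quantify over localisation data -/
local macro "∀D " h:ident ", " t:term : term =>
  `(∀ {Γ Γ' : Type} [Group Γ] [TopologicalSpace Γ] [CompactSpace Γ] [Group Γ'] [TopologicalSpace Γ']
    [CompactSpace Γ'] (d : LD Γ Γ') ($h : d.Ok), $t)

/-- two Milnor patches -/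
def PAT : Prop := ∀D h, ∀ (G1 : H1 (Sb d.YC d.M1.ls) (Sb d.YC d.T.ls))
  (G3 : H1 (Sb d.YC d.M3.ls) (Sb d.YC d.T.ls)) (j1 : C((Sb d.YC d.M1.ls).E, (Sb (YS d) d.M1.ls).E))
  (j3 : C((Sb d.YC d.M3.ls).E, (Sb (YS d) d.M3.ls).E)) (t : C((Sb d.YC d.T.ls).E, (Sb d.Y d.T.ls).E)),
  Rg G1 d.g1 → Rg G3 d.g3 →
  Mp (fun z : d.Y.Z × Circle => (z.1, OnePoint.some (z.2 : ℂ))) id j1 →
  Mp (fun z : d.Y.Z × Circle => (z.1, OnePoint.some (z.2 : ℂ))) id j3 → Mp Prod.fst id t →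
  ∀ x1 x3 l, (Sb (YS d) d.M1.ls).Rd x1 → (Sb (YS d) d.M3.ls).Rd x3 → (Sb d.Y d.T.ls).Rd l →
  pull j1 x1 = pull G1.f (pull t l) → pull j3 x3 = pull G3.f (pull t l) →
  ∃ (P : Pat d) (ω : KC P.R), KA P.e1 ω = x1 ∧ KA P.e3 ω = x3 ∧ KA P.τ ω = l

/-- the characters -/
def CHR : Prop := ∀D h, ∀ P : Pat d,
  ∃ (Φ : P.R →ₐ[ℂ] C((Sb (d.Y'.prod (CT Γ').sph) (d.rs d.S).ls).E, ℂ))
    (Ψ : P.R →ₐ[ℂ] C((Sb (YS d) (NN d).ls).E, ℂ)),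
  (∀ a y ζ, Φ a (pt (d.Y'.prod (CT Γ').sph) (d.rs d.S).ls (y, ζ) ∞) = P.τ a (pt d.Y d.T.ls y ∞)) ∧
  (∀ a y ζ, Ψ a (pt (YS d) (NN d).ls (y, ζ) ∞) = P.τ a (pt d.Y d.T.ls y ∞)) ∧
  (∀ a y (n : (NN d).W), Ψ a (pt (YS d) (NN d).ls (y, ∞) (OnePoint.some n)) =
    P.e1 a (pt (YS d) d.M1.ls (y, ∞) (OnePoint.some ((n.1, 0), n.2)))) ∧
  (∀ a y (n : (NN d).W), Ψ a (pt (YS d) (NN d).ls (y, OnePoint.some (0 : ℂ)) (OnePoint.some n)) =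
    P.e3 a (pt (YS d) d.M3.ls (y, OnePoint.some (0 : ℂ)) (OnePoint.some ((n.1, 0), n.2)))) ∧
  (∀ a y (ζ : OnePoint ℂ) (w : d.W0.W) (z : d.Z0.W),
    Φ a (pt (d.Y'.prod (CT Γ').sph) (d.rs d.S).ls (y, ζ) (OnePoint.some ((w, 0), (z, 0)))) =
    Ψ a (pt (YS d) (NN d).ls (y, ζ) (OnePoint.some (w, ((d.μ0 (y, z), 0), 0))))) ∧
  ∀ (F : H1 (Sb d.Ym d.SC) (Sb d.Ym (d.rs d.T).ls)), Rg F d.F5 →
    ∀ ρ' : C((Sb (d.Ym.prod (CT Γ').sph) (d.rs d.S).ls).E,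
      (Sb (d.Y'.prod (CT Γ').sph) (d.rs d.S).ls).E),
    Mp (fun z : d.Ym.Z × OnePoint ℂ => (d.i z.1, z.2)) id ρ' →
    ∀ ι : C((Sb d.Ym (d.rs d.T).ls).E, (Sb d.Y d.T.ls).E), Mp d.i id ι → ∀ ω : KC P.R,
      pull ρ' (KA Φ ω) = pull (smd d.Ym (d.rs d.S).ls (CT Γ')).c (pull F.f (pull ι (KA P.τ ω)))

/-- the choice of `κ`, `κ0`, `κw` and of the patched class -/
def KAP : Prop := ∀D h, d.Uni → Function.Surjective (pull d.π) →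
  ∀ lW0 lW1 lZ0 lZ1 lR, UT d.Y d.W0.ls lW0 → UT d.Y d.W1.ls lW1 → UT d.Y d.Z0.ls lZ0 →
    UT d.Y d.Z1.ls lZ1 → UT d.Y d.R.ls lR →
    ∀ (m : C((Sb d.Y' (d.rs d.Z0).ls).E, (Sb d.Y d.W0.ls).E))
      (r : C((Sb d.Y' (d.rs d.Z0).ls).E, (Sb d.Y d.Z0.ls).E)),
      (∀ y (z : d.Z0.W), m (pt d.Y' (d.rs d.Z0).ls y (OnePoint.some z)) =
        pt d.Y d.W0.ls y (OnePoint.some (d.μ0 (y, z)))) →
      (∀ y, m (pt d.Y' (d.rs d.Z0).ls y ∞) = pt d.Y d.W0.ls y ∞) →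
      (∀ y z, r (pt d.Y' (d.rs d.Z0).ls y z) = pt d.Y d.Z0.ls y z) →
    ∃ (κ κ0 : KX d.Y.Q) (κw : KX d.Y'.Q) (P : Pat d) (ω : KC P.R), IsUnit (pull d.π κ) ∧ IsUnit κw ∧
      pull m lW0 = (Sb d.Y' (d.rs d.Z0).ls).sm κw (pull r lZ0) ∧
      KA P.e1 ω = pull (smd d.Y d.M1.ls (ch d.χ d.hχ)).q
        ((Sb d.Y d.M1.ls).sm κ0 (xm (V := d.W.ls) (xm (V := d.W0.ls) lW0 lW1) lR)) ∧
      KA P.e3 ω = pull (smd d.Y d.M3.ls (ch d.χ d.hχ)).q ((Sb d.Y d.M3.ls).sm κ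
        (xm (V := (d.W0.prod d.Z1).ls) (xm (V := d.W0.ls) lW0 lZ1) lR)) ∧
      KA P.τ ω = xm (V := d.Z.ls) (xm (V := d.Z0.ls) lZ0 lZ1) lR

end Crest.Agent.N218.D6.La

end
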