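import Crest.Agent.N218.D6.Defs

/-!
# Row 218, block D6 (helper37): the end of the push represents the dual problem
-/

set_option autoImplicit false
set_option linter.unusedVariables false
set_option linter.unusedSectionVars false

open unitInterval Topology Filter Set OnePoint Metric

noncomputable section

namespace Crest.Agent.N218.D6

open K

namespace Pu

theorem an_on : ContinuousOn an {ζ | ζ ≠ 0} := by
  refine (IsInducing.subtypeVal.continuousOn_iff (f := an)).2 (ContinuousOn.congr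
    (f := fun ζ : ℂ => ζ / ‖ζ‖) (continuousOn_id.div (Complex.continuous_ofReal.comp
      continuous_norm).continuousOn fun ζ h => by simpa using h) fun ζ h => ?_)
  exact congrArg Subtype.val (dif_neg h)

theorem tt_c : Continuous tt := by unfold tt; fun_prop
theorem bp_c : Continuous bp := by unfold bp; fun_prop
theorem tt0 {ρ : ℝ} (h : ρ ≤ 5 / 4) : tt ρ = 0 :=
  max_eq_left (min_le_of_right_le (by linarith))
theorem tt1 {ρ : ℝ} (h : 3 / 2 ≤ ρ) : tt ρ = 1 := by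
  rw [tt, min_eq_left (by linarith), max_eq_right zero_le_one]
theorem bp_ne {ρ : ℝ} : bp ρ ≠ 0 ↔ ρ ∈ Ioo (1 : ℝ) 2 := by
  rw [bp, Ne, max_eq_left_iff, not_le]
  exact ⟨fun h => ⟨by nlinarith, by nlinarith⟩, fun h => mul_pos (sub_pos.2 h.1) (sub_pos.2 h.2)⟩
theorem bp_nn (ρ : ℝ) : 0 ≤ bp ρ := le_max_left _ _
theorem bp_le (ρ : ℝ) : bp ρ ≤ 1 := max_le zero_le_one (by nlinarith [sq_nonneg (2 * ρ - 3)])

theorem vl_at {E : Type} [TopologicalSpace E] [Zero E] {p : OnePoint E} (h : p ≠ ∞) :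
    ContinuousAt vl p := by
  induction p using OnePoint.rec with
  | infty => exact (h rfl).elim
  | coe e => exact isOpenEmbedding_coe.continuousAt_iff.1 continuousAt_id

theorem coe_vl {E : Type} [Zero E] {p : OnePoint E} (h : p ≠ ∞) : (vl p : E) = p := by
  induction p using OnePoint.rec with
  | infty => exact (h rfl).elim
  | coe e => rfl

variable {Γ Γ' : Type} [Group Γ] [TopologicalSpace Γ] [CompactSpace Γ] [Group Γ']
  [TopologicalSpace Γ'] [CompactSpace Γ'] (d : LD Γ Γ')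

/-- the parameters -/
abbrev Pa : Type := d.Y.Z × Circle × ℝ × d.U.W
/-- the cylinder as one map -/
def HH (x : Pa d × d.S.W) : OnePoint d.T.W := d.hh x.1.1 x.1.2.1 x.1.2.2.1 x.1.2.2.2 x.2
/-- the total source -/
abbrev Xs : Type := d.Ym.Z × d.S.W × ℂ
/-- the parameter of a point -/
def pa (c : ℝ) (x : Xs d) : Pa d × d.S.W :=
  ((d.i x.1, an x.2.2, tt ‖x.2.2‖, c • d.u x.1), x.2.1)

variable {d}

theorem pa_on {T : Type} [TopologicalSpace T] {A : Set T} {c : T → ℝ} {x : T → Xs d}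
    (hc : ContinuousOn c A) (hx : Continuous x) (h0 : ∀ t ∈ A, (x t).2.2 ≠ 0) :
    ContinuousOn (fun t => pa d (c t) (x t)) A :=
  (((d.i.continuous.comp hx.fst).continuousOn.prodMk ((an_on.comp hx.snd.snd.continuousOn h0).prodMk
    ((tt_c.comp hx.snd.snd.norm).continuousOn.prodMk
      (hc.smul (d.u.continuous.comp hx.fst).continuousOn))))).prodMk hx.snd.fst.continuousOn

theorem hh_U {y θ t η v} {e : d.T.W} (h : d.hh y θ t η v = e) :
    e.2.2 = d.k (y, (v.1.2, v.2.2)) - η :=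
  (congrArg Prod.snd (coe_injective (wdg_eq_coe h).2)).symm

variable (H : PMS) (h : d.Ok)
include H h

theorem sub (K : Set (Pa d)) (k : IsCompact K) :
    Continuous (fun x : K × d.S.W => HH d (x.1, x.2)) ∧ Prp fun x : K × d.S.W => HH d (x.1, x.2) :=
  haveI := isCompact_iff_compactSpace.1 k
  (H d h).2.2.2.2.2.2.2 K ⟨fun p => p.1.1, by fun_prop⟩ ⟨fun p => p.1.2.1, by fun_prop⟩
    ⟨fun p => p.1.2.2.1, by fun_prop⟩ ⟨fun p => p.1.2.2.2, by fun_prop⟩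

theorem HH_c : Continuous (HH d) := continuous_iff_continuousAt.2 fun x => by
  obtain ⟨K, k, n⟩ := exists_compact_mem_nhds x.1
  have : ContinuousOn (HH d) (K ×ˢ univ) := continuousOn_iff_continuous_domRestrict.2
    ((sub H h K k).1.comp (f := fun z : (K ×ˢ univ : Set (Pa d × d.S.W)) =>
      ((⟨z.1.1, z.2.1⟩ : K), z.1.2))
      ((continuous_subtype_val.fst.subtype_mk _).prodMk continuous_subtype_val.snd) :)
  exact this.continuousAt (prod_mem_nhds n univ_mem)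

theorem HH_p {K : Set (Pa d)} (k : IsCompact K) {K' : Set d.T.W} (k' : IsCompact K') :
    ∃ L, IsCompact L ∧ ∀ x : Pa d × d.S.W, x.1 ∈ K → ∀ e ∈ K', HH d x = e → x.2 ∈ L :=
  ((sub H h K k).2 K' k').imp fun L l => ⟨l.1, fun x a e b c =>
    by_contra fun n => l.2 ⟨x.1, a⟩ x.2 e n c b⟩

theorem ends {K' : Set d.T.W} (k' : IsCompact K') : ∃ L, IsCompact L ∧ ∀ y θ t η v,
    (t = 0 ∨ t = 1) → ∀ e ∈ K', d.hh y θ t η v = e → v ∈ L := by
  obtain ⟨g1, g3, b1, b3, e1, e3, -⟩ := H d h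
  obtain ⟨K1, k1, a1⟩ := g1.pr K' k'
  obtain ⟨K3, k3, a3⟩ := g3.pr K' k'
  obtain ⟨L1, l1, c1⟩ := b1.pr K1 k1
  obtain ⟨L3, l3, c3⟩ := b3.pr K3 k3
  refine ⟨Prod.snd '' (L1 ∪ L3 : Set (d.U.W × d.S.W)), (l1.union l3).image continuous_snd, ?_⟩
  rintro y θ t η v (rfl | rfl) e m q
  · exact ⟨(η, v), .inr (by_contra fun n => c3 y (η, v) _ n rfl
      (by_contra fun n' => a3 (y, θ) _ e n' ((e3 y θ η v).symm.trans q) m)), rfl⟩
  · exact ⟨(η, v), .inl (by_contra fun n => c1 y (η, v) _ n rfl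
      (by_contra fun n' => a1 (y, θ) _ e n' ((e1 y θ η v).symm.trans q) m)), rfl⟩

theorem HH_eq (g : Γ') (c : ℝ) (x : Xs d) :
    HH d (pa d c (d.Ym.act g x.1, d.S.ρ (d.φ g) x.2.1, x.2.2)) =
      d.T.ls.sph.act (d.φ g) (HH d (pa d c x)) := by
  refine Eq.trans ?_ ((H d h).2.2.2.2.2.2.1 g _ _ _ _ _)
  change d.hh (d.i _) _ _ (c • d.u _) _ = d.hh _ _ _ (d.U.ρ (d.φ g) (c • d.u x.1)) _
  rw [h.hi g x.1, h.hu, _root_.map_smul]; rfl

theorem mid {c : ℝ} {x : Xs d} (c0 : 0 < c) (c1 : 3 / 2 ≤ ‖x.2.2‖ → 1 ≤ c)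
    (z : HH d (pa d c x) = ((0 : d.T.W) : OnePoint d.T.W)) : ‖x.2.2‖ ∈ Icc (5 / 4 : ℝ) (3 / 2) := by
  change d.hh (d.i x.1) (an x.2.2) (tt ‖x.2.2‖) (c • d.u x.1) x.2.1 = _ at z
  refine ⟨le_of_not_ge fun a => ?_, le_of_not_ge fun a => h.sm _ _ c _ (c1 a) (tt1 a ▸ z)⟩
  have u := hh_U z
  rw [tt0 a, (H d h).2.2.2.2.2.1] at z
  obtain ⟨z1, z2⟩ := wdg_eq_coe z
  have a1 : -x.2.1.2.2 = 0 := coe_injective (wdg_eq_coe z1).2
  have a2 : -x.2.1.1.2 = 0 := congrArg (·.1.2) (coe_injective z2)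
  rw [(h.k0 _ _).2 (Prod.ext (neg_eq_zero.1 a2) (neg_eq_zero.1 a1)), zero_sub] at u
  exact smul_ne_zero c0.ne' (h.u0 _) (neg_eq_zero.1 u.symm)

theorem ann {T : Type} [TopologicalSpace T] [CompactSpace T] {c : T × ℝ → ℝ}
    (hc : ContinuousOn c {z | z.2 ∈ Icc (5 / 4 : ℝ) (3 / 2)}) {K' : Set d.T.W} (k' : IsCompact K') :
    ∃ L, IsCompact L ∧ ∀ t (x : Xs d), ‖x.2.2‖ ∈ Icc (5 / 4 : ℝ) (3 / 2) → ∀ e ∈ K',
      HH d (pa d (c (t, ‖x.2.2‖)) x) = e → x.2.1 ∈ L := by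
  have k : IsCompact ((univ : Set (T × d.Ym.Z)) ×ˢ (norm ⁻¹' Icc (5 / 4 : ℝ) (3 / 2) : Set ℂ)) :=
    isCompact_univ.prod ((isCompact_closedBall 0 (3 / 2)).of_isClosed_subset
      (isClosed_Icc.preimage continuous_norm) fun _ a => mem_closedBall_zero_iff.2 a.2)
  obtain ⟨L, l, a⟩ := HH_p H h (k.image_of_continuousOn (pa_on (d := d)
    (c := fun z => c (z.1.1, ‖z.2‖)) (x := fun z => (z.1.2, 0, z.2))
    (hc.comp (by fun_prop) fun _ a => a.2) (by fun_prop)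
    fun z a b => by have := a.2.1; rw [show z.2 = 0 from b, norm_zero] at this; linarith).fst) k'
  exact ⟨L, l, fun t x m => a _ ⟨((t, x.1), x.2.2), ⟨trivial, m⟩, rfl⟩⟩

/-- the problems on an annulus -/
def an' (d : LD Γ Γ') (A : Set ℝ) (c : ℝ → ℝ) : FP d.Ym d.SC (d.rs d.T) :=
  ⟨{x : Xs d | ‖x.2.2‖ ∈ A ∧ HH d (pa d (c ‖x.2.2‖) x) ≠ ∞},
    fun x : Xs d => vl (E := d.T.W) (HH d (pa d (c ‖x.2.2‖) x))⟩

theorem fam {A : Set ℝ} (hA : IsOpen A) (A0 : (0 : ℝ) ∉ A) (A1 : Icc (5 / 4 : ℝ) (3 / 2) ⊆ A)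
    {c : I × ℝ → ℝ} (hc : ContinuousOn c {z | z.2 ∈ A}) (c0 : ∀ z : I × ℝ, z.2 ∈ A → 0 < c z)
    (c1 : ∀ z : I × ℝ, z.2 ∈ A → 3 / 2 ≤ z.2 → 1 ≤ c z) {c₀ c₁ : ℝ → ℝ} (e0 : ∀ r, c (0, r) = c₀ r)
    (e1 : ∀ r, c (1, r) = c₁ r) :
    (an' d A c₀).Ok ∧ (an' d A c₁).Ok ∧ (an' d A c₀).hm.Ht (an' d A c₁).hm := by
  have n : Continuous fun z : I × Xs d => ‖z.2.2.2‖ := by fun_prop
  have ct : ContinuousOn (fun z : I × Xs d => HH d (pa d (c (z.1, ‖z.2.2.2‖)) z.2))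
      {z | ‖z.2.2.2‖ ∈ A} := (HH_c H h).comp_continuousOn (pa_on
    (hc.comp (continuous_fst.prodMk n).continuousOn fun _ a => a) continuous_snd
    fun z a b => A0 (by rwa [mem_ofPred_eq, b, norm_zero] at a))
  refine FP.ht_of _ _ {z : I × Xs d | ‖z.2.2.2‖ ∈ A ∧ HH d (pa d (c (z.1, ‖z.2.2.2‖)) z.2) ≠ ∞}
    (fun z : I × Xs d => vl (E := d.T.W) (HH d (pa d (c (z.1, ‖z.2.2.2‖)) z.2)))
    (ct.isOpen_inter_preimage (hA.preimage n) isOpen_compl_singleton)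
    (fun g t x a => ⟨a.1, fun b => a.2 ?_⟩)
    (fun z a => ContinuousAt.comp_continuousWithinAt (f := fun z : I × Xs d =>
      HH d (pa d (c (z.1, ‖z.2.2.2‖)) z.2)) (vl_at a.2) ((ct z a.1).mono fun _ b => b.1))
    (fun g t x a => ?_) ?_ (fun x => by rw [← funext e0]; rfl) (fun x _ => by rw [← funext e0]; rfl)
    (fun x => by rw [← funext e1]; rfl) fun x _ => by rw [← funext e1]; rfl
  · by_contra k
    exact coe_ne_infty _ ((congrArg (d.T.ls.sph.act (d.φ g)) (coe_vl (E := d.T.W) k)).trans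
      ((HH_eq H h g _ x).symm.trans b))
  · exact congrArg vl ((HH_eq H h g _ x).trans
      (congrArg (d.T.ls.sph.act (d.φ g)) (coe_vl (E := d.T.W) a.2)).symm)
  · obtain ⟨L, l, a⟩ := ann H h (hc.mono fun _ b => A1 b) (isCompact_singleton (x := (0 : d.T.W)))
    have cl : IsClosed ({z : I × Xs d | ‖z.2.2.2‖ ∈ Icc (5 / 4 : ℝ) (3 / 2)} ∩
        (fun z : I × Xs d => HH d (pa d (c (z.1, ‖z.2.2.2‖)) z.2)) ⁻¹' {((0 : d.T.W) : OnePoint _)}) :=
      (ct.mono fun _ b => A1 b).preimage_isClosed_of_isClosed (isClosed_Icc.preimage n)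
        isClosed_singleton
    refine (congrArg IsCompact (Set.ext fun z : I × Xs d => ?_)).mp ((isCompact_univ.prod (isCompact_univ.prod
      (l.prod (isCompact_closedBall (0 : ℂ) (3 / 2))))).of_isClosed_subset cl fun z b =>
        ⟨trivial, trivial, a z.1 z.2 b.1 0 rfl b.2, mem_closedBall_zero_iff.2 b.1.2⟩)
    refine ⟨fun b => ⟨⟨A1 b.1, fun k => coe_ne_infty _ (b.2.symm.trans k)⟩, congrArg vl b.2⟩,
      fun b => ?_⟩
    have k := (coe_vl b.1.2).symm.trans (congrArg _ b.2)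
    exact ⟨mid H h (c0 _ b.1.1) (c1 (z.1, ‖z.2.2.2‖) b.1.1) k, k⟩

theorem F5_in {x : Xs d} (a : bp ‖x.2.2‖ ≠ 0) : d.F5 x = HH d (pa d (bp ‖x.2.2‖)⁻¹ x) := if_neg a
theorem F5_out {x : Xs d} (a : bp ‖x.2.2‖ = 0) : d.F5 x = ∞ := if_pos a

theorem F5_c : Continuous d.F5 := continuous_iff_continuousAt.2 fun x => by
  have n : Continuous fun z : Xs d => bp ‖z.2.2‖ := bp_c.comp (by fun_prop)
  by_cases a : bp ‖x.2.2‖ = 0
  · rw [ContinuousAt, F5_out H h a, hasBasis_nhds_infty.tendsto_right_iff]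
    rintro K ⟨-, hK⟩
    obtain ⟨R, hR⟩ := (hK.image (f := fun e : d.T.W => e.2.2) (by fun_prop)).isBounded.exists_norm_le
    have kc : Continuous fun z : Xs d => d.k (d.i z.1, (z.2.1.1.2, z.2.1.2.2)) :=
      (isOpenEmbedding_coe.isInducing.continuous_iff.2 h.pk.ct).comp
        ((d.i.continuous.comp continuous_fst).prodMk (by fun_prop))
    have := (n.mul (kc.norm.add (continuous_const (y := R)))).continuousAt.eventually_lt
      (d.u.continuous.comp continuous_fst).norm.continuousAt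
      (show bp ‖x.2.2‖ * _ < _ by rw [a, zero_mul]; exact norm_pos_iff.2 (h.u0 _))
    filter_upwards [this] with z b
    by_cases c : bp ‖z.2.2‖ = 0
    · exact .inr (F5_out H h c)
    induction e : d.F5 z using OnePoint.rec with
    | infty => exact .inr rfl
    | coe v =>
      refine .inl ⟨v, fun m => b.not_ge ?_, rfl⟩
      have p := (bp_nn _).lt_of_ne' c
      have u := hh_U ((F5_in H h c).symm.trans e)
      have w := norm_sub_le (d.k (d.i z.1, (z.2.1.1.2, z.2.1.2.2))) v.2.2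
      have r := hR _ ⟨v, m, rfl⟩
      rw [show d.k (d.i z.1, (z.2.1.1.2, z.2.1.2.2)) - v.2.2 = (bp ‖z.2.2‖)⁻¹ • d.u z.1 from
        sub_eq_iff_comm.1 u.symm, norm_smul, Real.norm_of_nonneg (inv_pos.2 p).le,
        inv_mul_le_iff₀ p] at w
      exact w.trans (mul_le_mul_of_nonneg_left (by simpa using r) p.le)
  · have o := (isOpen_ne.preimage n).mem_nhds a
    refine (((HH_c H h).comp_continuousOn (pa_on (A := {z : Xs d | bp ‖z.2.2‖ ≠ 0})
      (n.continuousOn.inv₀ fun _ b => b) continuous_id fun z b c => ?_)).continuousAt o).congr ?_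
    · have := (bp_ne.1 b).1
      rw [show z.2.2 = 0 from c, norm_zero] at this; linarith
    · filter_upwards [o] with z b using (F5_in H h b).symm

theorem F5_pm : Pm d.Ym d.SC (d.rs d.T).ls d.F5 := by
  refine ⟨F5_c H h, fun K' k' => ?_, fun g y (w : d.S.W × ℂ) => ?_⟩
  · obtain ⟨L, l, a⟩ := ends H h k'
    obtain ⟨L', l', a'⟩ := ann H h (T := Unit) (c := fun z => (bp z.2)⁻¹)
      ((bp_c.comp continuous_snd).continuousOn.inv₀ fun z b =>
        bp_ne.2 ⟨by linarith [b.1], by linarith [b.2]⟩) k'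
    refine ⟨(L ∪ L') ×ˢ closedBall (0 : ℂ) 2, (l.union l').prod (isCompact_closedBall _ _),
      fun y (w : d.S.W × ℂ) e n q m => n ?_⟩
    have c : bp ‖w.2‖ ≠ 0 := fun c => infty_ne_coe _ ((F5_out H h (x := (y, w)) c).symm.trans q)
    have q' := (F5_in H h (x := (y, w)) c).symm.trans q
    refine ⟨?_, mem_closedBall_zero_iff.2 (bp_ne.1 c).2.le⟩
    rcases le_total ‖w.2‖ (5 / 4) with u | u
    · exact .inl (a _ _ _ _ _ (.inl (tt0 u)) e m q')
    rcases le_total ‖w.2‖ (3 / 2) with v | v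
    · exact .inr (a' () (y, w) ⟨u, v⟩ e m q')
    · exact .inl (a _ _ _ _ _ (.inr (tt1 v)) e m q')
  · by_cases c : bp ‖w.2‖ = 0
    · exact (F5_out H h c).trans (congrArg ((d.rs d.T).ls.sph.act g)
        (F5_out H h (x := (y, w)) c)).symm
    · refine ((F5_in H h c).trans ((HH_eq H h g _ (y, w)).trans ?_)).trans
        (congrArg ((d.rs d.T).ls.sph.act g) (F5_in H h (x := (y, w)) c)).symm
      change d.T.ls.sph.act _ (HH d (pa d (bp ‖w.2‖)⁻¹ (y, w))) = _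
      induction HH d (pa d (bp ‖w.2‖)⁻¹ (y, w)) using OnePoint.rec <;> rfl
end Pu

open Pu in
theorem push (H : PMS) : PUSH := by
  intro Γ Γ' _ _ _ _ _ _ d h
  have i1 : Icc (5 / 4 : ℝ) (3 / 2) ⊆ Ioo 1 2 := fun r a => ⟨by linarith [a.1], by linarith [a.2]⟩
  obtain ⟨t0, -⟩ := fam H h (isOpen_Ioi (a := (0 : ℝ))) (lt_irrefl (0 : ℝ))
    (fun r a => one_pos.trans (i1 a).1)
    (c := Prod.snd) continuousOn_snd (fun _ a => a) (fun _ _ a => by linarith) (fun _ => rfl)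
    fun _ => rfl
  have e : d.Th = an' d (Ioi 0) fun r => r := congrArg (FP.mk · _)
    (Set.ext fun x => and_congr_left' norm_pos_iff.symm)
  have c1 : ∀ z : I × ℝ, z.2 ∈ Ioo (1 : ℝ) 2 → 1 ≤ (1 - z.1) * (bp z.2)⁻¹ + z.1 * z.2 := fun z a => by
    have := one_le_inv₀ ((bp_nn _).lt_of_ne' (bp_ne.2 a)) |>.2 (bp_le z.2)
    nlinarith [z.1.2.1, z.1.2.2, a.1]
  obtain ⟨p5, p1, ht⟩ := fam H h isOpen_Ioo (fun a => by linarith [a.1]) i1
    (c := fun z => (1 - z.1) * (bp z.2)⁻¹ + z.1 * z.2)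
    (((by fun_prop : Continuous fun z : I × ℝ => (1 - z.1 : ℝ)).continuousOn.mul
      ((bp_c.comp continuous_snd).continuousOn.inv₀ fun z b => bp_ne.2 b)).add (by fun_prop))
    (fun z a => one_pos.trans_le (c1 z a)) (fun z a _ => c1 z a) (c₀ := fun r => (bp r)⁻¹)
    (c₁ := fun r => r) (fun _ => by simp) fun _ => by simp
  refine ⟨F5_pm H h, e ▸ t0, fun F r => e ▸ (t0.exc p1 (fun x a => ⟨one_pos.trans a.1.1, a.2⟩)
    (fun _ _ => rfl) fun x a z => ⟨i1 (mid H h a.1 (fun b => by linarith)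
      ((coe_vl a.2).symm.trans (congrArg _ z))), a.2⟩).tr (ht.sy.tr (p5.proper (F5_pm H h)
        (fun x a => (F5_in H h (bp_ne.2 a.1)).trans (coe_vl a.2).symm) (fun (x : Xs d) a => ?_) r))⟩
  by_cases c : bp ‖x.2.2‖ = 0
  · exact F5_out H h c
  · exact (F5_in H h c).trans (by_contra fun k => a ⟨bp_ne.1 c, k⟩)

end Crest.Agent.N218.D6

end
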