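import Crest.Agent.N218.D6.La0
import Crest.Agent.N218.D6.Pms
import Crest.Agent.N218.D6.Push
import Crest.Agent.N218.D7.OrbK
import Crest.Agent.N218.K.Stb

/-! Row 218, block D6 (helper33): the characters of the patched algebra. -/

set_option autoImplicit false
set_option linter.unusedVariables false
set_option linter.unusedSectionVars false

open Set OnePoint Filter Topology

noncomputable section

namespace Crest.Agent.N218.D6.La
open K Pu

/-- the truncated norm -/
def nu (ζ : OnePoint ℂ) : ℝ := OnePoint.rec 2 (fun z => min ‖z‖ 2) ζ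
/-- the radial retraction -/
def rr (ζ : OnePoint ℂ) : OnePoint ℂ := sc (max 1 (nu ζ), ζ)
/-- the phase -/
def th (ζ : OnePoint ℂ) : Circle := an (vl ζ)

theorem nu_c : Continuous nu := by
  rw [OnePoint.continuous_iff]
  refine ⟨tendsto_const_nhds.congr' ?_, continuous_norm.min continuous_const⟩
  rw [coclosedCompact_eq_cocompact]
  filter_upwards [(isCompact_closedBall (0 : ℂ) 2).compl_mem_cocompact] with z hz
  exact (min_eq_right (not_le.1 fun a => hz (mem_closedBall_zero_iff.2 a)).le).symm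

theorem rr_c : Continuous rr := continuous_iff_continuousAt.2 fun ζ =>
  ContinuousAt.comp (g := sc) (sc_at fun h => absurd h (one_pos.trans_le (le_max_left _ _)).ne')
    ((continuous_const.max nu_c).prodMk continuous_id).continuousAt

theorem nu_lt {ζ : OnePoint ℂ} (h : nu ζ < 2) : ∃ z : ℂ, ζ = z ∧ nu ζ = ‖z‖ := by
  induction ζ using OnePoint.rec with
  | infty => exact absurd h (lt_irrefl _)
  | coe z => exact ⟨z, rfl, min_eq_left (not_lt.1 fun a => h.not_ge (le_min a.le le_rfl))⟩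

theorem rr_eq {ζ : OnePoint ℂ} (h1 : 1 ≤ nu ζ) (h2 : nu ζ < 2) :
    rr ζ = OnePoint.some (th ζ : ℂ) := by
  obtain ⟨z, rfl, e⟩ := nu_lt h2
  have z0 : z ≠ 0 := fun a => by rw [e, a, norm_zero] at h1; exact absurd h1 (by norm_num)
  rw [rr, max_eq_right h1, e, sc_coe (norm_ne_zero_iff.2 z0)]
  refine congrArg _ ?_
  have : ((an z : Circle) : ℂ) = z / ‖z‖ :=
    congrArg (fun c : Circle => (c : ℂ)) (dif_neg z0 : an z = _)
  exact Eq.trans (by simp [div_eq_inv_mul]) this.symm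

theorem th_on : ContinuousOn th {ζ | 1 ≤ nu ζ ∧ nu ζ < 2} := fun ζ ⟨h1, h2⟩ => by
  obtain ⟨z, rfl, e⟩ := nu_lt h2
  have z0 : z ≠ 0 := fun a => by rw [e, a, norm_zero] at h1; exact absurd h1 (by norm_num)
  exact (ContinuousAt.comp (g := an) (an_on.continuousAt (isOpen_ne.mem_nhds z0))
    (vl_at (coe_ne_infty z))).continuousWithinAt

theorem bp_nu (z : ℂ) : bp (nu z) = bp ‖z‖ := by
  rcases le_total ‖z‖ 2 with h | h
  · exact congrArg bp (min_eq_left h)
  · rw [show nu z = 2 from min_eq_right h]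
    exact (by_contra fun a => (bp_ne.1 a).2.false).trans
      (by_contra fun a => (bp_ne.1 a).2.not_ge h : bp ‖z‖ = 0).symm

variable {Γ Γ' : Type} [Group Γ] [TopologicalSpace Γ] [Group Γ'] [TopologicalSpace Γ']
  [CompactSpace Γ] [CompactSpace Γ'] {d : LD Γ Γ'}

theorem nu_act (g : Γ) (ζ : OnePoint ℂ) : nu ((ch d.χ d.hχ).sph.act g ζ) = nu ζ := by
  induction ζ using OnePoint.rec with
  | infty => rfl
  | coe z =>
    change min ‖(d.χ g : ℂ) * z‖ 2 = min ‖z‖ 2
    rw [norm_mul, Circle.norm_coe, one_mul]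

theorem rr_act (g : Γ) (ζ : OnePoint ℂ) :
    rr ((ch d.χ d.hχ).sph.act g ζ) = (ch d.χ d.hχ).sph.act g (rr ζ) := by
  exact (congrArg (fun c => sc (E := ℂ) (max 1 c, (ch d.χ d.hχ).sph.act g ζ))
    (nu_act g ζ)).trans (sc_act (Rep.ch d.χ d.hχ) g _ ζ)

theorem fix (h : d.Ok) (g : Γ') (ζ : OnePoint ℂ) : (ch d.χ d.hχ).sph.act (d.φ g) ζ = ζ := by
  induction ζ using OnePoint.rec with
  | infty => rfl
  | coe z =>
    change OnePoint.some ((d.χ (d.φ g) : ℂ) * z) = _
    rw [(h.ker _).2 ⟨g, rfl⟩, Circle.coe_one, one_mul]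

theorem oH_c (h : d.Ok) : Continuous (opx (HH d)) := continuous_iff_continuousAt.2 fun x => by
  obtain ⟨K, k, n⟩ := exists_compact_mem_nhds x.1
  obtain ⟨a, b⟩ := sub pms h K k
  refine ContinuousOn.continuousAt (s := K ×ˢ univ) (continuousOn_iff_continuous_domRestrict.2
    (((continuous_opx a b).comp (f := fun z : (K ×ˢ univ : Set (Pa d × OnePoint d.S.W)) =>
      (⟨z.1.1, z.2.1⟩, z.1.2)) (by fun_prop)).congr ?_)) (prod_mem_nhds n univ_mem)
  rintro ⟨⟨p, w⟩, m⟩
  induction w using OnePoint.rec <;> rfl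

variable (d) in
/-- outer disc -/
def B1 : d.Y.Z × OnePoint (d.U.W × d.S.W) → OnePoint d.M1.W := opx fun x => OnePoint.some (d.b1 x)
variable (d) in
/-- inner disc -/
def B3 : d.Y.Z × OnePoint (d.U.W × d.S.W) → OnePoint d.M3.W := opx fun x => OnePoint.some (d.b3 x)

/-- evaluation -/
abbrev eV {T : Type} [TopologicalSpace T] (t : T) : C(T, ℂ) →ₐ[ℂ] ℂ :=
  ContinuousMap.evalAlgHom ℂ ℂ t

variable (P : Pat d)

/-- **the characters** -/
def X (y : d.Y.Z) (ζ : OnePoint ℂ) (η : OnePoint d.U.W) (v : OnePoint d.S.W) : P.R →ₐ[ℂ] ℂ :=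
  if nu ζ ≤ 5 / 4 then (eV (pt (YS d) d.M3.ls (y, rr ζ) (B3 d (y, wdg (η, v))))).comp P.e3
  else if 3 / 2 ≤ nu ζ then (eV (pt (YS d) d.M1.ls (y, rr ζ) (B1 d (y, wdg (η, v))))).comp P.e1
  else (eV (pt d.Y d.T.ls y (opx (HH d) ((y, th ζ, tt (nu ζ), vl η), v)))).comp P.τ

variable {y : d.Y.Z} {ζ : OnePoint ℂ} {η : OnePoint d.U.W} {v : OnePoint d.S.W} (a : P.R)

theorem X_lo (k : nu ζ ≤ 5 / 4) :
    X P y ζ η v a = P.e3 a (pt (YS d) d.M3.ls (y, rr ζ) (B3 d (y, wdg (η, v)))) := by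
  rw [X, if_pos k]; rfl

theorem X_hi (k : 3 / 2 ≤ nu ζ) :
    X P y ζ η v a = P.e1 a (pt (YS d) d.M1.ls (y, rr ζ) (B1 d (y, wdg (η, v)))) := by
  rw [X, if_neg (by linarith), if_pos k]; rfl

theorem X_mid (h : d.Ok) (h1 : 1 ≤ nu ζ) (h2 : nu ζ < 2) (k : η ≠ ∞) : X P y ζ η v a =
    P.τ a (pt d.Y d.T.ls y (opx (HH d) ((y, th ζ, tt (nu ζ), vl η), v))) := by
  obtain ⟨-, -, -, -, p1, p3, -⟩ := pms d h
  obtain ⟨η, rfl⟩ := ne_infty_iff_exists.1 k
  by_cases k3 : nu ζ ≤ 5 / 4
  · rw [X_lo P a k3, rr_eq h1 h2, tt0 k3]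
    induction v using OnePoint.rec with
    | infty => exact P.s3 a y _
    | coe v => exact (P.r3 a y _ _).trans (congrArg (fun e => P.τ a (pt d.Y d.T.ls y e))
        (p3 y _ η v).symm)
  by_cases k1 : 3 / 2 ≤ nu ζ
  · rw [X_hi P a k1, rr_eq h1 h2, tt1 k1]
    induction v using OnePoint.rec with
    | infty => exact P.s1 a y _
    | coe v => exact (P.r1 a y _ _).trans (congrArg (fun e => P.τ a (pt d.Y d.T.ls y e))
        (p1 y _ η v).symm)
  rw [X, if_neg k3, if_neg k1]; rfl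

theorem X_inf : X P y ζ η ∞ a = P.τ a (pt d.Y d.T.ls y ∞) := by
  unfold X
  split_ifs
  · rw [wdg_r]; exact P.s3 a y _
  · rw [wdg_r]; exact P.s1 a y _
  · rfl

theorem X_c (h : d.Ok) {T : Type} [TopologicalSpace T] {y : T → d.Y.Z} {ζ : T → OnePoint ℂ}
    {η : T → OnePoint d.U.W} {v : T → OnePoint d.S.W} (cy : Continuous y) (cζ : Continuous ζ)
    (cη : Continuous η) (cv : Continuous v)
    (k : ∀ t, 5 / 4 ≤ nu (ζ t) → nu (ζ t) ≤ 3 / 2 → η t ≠ ∞) :
    Continuous fun t => X P (y t) (ζ t) (η t) (v t) a := by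
  obtain ⟨-, -, p1, p3, -⟩ := pms d h
  have n := nu_c.comp cζ
  have w := cy.prodMk (continuous_wdg.comp (cη.prodMk cv))
  have z := cy.prodMk (rr_c.comp cζ)
  have c3 : ContinuousOn (fun t => X P (y t) (ζ t) (η t) (v t) a) {t | nu (ζ t) ≤ 5 / 4} :=
    ((P.e3 a).continuous.comp ((cont_pt (Y := YS d) (M := d.M3.ls)).comp
      (z.prodMk ((continuous_opx p3.ct p3.pr).comp w)))).continuousOn.congr fun t k => X_lo P a k
  have c1 : ContinuousOn (fun t => X P (y t) (ζ t) (η t) (v t) a) {t | 3 / 2 ≤ nu (ζ t)} :=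
    ((P.e1 a).continuous.comp ((cont_pt (Y := YS d) (M := d.M1.ls)).comp
      (z.prodMk ((continuous_opx p1.ct p1.pr).comp w)))).continuousOn.congr fun t k => X_hi P a k
  have c2 : ContinuousOn (fun t => X P (y t) (ζ t) (η t) (v t) a)
      {t | 5 / 4 ≤ nu (ζ t) ∧ nu (ζ t) ≤ 3 / 2} :=
    ((P.τ a).continuous.comp_continuousOn ((cont_pt (Y := d.Y) (M := d.T.ls)).comp_continuousOn
      (cy.continuousOn.prodMk ((oH_c h).comp_continuousOn ((cy.continuousOn.prodMk
        ((th_on.comp cζ.continuousOn fun t k => ⟨by linarith [k.1], by linarith [k.2]⟩).prodMk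
          ((tt_c.comp n).continuousOn.prodMk fun t m => (ContinuousAt.comp (g := vl)
            (vl_at (k t m.1 m.2)) cη.continuousAt).continuousWithinAt))).prodMk
              cv.continuousOn))))).congr
      fun t m => X_mid P a h (by linarith [m.1]) (by linarith [m.2]) (k t m.1 m.2)
  refine continuousOn_univ.1 (((c3.union_of_isClosed c1 (isClosed_le n continuous_const)
    (isClosed_le continuous_const n)).union_of_isClosed c2 ((isClosed_le n continuous_const).union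
    (isClosed_le continuous_const n)) ((isClosed_le continuous_const n).inter
      (isClosed_le n continuous_const))).mono fun t _ => ?_)
  rcases le_total (nu (ζ t)) (5 / 4) with a | a
  · exact .inl (.inl a)
  · exact (le_total (3 / 2) (nu (ζ t))).elim (fun b => .inl (.inr b)) fun b => .inr ⟨a, b⟩

theorem X_act (h : d.Ok) (g : Γ') : X P (d.Y.act (d.φ g) y) ζ (d.U.ls.sph.act (d.φ g) η)
    (d.S.ls.sph.act (d.φ g) v) a = X P y ζ η v a := by
  obtain ⟨-, -, p1, p3, -, -, p, -⟩ := pms d h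
  have w : wdg (d.U.ls.sph.act (d.φ g) η, d.S.ls.sph.act (d.φ g) v) =
      (d.rs (d.U.prod d.S)).ls.sph.act g (wdg (η, v)) := by
    induction η using OnePoint.rec <;> induction v using OnePoint.rec <;> rfl
  have s : ∀ (M : Rep Γ) (m : OnePoint M.W), (d.rs M).ls.sph.act g m = M.ls.sph.act (d.φ g) m :=
    fun M m => by induction m using OnePoint.rec <;> rfl
  have e : ∀ (M : Rep Γ) (m : OnePoint M.W), pt (YS d) M.ls (d.Y.act (d.φ g) y, rr ζ)
      ((d.rs M).ls.sph.act g m) = pt (YS d) M.ls (y, rr ζ) m := fun M m => by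
    refine Eq.trans ?_ (pt_act (Y := YS d) (M := M.ls) (d.φ g) (y, rr ζ) m)
    exact congrArg₂ (pt (YS d) M.ls) (Prod.ext rfl (fix h g _).symm) (s M m)
  unfold X
  split_ifs
  · exact congrArg (P.e3 a) ((congrArg _ ((congrArg (fun z => B3 d (_, z)) w).trans
      (p3.eqm.hf g y _))).trans (e d.M3 _))
  · exact congrArg (P.e1 a) ((congrArg _ ((congrArg (fun z => B1 d (_, z)) w).trans
      (p1.eqm.hf g y _))).trans (e d.M1 _))
  · refine congrArg (P.τ a) (Eq.trans (congrArg _ ?_) (pt_act (d.φ g) y _))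
    have : vl (E := d.U.W) (d.U.ls.sph.act (d.φ g) η) = d.U.ρ (d.φ g) (vl η) := by
      induction η using OnePoint.rec with
      | infty => exact (map_zero _).symm
      | coe η => rfl
    rw [this]
    induction v using OnePoint.rec with
    | infty => rfl
    | coe v => exact p g y _ _ _ v

variable (d) in
/-- the fixed part, outer -/
def i1 (n : (NN d).W) : d.M1.W := ((n.1, 0), n.2)
variable (d) in
/-- the fixed part, inner -/
def i3 (n : (NN d).W) : d.M3.W := ((n.1, 0), n.2)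

theorem map_c {A B : Type} [TopologicalSpace A] [TopologicalSpace B] [T2Space A] [T2Space B]
    {f : A → B} {g : B → A} (hf : Continuous f) (hg : Continuous g) (e : ∀ x, g (f x) = x) :
    Continuous (OnePoint.map f) := OnePoint.continuous_map hf (by
  rw [coclosedCompact_eq_cocompact, coclosedCompact_eq_cocompact]
  exact (Function.LeftInverse.isClosedEmbedding e hg hf).tendsto_cocompact)

/-- the characters on the fixed part -/
def Xf (y : d.Y.Z) (ζ : OnePoint ℂ) (n : OnePoint (NN d).W) : P.R →ₐ[ℂ] ℂ :=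
  if nu ζ ≤ 5 / 4 then (eV (pt (YS d) d.M3.ls (y, rr ζ) (OnePoint.map (i3 d) n))).comp P.e3
  else (eV (pt (YS d) d.M1.ls (y, rr ζ) (OnePoint.map (i1 d) n))).comp P.e1

theorem Xf_eq (n : OnePoint (NN d).W) : Xf P y ζ n a =
    if nu ζ ≤ 5 / 4 then P.e3 a (pt (YS d) d.M3.ls (y, rr ζ) (OnePoint.map (i3 d) n))
    else P.e1 a (pt (YS d) d.M1.ls (y, rr ζ) (OnePoint.map (i1 d) n)) := by
  unfold Xf; split_ifs <;> rfl

theorem e31 (h : d.Ok) (θ : Circle) (n : OnePoint (NN d).W) :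
    P.e3 a (pt (YS d) d.M3.ls (y, OnePoint.some (θ : ℂ)) (OnePoint.map (i3 d) n)) =
    P.e1 a (pt (YS d) d.M1.ls (y, OnePoint.some (θ : ℂ)) (OnePoint.map (i1 d) n)) := by
  induction n using OnePoint.rec with
  | infty => exact (P.s3 a y _).trans (P.s1 a y _).symm
  | coe n =>
    exact (P.r3 a y θ _).trans (Eq.trans (congrArg (fun z => P.τ a (pt d.Y d.T.ls y
      (wdg (z, OnePoint.some n.2)))) (h.e0 (y, θ) n.1).symm) (P.r1 a y θ (i1 d n)).symm)

theorem Xf_c (h : d.Ok) :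
    Continuous fun z : (d.Y.Z × OnePoint ℂ) × OnePoint (NN d).W => Xf P z.1.1 z.1.2 z.2 a := by
  have z : Continuous fun z : (d.Y.Z × OnePoint ℂ) × OnePoint (NN d).W => (z.1.1, rr z.1.2) :=
    continuous_fst.fst.prodMk (rr_c.comp continuous_fst.snd)
  simp only [Xf_eq]
  refine Continuous.if_le ((P.e3 a).continuous.comp ((cont_pt (Y := YS d) (M := d.M3.ls)).comp
    (z.prodMk ((map_c (g := fun m : d.M3.W => ((m.1.1, m.2) : (NN d).W)) ?_ ?_ fun _ => rfl).comp
      continuous_snd)))) ((P.e1 a).continuous.comp ((cont_pt (Y := YS d) (M := d.M1.ls)).comp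
    (z.prodMk ((map_c (g := fun m : d.M1.W => ((m.1.1, m.2) : (NN d).W)) ?_ ?_ fun _ => rfl).comp
      continuous_snd)))) (nu_c.comp continuous_fst.snd) continuous_const fun z k => ?_
  · exact (continuous_fst.prodMk continuous_const).prodMk continuous_snd
  · exact continuous_fst.fst.prodMk continuous_snd
  · exact (continuous_fst.prodMk continuous_const).prodMk continuous_snd
  · exact continuous_fst.fst.prodMk continuous_snd
  · rw [rr_eq (ζ := z.1.2) (by linarith) (by linarith)]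
    exact e31 P a h _ _

theorem Xf_act (g : Γ) (n : OnePoint (NN d).W) : Xf P (d.Y.act g y) ((ch d.χ d.hχ).sph.act g ζ)
    ((NN d).ls.sph.act g n) a = Xf P y ζ n a := by
  refine (Xf_eq P a _).trans (Eq.trans ?_ (Xf_eq P a _).symm)
  rw [nu_act, rr_act]
  split_ifs
  · refine congrArg (P.e3 a) (Eq.trans (congrArg _ ?_) (pt_act (Y := YS d) (M := d.M3.ls) g (y, rr ζ) _))
    induction n using OnePoint.rec with
    | infty => rfl
    | coe n => exact congrArg OnePoint.some (Prod.ext (Prod.ext rfl (map_zero (d.Z1.ρ g)).symm) rfl)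
  · refine congrArg (P.e1 a) (Eq.trans (congrArg _ ?_) (pt_act (Y := YS d) (M := d.M1.ls) g (y, rr ζ) _))
    induction n using OnePoint.rec with
    | infty => rfl
    | coe n => exact congrArg OnePoint.some (Prod.ext (Prod.ext rfl (map_zero (d.W1.ρ g)).symm) rfl)

theorem X_f (h : d.Ok) (w : d.W0.W) (z : d.Z0.W) :
    X P y ζ (OnePoint.some 0) (OnePoint.some ((w, 0), (z, 0))) a =
      Xf P y ζ (OnePoint.some (w, ((d.μ0 (y, z), 0), 0))) a := by
  have k0 : d.k (y, (0, 0)) = 0 := (h.k0 y _).2 rfl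
  have b1 : d.b1 (y, (0, ((w, 0), (z, 0)))) = i1 d (w, ((d.μ0 (y, z), 0), 0)) :=
    Prod.ext rfl (Prod.ext (h.m0 y z) ((sub_zero _).trans k0))
  rw [Xf_eq]
  split_ifs with k3
  · rw [X_lo P a k3]
    exact congrArg (fun m : d.M3.W => P.e3 a (pt (YS d) d.M3.ls (y, rr ζ) (OnePoint.some m)))
      (Prod.ext (Prod.ext rfl neg_zero) (Prod.ext (Prod.ext rfl neg_zero) ((sub_zero _).trans k0)))
  by_cases k1 : 3 / 2 ≤ nu ζ
  · rw [X_hi P a k1]
    exact congrArg (fun m : d.M1.W => P.e1 a (pt (YS d) d.M1.ls (y, rr ζ) (OnePoint.some m))) b1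
  rw [X_mid P a h (by linarith) (by linarith) (coe_ne_infty _), rr_eq (by linarith) (by linarith)]
  refine Eq.trans (congrArg (fun e => P.τ a (pt d.Y d.T.ls y e)) ?_) (P.r1 a y _ _).symm
  rw [← b1]
  refine Eq.trans ?_ ((pms d h).2.2.2.2.1 y _ _ _)
  change d.hh y _ _ 0 ((w, 0), (z, 0)) = _
  simp only [LD.hh, smul_zero] <;> rfl

variable (d) in
/-- the ray -/
def et (s : unitInterval) (y : d.Ym.Z) (ζ : OnePoint ℂ) : OnePoint d.U.W :=
  sc (bp (nu ζ) + (1 - (s : ℝ)), OnePoint.some ((s : ℝ) • d.u y))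

theorem et_0 (y : d.Ym.Z) : et d 0 y ζ = OnePoint.some 0 := by
  rw [et, sc_coe (by have := bp_nn (nu ζ); simp; linarith)]; simp

theorem et_1 (y : d.Ym.Z) : et d 1 y ζ = sc (bp (nu ζ), OnePoint.some (d.u y)) := by simp [et]

theorem et_c (h : d.Ok) :
    Continuous fun z : unitInterval × d.Ym.Z × OnePoint ℂ => et d z.1 z.2.1 z.2.2 :=
  continuous_iff_continuousAt.2 fun z => ContinuousAt.comp (g := sc) (sc_at fun a b => by
    have s : (z.1 : ℝ) = 1 := by linarith [bp_nn (nu z.2.2), z.1.2.2, show _ + _ = (0 : ℝ) from a]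
    have := coe_injective b
    rw [s, one_smul] at this
    exact h.u0 _ this)
    (((bp_c.comp (nu_c.comp continuous_snd.snd)).add (continuous_const.sub
      (continuous_subtype_val.comp continuous_fst))).prodMk (continuous_coe.comp
        ((continuous_subtype_val.comp continuous_fst).smul
          (d.u.continuous.comp continuous_snd.fst)))).continuousAt

theorem et_ne (s : unitInterval) (y : d.Ym.Z) (h1 : 5 / 4 ≤ nu ζ) (h2 : nu ζ ≤ 3 / 2) :
    et d s y ζ ≠ ∞ := by
  have := (bp_nn _).lt_of_ne' (bp_ne.2 ⟨(by linarith : 1 < nu ζ), by linarith⟩)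
  rw [et, sc_coe (by linarith [s.2.2])]; exact coe_ne_infty _

theorem et_act (h : d.Ok) (s : unitInterval) (g : Γ') (y : d.Ym.Z) :
    et d s (d.Ym.act g y) ζ = d.U.ls.sph.act (d.φ g) (et d s y ζ) := by
  refine Eq.trans ?_ (sc_act d.U (d.φ g) _ _)
  rw [et, h.hu, ← _root_.map_smul]; rfl

theorem X_1 (h : d.Ok) {F : H1 (Sb d.Ym d.SC) (Sb d.Ym (d.rs d.T).ls)} (r : Rg F d.F5)
    {ι : C((Sb d.Ym (d.rs d.T).ls).E, (Sb d.Y d.T.ls).E)} (hι : Mp d.i id ι) (y : d.Ym.Z) :
    X P (d.i y) ζ (et d 1 y ζ) v a = P.τ a (ι (F.f (pt d.Ym d.SC y (wdg (v, ζ))))) := by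
  have z : P.τ a (pt d.Y d.T.ls (d.i y) ∞) = P.τ a (ι (F.f (pt d.Ym d.SC y ∞))) := by
    rw [F.f_inf, hι]; rfl
  induction v using OnePoint.rec with
  | infty => exact (X_inf P a).trans z
  | coe v =>
  rw [et_1]
  by_cases b : bp (nu ζ) = 0
  · have e : X P (d.i y) ζ (sc (bp (nu ζ), OnePoint.some (d.u y))) v a =
        P.τ a (pt d.Y d.T.ls (d.i y) ∞) := by
      rw [b, sc_zero]
      rcases not_and_or.1 (fun m => bp_ne.2 m b) with m | m
      · rw [X_lo P a (by linarith [not_lt.1 m])]; exact P.s3 a _ _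
      · rw [X_hi P a (by linarith [not_lt.1 m])]; exact P.s1 a _ _
    refine e.trans ?_
    induction ζ using OnePoint.rec with
    | infty => exact z
    | coe ζ =>
      refine congrArg (P.τ a) (Eq.trans ?_ (congrArg ι (r y (v, ζ))).symm)
      exact ((hι y _).trans (congrArg (pt d.Y d.T.ls (d.i y))
        (F5_out pms h (x := (y, v, ζ)) ((bp_nu ζ).symm.trans b)))).symm
  · obtain ⟨m1, m2⟩ := bp_ne.1 b
    rw [X_mid P a h m1.le m2 (by rw [sc_coe b]; exact coe_ne_infty _), sc_coe b]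
    obtain ⟨ζ, rfl, e⟩ := nu_lt m2
    refine congrArg (P.τ a) (Eq.trans ?_ (congrArg ι (r y (v, ζ))).symm)
    rw [e] at b ⊢
    exact ((hι y _).trans (congrArg (pt d.Y d.T.ls (d.i y))
      (F5_in pms h (x := (y, v, ζ)) b))).symm

/-- **the characters** -/
theorem chr : CHR := by
  intro Γ Γ' _ _ _ _ _ _ d h P
  have s : ∀ (g : Γ') (ζ : OnePoint ℂ), (CT Γ').sph.act g ζ = ζ := fun g ζ => by
    induction ζ using OnePoint.rec <;> rfl
  have s' : ∀ (g : Γ') (m : OnePoint d.S.W),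
      (d.rs d.S).ls.sph.act g m = d.S.ls.sph.act (d.φ g) m := fun g m => by
    induction m using OnePoint.rec <;> rfl
  refine ⟨Orb.mkH ((d.Y'.prod (CT Γ').sph).prod (d.rs d.S).ls.sph)
    (fun z => X P z.1.1 z.1.2 (OnePoint.some 0) z.2) (fun a => X_c P a h continuous_fst.fst
      continuous_fst.snd continuous_const continuous_snd fun _ _ _ => coe_ne_infty _)
    (fun g z a => ?_), Orb.mkH ((YS d).prod (NN d).ls.sph) (fun z => Xf P z.1.1 z.1.2 z.2)
    (fun a => Xf_c P a h) fun g z a => Xf_act P a g z.2, fun a y ζ => X_inf P a,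
    fun a y ζ => ?_, fun a y n => ?_, fun a y n => ?_, fun a y ζ w z => X_f P a h w z,
    fun F r ρ' hρ ι hι ω => ?_⟩
  · refine Eq.trans ?_ (X_act P a h g)
    exact congr (congrArg DFunLike.coe (congr (congr (congrArg (X P _) (s g _))
      (congrArg OnePoint.some (map_zero _).symm)) (s' g _))) rfl
  · refine (Xf_eq P a _).trans ?_
    split_ifs
    · exact P.s3 a y _
    · exact P.s1 a y _
  · refine (Xf_eq P a _).trans ((if_neg (show ¬ (2 : ℝ) ≤ 5 / 4 by norm_num)).trans ?_)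
    exact congrArg (fun ζ => P.e1 a (pt (YS d) d.M1.ls (y, ζ) _)) (show rr ∞ = ∞ from sc_inf _)
  · have n0 : nu (OnePoint.some 0) = 0 := show min ‖(0 : ℂ)‖ 2 = 0 by simp
    refine (Xf_eq P a _).trans ((if_pos (n0.le.trans (by norm_num))).trans ?_)
    exact congrArg (fun ζ => P.e3 a (pt (YS d) d.M3.ls (y, ζ) _)) (show rr (OnePoint.some 0) =
      OnePoint.some 0 by rw [rr, n0, max_eq_left zero_le_one, sc_one])
  · have H := Orb.mkH_ht ((d.Ym.prod (CT Γ').sph).prod (d.rs d.S).ls.sph)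
      (fun t z => X P (d.i z.1.1) z.1.2 (et d t z.1.1 z.1.2) z.2)
      (fun a => X_c P a h (d.i.continuous.comp continuous_snd.fst.fst) continuous_snd.fst.snd
        ((et_c h).comp (continuous_fst.prodMk continuous_snd.fst)) continuous_snd.snd
        fun _ => et_ne _ _) (fun t g z a => by
          refine Eq.trans ?_ (X_act P a h g)
          exact congr (congrArg DFunLike.coe (congr (congr (congr (congrArg (X P) (h.hi g _))
            (s g _)) ((congrArg (et d t _) (s g _)).trans (et_act h t g _))) (s' g _))) rfl) ω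
    refine (ka_ka _ _ _ (fun a => ContinuousMap.ext fun e => ?_) ω).trans (H.trans ?_)
    · obtain ⟨⟨y, ζ⟩, v, rfl⟩ := pt_surj (Y := d.Ym.prod (CT Γ').sph) (M := (d.rs d.S).ls) e
      rw [ContinuousMap.compRightAlgHom_apply, ContinuousMap.comp_apply, hρ (y, ζ) v]
      exact congrArg (fun η => X P (d.i y) ζ η v a) (et_0 y).symm
    · rw [← pull_comp, ← pull_comp]
      refine (ka_ka _ _ _ (fun a => ContinuousMap.ext fun e => ?_) ω).symm
      obtain ⟨⟨y, ζ⟩, v, rfl⟩ := pt_surj (Y := d.Ym.prod (CT Γ').sph) (M := (d.rs d.S).ls) e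
      exact (X_1 P a h r hι y).symm

end Crest.Agent.N218.D6.La

end
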