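import Crest.Agent.N218.D6.La0
import Crest.Agent.N218.K.Pu2

/-! Row 218, block D6 (helper93): two Milnor patches. -/

set_option autoImplicit false
set_option linter.unusedVariables false
set_option linter.unusedSectionVars false

open Set OnePoint Crest.Agent.R204

noncomputable section

namespace Crest.Agent.N218.D6.La
open K K.Pup

namespace Pt

/-- the square of a fibre product -/
def fbSq {P Q R : Type} [CommRing P] [CommRing Q] [CommRing R] [Algebra ℂ P] [Algebra ℂ Q]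
    [Algebra ℂ R] (φ : AH P R) (ψ : AH Q R) : SQ (Fb φ ψ) P Q R where
  p1 := (fb1 φ ψ : Fb φ ψ →+* P)
  p2 := (fb2 φ ψ : Fb φ ψ →+* Q)
  al := (φ : P →+* R)
  be := (ψ : Q →+* R)
  comm := fb12
  lift := fb_ex
  inj _ _ := fb_ext

/-- extension from two compact pieces -/
theorem ext2 {X A B : Type} [TopologicalSpace X] [TopologicalSpace A] [TopologicalSpace B]
    [CompactSpace X] [T2Space X] [CompactSpace A] [CompactSpace B] (i : C(A, X)) (j : C(B, X))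
    (hi : Function.Injective i) (hj : Function.Injective j) (a : C(A, ℂ)) (b : C(B, ℂ))
    (h : ∀ u u', i u = j u' → a u = b u') :
    ∃ c : C(X, ℂ), (∀ u, c (i u) = a u) ∧ ∀ u, c (j u) = b u := by
  have k : IsCompact (range i ∪ range j) :=
    (isCompact_range i.continuous).union (isCompact_range j.continuous)
  have := isCompact_iff_compactSpace.1 k
  obtain ⟨c, c1, c2⟩ := exists_glue (X := ↥(range i ∪ range j))
    ⟨fun u => ⟨i u, .inl ⟨u, rfl⟩⟩, i.continuous.subtype_mk _⟩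
    ⟨fun u => ⟨j u, .inr ⟨u, rfl⟩⟩, j.continuous.subtype_mk _⟩
    (fun x => x.2.imp (fun ⟨u, e⟩ => ⟨u, Subtype.ext e⟩) fun ⟨u, e⟩ => ⟨u, Subtype.ext e⟩) a b
    (fun _ _ e => congrArg a (hi (congrArg Subtype.val e)))
    (fun _ _ e => congrArg b (hj (congrArg Subtype.val e))) fun _ _ e => h _ _ (congrArg Subtype.val e)
  obtain ⟨f, e⟩ := cr_surj (i := (⟨Subtype.val, continuous_subtype_val⟩ : C(↥(range i ∪ range j), X)))
    Subtype.val_injective c
  exact ⟨f, fun u => (DFunLike.congr_fun e ⟨_, .inl ⟨u, rfl⟩⟩).trans (c1 u),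
    fun u => (DFunLike.congr_fun e ⟨_, .inr ⟨u, rfl⟩⟩).trans (c2 u)⟩

/-- one patch -/
theorem one {X X₀ : Type} [TopologicalSpace X] [TopologicalSpace X₀] [CompactSpace X] (P : Ex X)
    (A : Ex X₀) (j : C(A.E, P.E)) (b : C(X₀, X)) (hj : Function.Injective j)
    (hs : ∀ x, j (A.s x) = P.s (b x)) (hc : ∀ c x, j c = P.s x → c = A.s (A.p c))
    {R : Type} [CommRing R] [Algebra ℂ R] (α : AH R C(A.E, ℂ)) (σ : AH R C(X, ℂ))
    (h : ∀ a x, α a (A.s x) = σ a (b x)) {ω : KC R} {x : KX P.E} (hx : P.Rd x)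
    (h0 : KA σ ω = 0) (h1 : pull j x = KA α ω) :
    ∃ (R' : Type) (_ : CommRing R') (_ : Algebra ℂ R') (e : AH R' C(P.E, ℂ)) (π : AH R' R)
      (ω' : KC R'), KA e ω' = x ∧ KA π ω' = ω ∧ (∀ a c, e a (j c) = α (π a) c) ∧
        ∀ a x, e a (P.s x) = σ (π a) x := by
  let ρ : AH C(P.E, ℂ) (Fb (cp A.s) (cp b)) :=
    fbHom _ _ (cp j) (cp P.s) fun f => ContinuousMap.ext fun x => congrArg f (hs x)
  let γ : AH R (Fb (cp A.s) (cp b)) := fbHom _ _ α σ fun a => ContinuousMap.ext (h a)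
  have sp : Function.Injective P.s := Function.LeftInverse.injective P.ps
  have sj : Function.Surjective ρ := fun z => by
    obtain ⟨c, c1, c2⟩ := ext2 j P.s hj sp (fb1 _ _ z) (fb2 _ _ z) fun u u' e => by
      have e1 := hc u u' e
      have e2 : u' = b (A.p u) := sp (by rw [← hs, ← e1, e])
      rw [e2]
      exact (congrArg _ e1).trans (DFunLike.congr_fun (fb12 z) (A.p u))
    exact ⟨c, fb_ext (ContinuousMap.ext c1) (ContinuousMap.ext c2)⟩
  have k : ka ρ x - ka γ ω = 0 := by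
    refine (fbSq (cp A.s) (cp b)).K0_inj (Ex837.stLift_of_section _
      (cp A.p : C(X₀, ℂ) →+* C(A.E, ℂ)) fun c => ContinuousMap.ext fun x => congrArg c (A.ps x)) ?_ ?_
    · change ka (fb1 _ _) _ = 0
      rw [map_sub, ka_comp ρ _ (cp j) fun _ => rfl, ka_comp γ _ α fun _ => rfl]
      exact sub_eq_zero.2 h1
    · change ka (fb2 _ _) _ = 0
      rw [map_sub, ka_comp ρ _ (cp P.s) fun _ => rfl, ka_comp γ _ σ fun _ => rfl]
      exact sub_eq_zero.2 (Eq.trans hx h0.symm)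
  obtain ⟨w, w1, w2⟩ := (fbSq ρ γ).K0_mid sj (a := x) (b := ω) (sub_eq_zero.1 k)
  exact ⟨Fb ρ γ, inferInstance, inferInstance, fb1 _ _, fb2 _ _, w, w1, w2,
    fun a c => DFunLike.congr_fun (congrArg (fb1 _ _) (fb12 a)) c,
    fun a x => DFunLike.congr_fun (congrArg (fb2 _ _) (fb12 a)) x⟩

variable {Γ Γ' : Type} [Group Γ] [TopologicalSpace Γ] [Group Γ'] [TopologicalSpace Γ']
  [CompactSpace Γ] [CompactSpace Γ'] (d : LD Γ Γ')

theorem act_c (g : Γ) (θ : Circle) : (ch d.χ d.hχ).sph.act g (OnePoint.some (θ : ℂ)) =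
    OnePoint.some ((d.χ g * θ : Circle) : ℂ) := congrArg OnePoint.some (Circle.coe_mul _ _).symm

/-- the equator -/
def eq0 : C(d.YC.Q, (YS d).Q) := GS.qmap d.YC (YS d)
  ⟨fun z : d.Y.Z × Circle => (z.1, OnePoint.some (z.2 : ℂ)), continuous_fst.prodMk
    (continuous_coe.comp (by fun_prop))⟩
  fun g z => ⟨g, Prod.ext rfl (act_c d g z.2)⟩
/-- the projection -/
def prY : C((YS d).Q, d.Y.Q) := GS.qmap (YS d) d.Y .fst fun g _ => ⟨g, rfl⟩

theorem side (M : LS Γ) (G : H1 (Sb d.YC M) (Sb d.YC d.T.ls)) (j : C((Sb d.YC M).E, (Sb (YS d) M).E))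
    (t : C((Sb d.YC d.T.ls).E, (Sb d.Y d.T.ls).E))
    (hj : Mp (fun z : d.Y.Z × Circle => (z.1, OnePoint.some (z.2 : ℂ))) id j) (ht : Mp Prod.fst id t)
    {R : Type} [CommRing R] [Algebra ℂ R] (τ : AH R C((Sb d.Y d.T.ls).E, ℂ)) {ω : KC R} {x l}
    (hx : (Sb (YS d) M).Rd x) (hl : (Sb d.Y d.T.ls).Rd l) (hω : KA τ ω = l)
    (e : pull j x = pull G.f (pull t l)) :
    ∃ (R' : Type) (_ : CommRing R') (_ : Algebra ℂ R') (e : AH R' C((Sb (YS d) M).E, ℂ))
      (π : AH R' R) (ω' : KC R'), KA e ω' = x ∧ KA π ω' = ω ∧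
        (∀ a c, e a (j c) = τ (π a) (t (G.f c))) ∧
        ∀ a y ζ, e a (pt (YS d) M (y, ζ) ∞) = τ (π a) (pt d.Y d.T.ls y ∞) := by
  obtain ⟨R', _, _, e, π, ω', a, b, c, f⟩ := one (Sb (YS d) M) (Sb d.YC M) j (eq0 d)
    (fun u u' e => by
      obtain ⟨⟨y, θ⟩, w, rfl⟩ := pt_surj u
      obtain ⟨⟨y', θ'⟩, w', rfl⟩ := pt_surj u'
      obtain ⟨g, a, b⟩ := pt_iff.1 ((hj _ _).symm.trans (e.trans (hj _ _)))
      exact pt_iff.2 ⟨g, Prod.ext (congrArg (fun z : (YS d).Z => z.1) a) (Circle.ext (coe_injective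
        ((act_c d g θ).symm.trans (congrArg (fun z : (YS d).Z => z.2) a)))), b⟩)
    (fun x => by obtain ⟨z, rfl⟩ := d.YC.pr_surj x; exact hj z ∞)
    (fun c x e => by
      obtain ⟨z, w, rfl⟩ := pt_surj c
      obtain ⟨z', rfl⟩ := (YS d).pr_surj x
      obtain ⟨g, -, b⟩ := pt_iff.1 ((hj _ _).symm.trans e)
      induction w using OnePoint.rec with
      | infty => rfl
      | coe w => exact absurd b (coe_ne_infty _))
    ((cp (t.comp G.f)).comp τ) ((cp ((Sb d.Y d.T.ls).s.comp (prY d))).comp τ)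
    (fun a x => by
      obtain ⟨z, rfl⟩ := d.YC.pr_surj x
      exact congrArg (τ a) ((congrArg t (G.f_inf z)).trans (ht z ∞))) (ω := ω) hx
    (by
      rw [← ka_ka (cp ((Sb d.Y d.T.ls).s.comp (prY d))) τ _ fun _ => rfl, hω]
      change pull ((Sb d.Y d.T.ls).s.comp (prY d)) l = 0
      rw [pull_cm, show pull (Sb d.Y d.T.ls).s l = 0 from hl, map_zero])
    (by
      rw [← ka_ka (cp (t.comp G.f)) τ _ fun _ => rfl, hω, e]
      exact (pull_cm G.f t l).symm)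
  exact ⟨R', _, _, e, π, ω', a, b, c, fun a y ζ => f a ((YS d).pr (y, ζ))⟩
end Pt
open Pt

theorem pat : PAT := by
  intro Γ Γ' _ _ _ _ _ _ d h G1 G3 j1 j3 t g1 g3 h1 h3 ht x1 x3 l r1 r3 rl e1 e3
  obtain ⟨R, _, _, a, π, ω, a1, a2, a3, a4⟩ := side d _ G1 j1 t h1 ht (AlgHom.id ℂ _) r1 rl
    (Pup.ka_id _ (fun _ => rfl) l) e1
  obtain ⟨R', _, _, b, π', ω', b1, b2, b3, b4⟩ := side d _ G3 j3 t h3 ht π r3 rl a2 e3
  refine ⟨⟨R', a.comp π', b, π.comp π', fun u y θ m => ?_, fun u y θ m => ?_, fun u => a4 (π' u),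
    b4⟩, ω', ?_, b1, ?_⟩
  · exact (congrArg (a (π' u)) (h1 (y, θ) (OnePoint.some m)).symm).trans ((a3 _ _).trans
      (congrArg (π (π' u)) ((congrArg t (g1 _ _)).trans (ht _ _))))
  · exact (congrArg (b u) (h3 (y, θ) (OnePoint.some m)).symm).trans ((b3 _ _).trans
      (congrArg (π (π' u)) ((congrArg t (g3 _ _)).trans (ht _ _))))
  · exact (ka_ka a π' _ (fun _ => rfl) ω').symm.trans (by rw [b2, a1])
  · exact (ka_ka π π' _ (fun _ => rfl) ω').symm.trans (by rw [b2, a2])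

end Crest.Agent.N218.D6.La

end
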