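import Crest.Agent.N218.D6.Lk0
import Crest.Agent.N218.D6.Kit
import Crest.Agent.N218.Pm.Loop

/-!
# Row 218, block D6, leaf LINK1 (helper45): frames
-/

set_option autoImplicit false
set_option linter.unusedVariables false
set_option linter.unusedSectionVars false
set_option maxHeartbeats 400000

open Set OnePoint

noncomputable section

namespace Crest.Agent.N218.D6.Lk

open K K.Cp Pm In
open Sk (Cn S3 X22 Frm Sat)

section slot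
variable {k n : ℕ} {E : Type} [NormedAddCommGroup E] [InnerProductSpace ℂ E]
  {s : Fin n → S3 × S3 → E} {π : X22 → E →L[ℂ] E} {a a' : Fin n → ℤ} (h : Frm π a a' s)
  (y : US 2 × US 2)
include h

theorem sl_w (e : V k E) (t : ℝ) : up s y (fi ((fo (dn s y e)).1, t • (fo (dn s y e)).2)) =
    fun i => π (hx y) ((e - (1 - t) • mn e) i) := by
  rw [← up_dn y h, dn_sub, dn_rsmul, ← mn_dn, ← fi_fo (dn s y e - _), fo_sub, fo_rsmul, fo_mn]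
  congr 2
  refine Prod.ext (by simp) ?_
  simp only [Prod.snd_sub, Prod.smul_snd]
  module

theorem sl_m (e : V k E) : up s y (fi (0, (fo (dn s y e)).2)) = mn fun i => π (hx y) (e i) := by
  rw [← fo_mn, fi_fo, ← mn_up, up_dn y h]

theorem sl_t (e : V k E) (t : ℝ) (i : Ix k) :
    up s y (fi (0, t • (fo (dn s y e)).2)) i = t • π (hx y) (mn e i) := by
  have : ((0, t • (fo (dn s y e)).2) : CC k n) = t • (0, (fo (dn s y e)).2) := by simp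
  rw [this, fi_rsmul, up_rsmul, ← fo_mn, fi_fo, mn_dn, up_dn y h]; rfl

theorem pi_pi (e : E) : π (hx y) (π (hx y) e) = π (hx y) e := by
  have := pi_up (k := 0) y h (dn s y fun _ => e) 0
  rwa [up_dn y h] at this

theorem dn_sw (c : CC k n) (e : V k E) :
    fo (dn s y fun i => up s y (fi c) i + (e i - π (hx y) (e i))) = c := by
  rw [← dn_pi y h]
  simp only [map_add, map_sub, pi_pi h, sub_self, add_zero, pi_up y h]
  rw [dn_up y h, fo_fi]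
end slot

theorem rep_ang {ζ : ℂ} (h : ζ ≠ 0) : ∃ j : ℤ, rep (ang ζ) = rt (an ζ) + j := by
  have : rt (an ζ) = ζ.arg / (2 * Real.pi) := by
    have e : (an ζ : ℂ) = ζ / ‖ζ‖ := congrArg (fun z : Circle => (z : ℂ)) (dif_neg h)
    rw [rt, e, div_eq_mul_inv ζ, ← Complex.ofReal_inv,
      Complex.arg_mul_real (inv_pos.2 (norm_pos_iff.2 h))]
  exact ⟨_, (Lo.rep_coe _).trans (by rw [this])⟩

section per
variable {k : ℕ} {E F : Type} [NormedAddCommGroup E] [InnerProductSpace ℂ E]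
  [FiniteDimensional ℂ E] [NormedAddCommGroup F] [InnerProductSpace ℂ F]
theorem per_all (p : E → Prop) (r : ℝ) (j : ℤ) (e : V k E) :
    (∀ i, p (Fo.g (-(r + j)) e i)) ↔ ∀ i, p (Fo.g (-r) e i) := by
  refine ⟨fun a i => ?_, fun a i => Data.g_per r j e i ▸ a _⟩
  have := a (i - ((-j : ℤ) : Ix k))
  rwa [Data.g_per, sub_add_cancel] at this
theorem per_g (f : E → F) (r : ℝ) (j : ℤ) (e : V k E) :
    Fo.g (r + j) (fun i => f (Fo.g (-(r + j)) e i)) = Fo.g r fun i => f (Fo.g (-r) e i) := by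
  rw [Fo.g_add, Lo.g_int]
  congr 1
  funext i
  change f (Fo.g (-(r + j)) e (i + j)) = _
  rw [Data.g_per, Int.cast_neg, add_neg_cancel_right]
end per

variable {k n n₁ n₂ m : ℕ} (D : Data X22 (Cn n₁) (Cn n₂))
  (s₁ : Fin n → S3 × S3 → Cn n₁) (s₂ : Fin n → S3 × S3 → Cn n₂) (y : US 2 × US 2)

/-- from coordinates -/
def U (c : CC k n × CC k n) : V k (Cn n₁ × Cn n₂) := pr (up s₁ y (fi c.1)) (up s₂ y (fi c.2))
/-- to coordinates -/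
def Dn (v : V k (Cn n₁ × Cn n₂)) : CC k n × CC k n := (fo (dn s₁ y (s1 v)), fo (dn s₂ y (s2 v)))
/-- the complement -/
def Q (v : V k (Cn n₁ × Cn n₂)) : V k (Cn n₁ × Cn n₂) := v - pv D (hx y) v

variable {D s₁ s₂} {a a' b b' : Fin n → ℤ} (h₁ : Frm D.π₁ a a' s₁) (h₂ : Frm D.π₂ b b' s₂)
include h₁ h₂

theorem Dn_sw (c : CC k n × CC k n) (v : V k (Cn n₁ × Cn n₂)) :
    Dn s₁ s₂ y (U s₁ s₂ y c + Q D y v) = c :=
  Prod.ext (dn_sw h₁ y c.1 (s1 v)) (dn_sw h₂ y c.2 (s2 v))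

theorem Q_sw (c : CC k n × CC k n) (v : V k (Cn n₁ × Cn n₂)) :
    Q D y (U s₁ s₂ y c + Q D y v) = Q D y v := by
  funext i
  refine Prod.ext ?_ ?_ <;>
    simp [Q, U, pv, N218.Pm.pr, pi_pi h₁, pi_pi h₂, pi_up y h₁, pi_up y h₂]

theorem U_Dn (v : V k (Cn n₁ × Cn n₂)) : U s₁ s₂ y (Dn s₁ s₂ y v) + Q D y v = v := by
  funext i
  refine Prod.ext ?_ ?_ <;> simp [Q, U, Dn, pv, N218.Pm.pr, fi_fo, up_dn y h₁, up_dn y h₂, s1, s2]

theorem U_eq (g : GG k) (c : CC k n × CC k n) :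
    U s₁ s₂ (ay (ph k g) y) (aw a a' (ph k g) c.1, aw b b' (ph k g) c.2) =
      fun i => U s₁ s₂ y c (i + g.1.toAdd) := by
  rw [U, up_ph h₁, up_ph h₂]; rfl

theorem Dn_eq (g : GG k) (v : V k (Cn n₁ × Cn n₂)) :
    Dn s₁ s₂ (ay (ph k g) y) (fun i => v (i + g.1.toAdd)) =
      (aw a a' (ph k g) (Dn s₁ s₂ y v).1, aw b b' (ph k g) (Dn s₁ s₂ y v).2) :=
  Prod.ext (dn_ph h₁ y g (s1 v)) (dn_ph h₂ y g (s2 v))

omit h₁ h₂ in
theorem Q_eq (g : GG k) (v : V k (Cn n₁ × Cn n₂)) :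
    Q D (ay (ph k g) y) (fun i => v (i + g.1.toAdd)) = fun i => Q D y v (i + g.1.toAdd) := by
  rw [Q, hx_ay]; rfl

omit h₁ h₂ in
theorem U_smul (t : ℝ) (c : CC k n × CC k n) : U s₁ s₂ y (t • c) = t • U s₁ s₂ y c := by
  rw [U, Prod.smul_fst, Prod.smul_snd, fi_rsmul, fi_rsmul, up_rsmul, up_rsmul]; rfl
omit h₁ h₂ in
theorem U_neg (c : CC k n × CC k n) : U s₁ s₂ y (-c) = -U s₁ s₂ y c := by
  rw [U, Prod.fst_neg, Prod.snd_neg, fi_neg, fi_neg, up_neg, up_neg]; rfl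
omit h₁ h₂ in
theorem Dn_smul (t : ℝ) (v : V k (Cn n₁ × Cn n₂)) : Dn s₁ s₂ y (t • v) = t • Dn s₁ s₂ y v :=
  Prod.ext ((congrArg fo (dn_rsmul s₁ y t (s1 v))).trans (fo_rsmul _ _))
    ((congrArg fo (dn_rsmul s₂ y t (s2 v))).trans (fo_rsmul _ _))
omit h₁ h₂ in
theorem Q_smul (t : ℝ) (v : V k (Cn n₁ × Cn n₂)) : Q D y (t • v) = t • Q D y v := by
  funext i
  refine Prod.ext ?_ ?_ <;> simp [Q, pv, smul_sub]

section ct
variable {T : Type} [TopologicalSpace T] {z : T → US 2 × US 2} (hz : Continuous z)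
include hz
theorem ct_U {c : T → CC k n × CC k n} (hc : Continuous c) :
    Continuous fun t => U s₁ s₂ (z t) (c t) :=
  continuous_pi fun i => ((continuous_apply i).comp (ct_up h₁ hz (ct_fi.comp hc.fst))).prodMk
    ((continuous_apply i).comp (ct_up h₂ hz (ct_fi.comp hc.snd)))
theorem ct_Dn {v : T → V k (Cn n₁ × Cn n₂)} (hv : Continuous v) :
    Continuous fun t => Dn s₁ s₂ (z t) (v t) :=
  (ct_fo.comp (ct_dn h₁ hz (continuous_pi fun i => ((continuous_apply i).comp hv).fst))).prodMk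
    (ct_fo.comp (ct_dn h₂ hz (continuous_pi fun i => ((continuous_apply i).comp hv).snd)))
theorem ct_Q {v : T → V k (Cn n₁ × Cn n₂)} (hv : Continuous v) :
    Continuous fun t => Q D (z t) (v t) :=
  (hv.sub (ct_U h₁ h₂ hz (ct_Dn h₁ h₂ hz hv))).congr fun t =>
    (eq_sub_of_add_eq' (U_Dn (z t) h₁ h₂ (v t))).symm
end ct

variable {c κ R₀ M : ℝ} (o : D.Ok c κ R₀ M) (S : Sat D) {kV : V k (Cn n₁ × Cn n₂) → Fin m → ℂ}
  (p : ℕ) (u : US m) (v : V k (Cn n₁ × Cn n₂)) {ζ : ℂ}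
include S

theorem g_pi (r t : ℝ) (i : Ix k) :
    Fo.g r (up s₁ y (fi ((Dn s₁ s₂ y v).1.1, t • (Dn s₁ s₂ y v).1.2))) i =
      D.π₁ (hx y) (Fo.g r (s1 (v - (1 - t) • mn v)) i) :=
  (congrArg (fun e => Fo.g r e i) (sl_w h₁ y (s1 v) t)).trans (Lo.g_N r _ _ i).symm

theorem dom (hζ : ζ ≠ 0) (t : ℝ) : ((hx y, ang ζ), v - (1 - t) • mn v) ∈ (D.Orb k).O ↔
    ∀ i, (hx y, Fo.g (-rt (an ζ))
      (up s₁ y (fi ((Dn s₁ s₂ y v).1.1, t • (Dn s₁ s₂ y v).1.2))) i) ∈ D.Ov := by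
  obtain ⟨j, e⟩ := rep_ang hζ
  change (∀ i, (hx y, Fo.g (-rep (ang ζ)) (s1 (v - (1 - t) • mn v)) i) ∈ D.Ov) ↔ _
  rw [e, per_all fun w => (hx y, w) ∈ D.Ov]
  exact forall_congr' fun i => by rw [g_pi y h₁ h₂ S, ← S.ov]

theorem main_O : ((y, u), (v, ζ)) ∈ (T2 D kV).O ↔
    ((y, u), (Dn s₁ s₂ y v, ζ)) ∈ (ld k D s₁ s₂ a a' b b' p kV).Th.O := by
  refine and_congr_right fun hζ => (dom y h₁ h₂ S v hζ _).trans ?_
  change _ ↔ wdg (OnePoint.map _ (gm k D s₁ s₂ y (an ζ)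
    ((Dn s₁ s₂ y v).1.1, tt ‖ζ‖ • (Dn s₁ s₂ y v).1.2)), OnePoint.some _) ≠ ∞
  rw [gm]
  split_ifs with i
  · exact iff_of_true i (coe_ne_infty _)
  · exact iff_of_false i fun n => n rfl

include o in
theorem main_f (K : KV k D kV) (i : ((y, u), (v, ζ)) ∈ (T2 D kV).O) :
    (T2 D kV).f ((y, u), (v, ζ)) =
      (U s₁ s₂ y (-((ld k D s₁ s₂ a a' b b' p kV).Th.f ((y, u), (Dn s₁ s₂ y v, ζ))).2.1,
        -((ld k D s₁ s₂ a a' b b' p kV).Th.f ((y, u), (Dn s₁ s₂ y v, ζ))).1) + Q D y v,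
      ((ld k D s₁ s₂ a a' b b' p kV).Th.f ((y, u), (Dn s₁ s₂ y v, ζ))).2.2) := by
  have i' := (dom y h₁ h₂ S v i.1 _).1 i.2
  obtain ⟨j, e⟩ := rep_ang i.1
  have A : (ld k D s₁ s₂ a a' b b' p kV).Th.f ((y, u), (Dn s₁ s₂ y v, ζ)) =
      (fo (dn s₂ y (Fo.g (rt (an ζ)) fun i => D.v (hx y, Fo.g (-rt (an ζ))
        (up s₁ y (fi ((Dn s₁ s₂ y v).1.1, tt ‖ζ‖ • (Dn s₁ s₂ y v).1.2))) i))) -
          (0, (1 - tt ‖ζ‖) • (Dn s₁ s₂ y v).2.2),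
        (mm k D s₁ s₂ y ((Dn s₁ s₂ y v).2.1, tt ‖ζ‖ • (Dn s₁ s₂ y v).2.2) -
          (0, (1 - tt ‖ζ‖) • (Dn s₁ s₂ y v).1.2),
        kV (pr (up s₁ y (fi (0, (Dn s₁ s₂ y v).1.2))) (up s₂ y (fi (0, (Dn s₁ s₂ y v).2.2)))) -
          ‖ζ‖ • u.1)) := by
    change vl (wdg (OnePoint.map _ (gm k D s₁ s₂ y (an ζ)
      ((Dn s₁ s₂ y v).1.1, tt ‖ζ‖ • (Dn s₁ s₂ y v).1.2)), OnePoint.some _)) = _
    rw [gm, if_pos i']; rfl
  rw [A]
  refine Prod.ext (funext fun l => Prod.ext ?_ ?_) ?_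
  · change s1 (v - (1 - tt ‖ζ‖) • mn v) l - D.π₁ (hx y) (s1 (v - (1 - tt ‖ζ‖) • mn v) l) -
      D.u (hx y, s2 (v - (1 - tt ‖ζ‖) • mn v) l) + (1 - tt ‖ζ‖) • mn (s1 v) l =
      up s₁ y (fi (-(_ - _))) l + (s1 v l - D.π₁ (hx y) (s1 v l))
    rw [fi_neg, up_neg, fi_sub, up_sub, mm, fi_fo, up_dn y h₁, Pi.neg_apply, Pi.sub_apply, S.u]
    have e1 := congrFun (sl_w h₂ y (s2 v) (tt ‖ζ‖)) l
    have e2 := sl_t h₁ y (s1 v) (1 - tt ‖ζ‖) l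
    have e3 := o.up (hx y) (s2 (v - (1 - tt ‖ζ‖) • mn v) l)
    refine Eq.trans ?_ (congrArg₂ (fun p q => -(D.u (hx y, p) - q) + _) e1 e2).symm
    refine Eq.trans ?_ (congrArg (fun p => -(p - _) + _) e3).symm
    change s1 v l - (1 - tt ‖ζ‖) • mn (s1 v) l - D.π₁ (hx y) (s1 v l - (1 - tt ‖ζ‖) • mn (s1 v) l) -
      _ + _ = _
    rw [map_sub, (D.π₁ (hx y)).map_smul_of_tower]
    abel
  · change s2 (v - (1 - tt ‖ζ‖) • mn v) l - D.π₂ (hx y) (s2 (v - (1 - tt ‖ζ‖) • mn v) l) -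
      Fo.g (rep (ang ζ)) (fun i => D.v (hx y, Fo.g (-rep (ang ζ))
        (s1 (v - (1 - tt ‖ζ‖) • mn v)) i)) l + (1 - tt ‖ζ‖) • mn (s2 v) l =
      up s₂ y (fi (-(_ - _))) l + (s2 v l - D.π₂ (hx y) (s2 v l))
    rw [e, per_g fun w => D.v (hx y, w), fi_neg, up_neg, fi_sub, up_sub, fi_fo,
      up_dn' y h₂ (pi_g y h₂ _ fun i => o.vp _ (i' i)), Pi.neg_apply, Pi.sub_apply]
    simp only [g_pi y h₁ h₂ S, S.v]
    have e2 := sl_t h₂ y (s2 v) (1 - tt ‖ζ‖) l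
    refine Eq.trans ?_ (congrArg (fun q => -(_ - q) + _) e2).symm
    change s2 v l - (1 - tt ‖ζ‖) • mn (s2 v) l - D.π₂ (hx y) (s2 v l - (1 - tt ‖ζ‖) • mn (s2 v) l) -
      _ + _ = _
    rw [map_sub, (D.π₂ (hx y)).map_smul_of_tower]
    abel
  · change kV (pv D (hx y) v) - _ = kV _ - _
    rw [← K.od]
    exact congrArg (fun w => kV w - _)
      (congrArg₂ N218.Pm.pr (sl_m h₁ y (s1 v)) (sl_m h₂ y (s2 v))).symm

end Crest.Agent.N218.D6.Lk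

end
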