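import Crest.Agent.N218.D6.Lk1
import Crest.Agent.N218.D6.Lk3
import Crest.Agent.N218.D3.Rep
import Crest.Agent.N218.Th.Fin

/-!
# Row 218, block D6 (helper45): the leaf LINK1
-/

set_option autoImplicit false
set_option linter.unusedVariables false
set_option maxHeartbeats 400000

open Set OnePoint Module

noncomputable section

namespace Crest.Agent.N218.D6.Lk

open K K.Cp Pm In
open Sk (Cn S3 X22 Frm Sat)

variable {k n n₁ n₂ : ℕ} (m : ℕ) {D : Data X22 (Cn n₁) (Cn n₂)}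
  {s₁ : Fin n → S3 × S3 → Cn n₁} {s₂ : Fin n → S3 × S3 → Cn n₂}
  {a a' b b' : Fin n → ℤ} (h₁ : Frm D.π₁ a a' s₁) (h₂ : Frm D.π₂ b b' s₂) (p : ℕ)
  (kV : V k (Cn n₁ × Cn n₂) → Fin m → ℂ)

variable (k) in
/-- passive factor -/
abbrev PV (E : Type) [NormedAddCommGroup E] [NormedSpace ℝ E] [FiniteDimensional ℝ E] :
    Rep (GG k) := (VV k E).prod (Rep.triv _ ℂ)
/-- the other passive factor -/
abbrev PS (d : LD GT (GG k)) : Rep (GG k) := (d.rs d.S).prod (Rep.triv _ ℂ)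

/-- the swap of the sources -/
def al : FI (YG k m) ((ld k D s₁ s₂ a a' b b' p kV).SC.prod (PV k (Cn n₁ × Cn n₂)).ls)
    ((VS k (Cn n₁ × Cn n₂)).prod (PS (ld k D s₁ s₂ a a' b b' p kV)).ls) where
  f x := ((U s₁ s₂ x.1.1 x.2.1.1 + Q D x.1.1 x.2.2.1, x.2.1.2), (Dn s₁ s₂ x.1.1 x.2.2.1, x.2.2.2))
  g x := ((Dn s₁ s₂ x.1.1 x.2.1.1, x.2.1.2), (U s₁ s₂ x.1.1 x.2.2.1 + Q D x.1.1 x.2.1.1, x.2.2.2))
  cf := (((ct_U h₁ h₂ continuous_fst.fst continuous_snd.fst.fst).add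
    (ct_Q h₁ h₂ continuous_fst.fst continuous_snd.snd.fst)).prodMk continuous_snd.fst.snd).prodMk
    ((ct_Dn h₁ h₂ continuous_fst.fst continuous_snd.snd.fst).prodMk continuous_snd.snd.snd)
  cg := ((ct_Dn h₁ h₂ continuous_fst.fst continuous_snd.fst.fst).prodMk
    continuous_snd.fst.snd).prodMk (((ct_U h₁ h₂ continuous_fst.fst continuous_snd.snd.fst).add
    (ct_Q h₁ h₂ continuous_fst.fst continuous_snd.fst.fst)).prodMk continuous_snd.snd.snd)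
  gf y w := Prod.ext (Prod.ext (Dn_sw y.1 h₁ h₂ _ _) rfl) (Prod.ext
    ((congrArg (_ + ·) (Q_sw y.1 h₁ h₂ _ _)).trans (U_Dn y.1 h₁ h₂ _)) rfl)
  fg y w := Prod.ext (Prod.ext ((congrArg (_ + ·) (Q_sw y.1 h₁ h₂ _ _)).trans
    (U_Dn y.1 h₁ h₂ _)) rfl) (Prod.ext (Dn_sw y.1 h₁ h₂ _ _) rfl)
  eq g y w := Prod.ext (Prod.ext (congrArg₂ (· + ·) (U_eq y.1 h₁ h₂ g w.1.1) (Q_eq y.1 g w.2.1))
    rfl) (Prod.ext (Dn_eq y.1 h₁ h₂ g w.2.1) rfl)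

theorem aw_neg (a a' : Fin n → ℤ) (g : GT) (c : CC k n) : -aw a a' g c = aw a a' g (-c) :=
  (((WE k a a').prod (WO k a a')).ρ g).map_neg c |>.symm

/-- the swap of the targets -/
def be : FI (YG k m) (((ld k D s₁ s₂ a a' b b' p kV).rs (ld k D s₁ s₂ a a' b b' p kV).T).ls.prod
      (PV k (Cn n₁ × Cn n₂)).ls)
    ((VT k m (Cn n₁ × Cn n₂)).ls.prod (PS (ld k D s₁ s₂ a a' b b' p kV)).ls) where
  f x := ((U s₁ s₂ x.1.1 (-(show CC k n from x.2.1.2.1), -(show CC k n from x.2.1.1)) +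
    Q D x.1.1 x.2.2.1, x.2.1.2.2), (Dn s₁ s₂ x.1.1 x.2.2.1, x.2.2.2))
  g x := ((-(Dn s₁ s₂ x.1.1 x.2.1.1).2, -(Dn s₁ s₂ x.1.1 x.2.1.1).1, x.2.1.2),
    (U s₁ s₂ x.1.1 x.2.2.1 + Q D x.1.1 x.2.1.1, x.2.2.2))
  cf := (((ct_U h₁ h₂ continuous_fst.fst ((Continuous.neg (G := CC k n)
    continuous_snd.fst.snd.fst).prodMk (Continuous.neg (G := CC k n) continuous_snd.fst.fst))).add
    (ct_Q h₁ h₂ continuous_fst.fst continuous_snd.snd.fst)).prodMk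
    continuous_snd.fst.snd.snd).prodMk
    ((ct_Dn h₁ h₂ continuous_fst.fst continuous_snd.snd.fst).prodMk continuous_snd.snd.snd)
  cg := ((ct_Dn h₁ h₂ continuous_fst.fst continuous_snd.fst.fst).snd.neg.prodMk
    ((ct_Dn h₁ h₂ continuous_fst.fst continuous_snd.fst.fst).fst.neg.prodMk
    continuous_snd.fst.snd)).prodMk (((ct_U h₁ h₂ continuous_fst.fst continuous_snd.snd.fst).add
    (ct_Q h₁ h₂ continuous_fst.fst continuous_snd.fst.fst)).prodMk continuous_snd.snd.snd)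
  gf y w := Prod.ext (Prod.ext
    ((congrArg (fun c : CC k n × CC k n => -c.2) (Dn_sw y.1 h₁ h₂ _ _)).trans (neg_neg _))
    (Prod.ext ((congrArg (fun c : CC k n × CC k n => -c.1) (Dn_sw y.1 h₁ h₂ _ _)).trans
      (neg_neg _)) rfl))
    (Prod.ext ((congrArg (_ + ·) (Q_sw y.1 h₁ h₂ _ _)).trans (U_Dn y.1 h₁ h₂ _)) rfl)
  fg y w := Prod.ext (Prod.ext ((congrArg₂ (· + ·) (congrArg (U s₁ s₂ y.1)
    (Prod.ext (neg_neg _) (neg_neg _))) (Q_sw y.1 h₁ h₂ _ _)).trans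
    (U_Dn y.1 h₁ h₂ _)) rfl) (Prod.ext (Dn_sw y.1 h₁ h₂ _ _) rfl)
  eq g y w := Prod.ext (Prod.ext (congrArg₂ (· + ·) ((congrArg (U s₁ s₂ _)
    (Prod.ext (aw_neg a a' _ w.1.2.1) (aw_neg b b' _ w.1.1))).trans (U_eq y.1 h₁ h₂ g
      (-(show CC k n from w.1.2.1), -(show CC k n from w.1.1)))) (Q_eq y.1 g w.2.1))
    rfl) (Prod.ext (Dn_eq y.1 h₁ h₂ g w.2.1) rfl)

theorem th_PV (E : Type) [NormedAddCommGroup E] [NormedSpace ℝ E] [FiniteDimensional ℝ E] {r : ℕ}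
    (h : finrank ℝ E = 2 * r) : ∃ l, (Sb (YG k m) (PV k E).ls).Th l := by
  obtain ⟨l, -, u, -⟩ := Cx.sp (hχ := cc (ck k)) (r := m) Th.thom (Fo.inc_inj _)
    (D3.Rp.cx_rr (k := k) h)
  have e : Eqv (Y' := YG k m) (Y := Sp (ck k) (cc _) m) (pg k)
    ⟨fun y : (US 2 × US 2) × US m => y.2, continuous_snd⟩ := fun _ _ => rfl
  obtain ⟨l', u', -⟩ := ut_even Th.thom (YG k m) ℂ 1 (by simp)
  exact ⟨_, ((u.pull (pg_ct k) e (e.mp (pg_ct k) _)).xm u').th⟩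

section
variable {m kV} {c κ R₀ M : ℝ} (o : D.Ok c κ R₀ M) (S : Sat D) (y : US 2 × US 2) (u : US m)
  {v q : V k (Cn n₁ × Cn n₂)} {ζ : ℂ} {w : CC k n × CC k n} (e : Dn s₁ s₂ y v = w)
include h₁ h₂ S e
theorem mO : ((y, u), (v, ζ)) ∈ (T2 D kV).O ↔
    ((y, u), (w, ζ)) ∈ (ld k D s₁ s₂ a a' b b' p kV).Th.O := by
  subst e; exact main_O y h₁ h₂ S p u v
include o in
theorem mf (K : KV k D kV) (e' : Q D y v = q)
    (i : ((y, u), (w, ζ)) ∈ (ld k D s₁ s₂ a a' b b' p kV).Th.O) :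
    (T2 D kV).f ((y, u), (v, ζ)) =
      (U s₁ s₂ y (-((ld k D s₁ s₂ a a' b b' p kV).Th.f ((y, u), (w, ζ))).2.1,
        -((ld k D s₁ s₂ a a' b b' p kV).Th.f ((y, u), (w, ζ))).1) + q,
      ((ld k D s₁ s₂ a a' b b' p kV).Th.f ((y, u), (w, ζ))).2.2) := by
  subst e e'; exact main_f y h₁ h₂ o S p u v K ((main_O y h₁ h₂ S p u v).2 i)
end

end Lk

open K Pm In Lk in
/-- **LINK1** from the change of normalisation -/
theorem link1_of (H : L1B) : LINK1 := by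
  intro k n n₁ n₂ D c κ R₀ M a a' b b' s₁ s₂ hk o S h₁ h₂ m p kV K d A δ hδ F lT lS e t s he
  obtain ⟨B, ht⟩ := H k n₁ n₂ m D c κ R₀ M kV δ o S K hδ F
  obtain ⟨lP, tP⟩ := th_PV (k := k) m (Sk.Cn n₁ × Sk.Cn n₂) (r := n₁ + n₂) (by
    rw [finrank_prod, finrank_real_of_complex, finrank_real_of_complex]; simp [mul_add])
  obtain ⟨lT', lS', t', s', e'⟩ := swap A B (PV k _) (PS _) (al m h₁ h₂ p kV) (be m h₁ h₂ p kV)
    (fun y r w => Prod.ext (Prod.ext ((congrArg₂ (· + ·) ((congrArg (U s₁ s₂ y.1)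
      (Prod.ext (smul_neg (A := CC k n) r _).symm (smul_neg (A := CC k n) r _).symm)).trans
      (U_smul y.1 r (_, _))) (Q_smul y.1 r _)).trans (smul_add _ _ _).symm) rfl)
      (Prod.ext (Dn_smul y.1 r _) rfl))
    (fun y w => mO h₁ h₂ p S y.1 y.2 (Dn_sw y.1 h₁ h₂ w.1.1 w.2.1))
    (fun y w i => Prod.ext (mf h₁ h₂ p o S y.1 y.2 (Dn_sw y.1 h₁ h₂ w.1.1 w.2.1) K
      (Q_sw y.1 h₁ h₂ w.1.1 w.2.1) i) rfl) tP s t s he
  exact ⟨lT', lS', 1, t', s', isUnit_one, by rw [one_mul, ← FP.pb_eq ht]; exact e'⟩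

end Crest.Agent.N218.D6

end
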