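import Crest.Agent.N218.D6.Defs
import Crest.Agent.N218.K.Stb
import Crest.Agent.N218.D7.OrbK

/-! Row 218, block D6 (helper32): double pushouts, products of fibrewise maps, the two discs. -/

set_option autoImplicit false
set_option linter.unusedVariables false

open Crest.Agent.R204.K357 Crest.Agent.R204.Ex837 unitInterval Topology Filter Set OnePoint

noncomputable section

namespace Crest.Agent.N218.D6.Lj

open K

/-- two spaces glued to `X0` -/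
structure T3 (X0 X1 X3 C1 C3 : Type) [TopologicalSpace X0] [TopologicalSpace X1]
    [TopologicalSpace X3] [TopologicalSpace C1] [TopologicalSpace C3] where
  j1 : C(C1, X1)
  g1 : C(C1, X0)
  j3 : C(C3, X3)
  g3 : C(C3, X0)

namespace T3
variable {X0 X1 X3 C1 C3 : Type} [TopologicalSpace X0] [TopologicalSpace X1]
  [TopologicalSpace X3] [TopologicalSpace C1] [TopologicalSpace C3] (D : T3 X0 X1 X3 C1 C3)

/-- functions on the first pushout -/
def S1 : Subalgebra ℂ (C(X0, ℂ) × C(X1, ℂ)) :=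
  AlgHom.equalizer ((cR D.j1).comp (AlgHom.snd ℂ _ _)) ((cR D.g1).comp (AlgHom.fst ℂ _ _))
/-- functions on the double pushout -/
def S3 : Subalgebra ℂ (C(X0, ℂ) × C(X1, ℂ) × C(X3, ℂ)) where
  carrier := {u | (∀ c, u.2.1 (D.j1 c) = u.1 (D.g1 c)) ∧ ∀ c, u.2.2 (D.j3 c) = u.1 (D.g3 c)}
  mul_mem' a b := ⟨fun c => congrArg₂ (· * ·) (a.1 c) (b.1 c),
    fun c => congrArg₂ (· * ·) (a.2 c) (b.2 c)⟩
  add_mem' a b := ⟨fun c => congrArg₂ (· + ·) (a.1 c) (b.1 c),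
    fun c => congrArg₂ (· + ·) (a.2 c) (b.2 c)⟩
  algebraMap_mem' _ := ⟨fun _ => rfl, fun _ => rfl⟩
/-- as a type -/
def W1 : Type := D.S1
/-- as a type -/
def W : Type := D.S3
instance : CommRing D.W1 := D.S1.toCommRing
instance : Algebra ℂ D.W1 := D.S1.algebra
instance : CommRing D.W := D.S3.toCommRing
instance : Algebra ℂ D.W := D.S3.algebra
/-- restriction -/
def q0 : D.W1 →ₐ[ℂ] C(X0, ℂ) := (AlgHom.fst ℂ _ _).comp D.S1.val
/-- restriction -/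
def q1 : D.W1 →ₐ[ℂ] C(X1, ℂ) := (AlgHom.snd ℂ _ _).comp D.S1.val
/-- restriction -/
def p0 : D.W →ₐ[ℂ] C(X0, ℂ) := (AlgHom.fst ℂ _ _).comp D.S3.val
/-- restriction -/
def p1 : D.W →ₐ[ℂ] C(X1, ℂ) := (AlgHom.fst ℂ _ _).comp ((AlgHom.snd ℂ _ _).comp D.S3.val)
/-- restriction -/
def p3 : D.W →ₐ[ℂ] C(X3, ℂ) := (AlgHom.snd ℂ _ _).comp ((AlgHom.snd ℂ _ _).comp D.S3.val)
/-- restriction -/
def pw : D.W →ₐ[ℂ] D.W1 := (D.p0.prod D.p1).codRestrict D.S1 fun u => ContinuousMap.ext u.2.1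

theorem c1 (u : D.W) (c : C1) : D.p1 u (D.j1 c) = D.p0 u (D.g1 c) := u.2.1 c
theorem c3 (u : D.W) (c : C3) : D.p3 u (D.j3 c) = D.p0 u (D.g3 c) := u.2.2 c

theorem mv {P A B C : Type} [CommRing P] [CommRing A] [CommRing B] [CommRing C] [Algebra ℂ P]
    [Algebra ℂ A] [Algebra ℂ B] [Algebra ℂ C] (p1 : P →ₐ[ℂ] A) (p2 : P →ₐ[ℂ] B) (al : A →ₐ[ℂ] C)
    (be : B →ₐ[ℂ] C) (comm : ∀ x, al (p1 x) = be (p2 x))
    (lift : ∀ a b, al a = be b → ∃ x, p1 x = a ∧ p2 x = b)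
    (inj : ∀ x y, p1 x = p1 y → p2 x = p2 y → x = y) (h : Function.Surjective al) {a : KC A}
    {b : KC B} (e : KA al a = KA be b) : ∃ x : KC P, KA p1 x = a ∧ KA p2 x = b :=
  Sq.K0_mid (P := P) (A := A) (B := B) (C := C)
    { p1 := p1, p2 := p2, al := al, be := be, comm := comm, lift := lift, inj := inj } h e

theorem m1 (b : D.W1) (c : C1) : b.1.2 (D.j1 c) = b.1.1 (D.g1 c) :=
  DFunLike.congr_fun (show cR D.j1 b.1.2 = cR D.g1 b.1.1 from b.2) c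

theorem patch [CompactSpace X1] [T2Space X1] [CompactSpace C1] [CompactSpace X3] [T2Space X3]
    [CompactSpace C3] (i1 : Function.Injective D.j1) (i3 : Function.Injective D.j3) {x0 : KX X0}
    {x1 : KX X1} {x3 : KX X3} (h1 : pull D.j1 x1 = pull D.g1 x0)
    (h3 : pull D.j3 x3 = pull D.g3 x0) :
    ∃ w : KC D.W, KA D.p0 w = x0 ∧ KA D.p1 w = x1 ∧ KA D.p3 w = x3 := by
  obtain ⟨v, a, b⟩ := mv (P := D.W1) (A := C(X1, ℂ)) (B := C(X0, ℂ)) (C := C(C1, ℂ))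
    D.q1 D.q0 (cR D.j1) (cR D.g1)
    (fun x => ContinuousMap.ext (D.m1 x)) (fun a b h => ⟨⟨(b, a), h⟩, rfl, rfl⟩)
    (fun _ _ h h' => Subtype.ext (Prod.ext h' h)) (cr_surj i1) h1
  obtain ⟨w, c, e⟩ := mv (P := D.W) (A := C(X3, ℂ)) (B := D.W1) (C := C(C3, ℂ))
    D.p3 D.pw (cR D.j3) ((cR D.g3).comp D.q0) (fun x => ContinuousMap.ext x.2.2)
    (fun a b h => ⟨⟨(b.1.1, b.1.2, a), D.m1 b, fun c =>
      DFunLike.congr_fun (show cR D.j3 a = cR D.g3 b.1.1 from h) c⟩, rfl, Subtype.ext rfl⟩)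
    (fun _ _ h h' => Subtype.ext (Prod.ext (congrArg D.q0 h') (Prod.ext (congrArg D.q1 h') h)))
    (cr_surj i3) (a := x3) (b := v)
    (h3.trans ((congrArg (pull D.g3) b.symm).trans (ka_comp (cR D.g3) D.q0 v).symm))
  exact ⟨w, (ka_comp D.q0 D.pw w).trans ((congrArg _ e).trans b),
    (ka_comp D.q1 D.pw w).trans ((congrArg _ e).trans a), c⟩

/-- compatible self-maps -/
def en (r0 : C(X0, X0)) (r1 : C(X1, X1)) (r3 : C(X3, X3))
    (h1 : ∀ c, ∃ c', r1 (D.j1 c) = D.j1 c' ∧ r0 (D.g1 c) = D.g1 c')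
    (h3 : ∀ c, ∃ c', r3 (D.j3 c) = D.j3 c' ∧ r0 (D.g3 c) = D.g3 c') : D.W →ₐ[ℂ] D.W :=
  (((cR r0).comp D.p0).prod (((cR r1).comp D.p1).prod ((cR r3).comp D.p3))).codRestrict D.S3
    fun u => ⟨fun c => by
      obtain ⟨c', a, b⟩ := h1 c
      change D.p1 u (r1 (D.j1 c)) = D.p0 u (r0 (D.g1 c))
      rw [a, b, c1], fun c => by
      obtain ⟨c', a, b⟩ := h3 c
      change D.p3 u (r3 (D.j3 c)) = D.p0 u (r0 (D.g3 c))
      rw [a, b, c3]⟩

open Classical in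
/-- evaluation in three pieces -/
def ev (n : ℝ) (a : X3) (b : X0) (c : X1) : D.W →ₐ[ℂ] ℂ :=
  if n ≤ 5 / 4 then (ContinuousMap.evalAlgHom ℂ ℂ a).comp D.p3 else
    if n ≤ 3 / 2 then (ContinuousMap.evalAlgHom ℂ ℂ b).comp D.p0 else
      (ContinuousMap.evalAlgHom ℂ ℂ c).comp D.p1

open Classical in
theorem ev_eq (n : ℝ) (a : X3) (b : X0) (c : X1) (u : D.W) : D.ev n a b c u =
    if n ≤ 5 / 4 then D.p3 u a else if n ≤ 3 / 2 then D.p0 u b else D.p1 u c := by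
  unfold ev; split_ifs <;> rfl

theorem ev_cont {Z : Type} [TopologicalSpace Z] {n : Z → ℝ} {a : Z → X3} {b : Z → X0} {c : Z → X1}
    (hn : Continuous n) (ha : Continuous a) (hb : ContinuousOn b {z | 5 / 4 ≤ n z ∧ n z ≤ 3 / 2})
    (hc : Continuous c) (h3 : ∀ z, n z = 5 / 4 → ∃ e, a z = D.j3 e ∧ b z = D.g3 e)
    (h1 : ∀ z, n z = 3 / 2 → ∃ e, c z = D.j1 e ∧ b z = D.g1 e) (u : D.W) :
    Continuous fun z => D.ev (n z) (a z) (b z) (c z) u := by
  classical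
  simp only [ev_eq]
  refine continuous_if_le hn continuous_const ((D.p3 u).continuous.comp ha).continuousOn ?_
    fun z e => ?_
  · refine (ContinuousOn.union_of_isClosed (s := {z | 5 / 4 ≤ n z ∧ n z ≤ 3 / 2})
      (t := {z | 3 / 2 ≤ n z}) (((D.p0 u).continuous.comp_continuousOn hb).congr fun z h => if_pos h.2)
      (((D.p1 u).continuous.comp hc).continuousOn.congr fun z h => ?_)
      ((isClosed_le continuous_const hn).inter (isClosed_le hn continuous_const))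
      (isClosed_le continuous_const hn)).mono fun z h => (le_total (n z) (3 / 2)).imp (⟨h, ·⟩) id
    by_cases k : n z ≤ 3 / 2
    · obtain ⟨e, a1, a2⟩ := h1 z (le_antisymm k h)
      refine (if_pos k).trans (show D.p0 u (b z) = D.p1 u (c z) from ?_)
      rw [a1, a2, c1]
    · exact if_neg k
  · obtain ⟨e', a1, a2⟩ := h3 z e
    rw [if_pos (by rw [e]; norm_num), a1, a2, c3]

end T3

theorem dec {X : Type} [TopologicalSpace X] {A : Ex X} {β : KX A.E} (h : A.Th β) (ν : KX A.E) :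
    ∃ a, ν = pull A.p (pull A.s ν) + A.sm a β := by
  obtain ⟨a, e⟩ := h.ex (x := ν - pull A.p (pull A.s ν)) (by
    unfold Ex.Rd; rw [map_sub, A.pull_sp, sub_self])
  exact ⟨a, by rw [← e]; ring⟩

theorem dec_inj {X : Type} [TopologicalSpace X] {A : Ex X} {β : KX A.E} (h : A.Th β)
    {a a' b b' : KX X} (e : pull A.p b + A.sm a β = pull A.p b' + A.sm a' β) : a = a' := by
  have k := congrArg (pull A.s) e
  rw [map_add, map_add, A.pull_sp, A.pull_sp, show pull A.s _ = 0 from h.1.sm a,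
    show pull A.s _ = 0 from h.1.sm a', add_zero, add_zero] at k
  rw [k, add_right_inj] at e
  exact h.inj e

variable {Γ Γ' : Type} [Group Γ] [TopologicalSpace Γ] [Group Γ'] [TopologicalSpace Γ']
  [CompactSpace Γ] [CompactSpace Γ']

section eqm
variable {Y : GS Γ} {V U W : LS Γ} {Y' : GS Γ'} {V' U' : LS Γ'} {φ : Γ → Γ'} {g : C(Y.Z, Y'.Z)}

theorem exists_pr (E : EqM Y V Y' V' φ g) (E' : EqM Y U Y' U' φ g) :
    ∃ F : EqM Y (V.prod U) Y' (V'.prod U') φ g,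
      (∀ y a b, F.f (y, wdg (a, b)) = wdg (E.f (y, a), E'.f (y, b))) ∧ ∀ x z, (Sb Y' V').Rd x →
        (Sb Y' U').Rd z → pull F.hm.f (xm x z) = xm (pull E.hm.f x) (pull E'.hm.f z) := by
  obtain ⟨G, hG⟩ := exists_desc
    (⟨fun z => (z.1, wdg z.2), continuous_fst.prodMk (continuous_wdg.comp continuous_snd)⟩ :
      C(Y.Z × OnePoint V.Z × OnePoint U.Z, Y.Z × OnePoint (V.Z × U.Z)))
    (fun z => let ⟨w, e⟩ := wdg_surj z.2; ⟨(z.1, w), Prod.ext rfl e⟩)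
    (⟨fun z => wdg (E.f (z.1, z.2.1), E'.f (z.1, z.2.2)), continuous_wdg.comp (by fun_prop)⟩ :
      C(Y.Z × OnePoint V.Z × OnePoint U.Z, OnePoint (V'.Z × U'.Z))) (by
    rintro ⟨y, a, b⟩ ⟨y', a', b'⟩ h
    obtain ⟨rfl, e⟩ : y = y' ∧ wdg (a, b) = wdg (a', b') := Prod.ext_iff.1 h
    have k : ∀ a b, a = ∞ ∨ b = ∞ → wdg (E.f (y, a), E'.f (y, b)) = ∞ := by
      rintro a b (rfl | rfl)
      · rw [E.hi]; rfl
      · rw [E'.hi]; exact wdg_r _
    rcases wdg_eq e with ⟨rfl, rfl⟩ | ⟨h1, h2⟩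
    · rfl
    · exact (k _ _ h1).trans (k _ _ h2).symm)
  have hG : ∀ y a b, G (y, wdg (a, b)) = wdg (E.f (y, a), E'.f (y, b)) := fun y a b => hG (y, a, b)
  refine ⟨⟨G, E.hg, fun γ y w => ?_, fun y => ?_⟩, hG, fun x z hx hz =>
    E.xm_nat E' _ (fun y w u => congrArg (pt Y' (V'.prod U') (g y)) (hG y w u)) hx hz⟩
  · obtain ⟨⟨a, b⟩, rfl⟩ := wdg_surj w
    refine (congrArg (fun w => G (_, w)) (wdg_act2 V U γ a b)).trans ((hG _ _ _).trans ?_)
    exact (congrArg₂ (fun p q => wdg (p, q)) (E.hf γ y a) (E'.hf γ y b)).trans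
      ((wdg_act2 V' U' (φ γ) _ _).symm.trans (congrArg _ (hG y a b).symm))
  · exact (hG y ∞ ∞).trans (by rw [E.hi]; rfl)

/-- over the identity -/
def h1 (E : EqM Y V Y W id (.id _)) : H1 (Sb Y V) (Sb Y W) where
  f := E.hm.f
  hp e := by obtain ⟨y, w, rfl⟩ := pt_surj e; rfl
  hs x := by
    obtain ⟨y, rfl⟩ := Y.pr_surj x
    exact congrArg (pt Y W y) (E.hi y)

/-- base change -/
def eB {Y₂ : GS Γ} (b : C(Y₂.Z, Y.Z)) (hb : ∀ γ y, b (Y₂.act γ y) = Y.act γ (b y)) (W : LS Γ) :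
    EqM Y₂ W Y W id b := ⟨.snd, hb, fun _ _ _ => rfl, fun _ => rfl⟩

/-- the identity -/
abbrev eI (Y : GS Γ) (W : LS Γ) : EqM Y W Y W id (.id _) := eB (.id _) (fun _ _ => rfl) W

theorem pull_eI (l : KS Y W) : pull (eI Y W).hm.f l = l := by
  rw [pull_congr (g := .id _) fun e => by obtain ⟨y, w, rfl⟩ := pt_surj e; rfl, pull_id]

/-- inclusion of the first factor -/
def eZ (Y : GS Γ) (V : LS Γ) (U : Rep Γ) : EqM Y V Y (V.prod U.ls) id (.id _) where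
  f := ⟨fun z => wdg (z.2, ((0 : U.W) : OnePoint U.W)), continuous_wdg.comp (by fun_prop)⟩
  hg _ _ := rfl
  hf γ y w := ((wdg_act2 V U.ls γ w ((0 : U.W) : OnePoint U.W)).trans
    (congrArg (fun a : U.W => wdg (V.sph.act γ w, (a : OnePoint U.W))) (map_zero (U.ρ γ)))).symm
  hi _ := rfl

theorem pull_eZ (U : Rep Γ) {l : KS Y V} {m : KS Y U.ls} (hl : (Sb Y V).Rd l)
    (hm : (Sb Y U.ls).Rd m) : pull (eZ Y V U).hm.f (xm l m) = (Sb Y V).sm (pull (z0 Y U) m) l := by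
  let G := (eB (Y := Y.prod U.ls.sph) (Y₂ := Y) ⟨fun y => (y, ((0 : U.W) : OnePoint U.W)), by fun_prop⟩
    (fun γ y => Prod.ext rfl (congrArg OnePoint.some (map_zero (U.ρ γ)).symm)) V).hm.f
  refine (pull_pull G (smd Y V U.ls).c _ (fun e => by
    obtain ⟨y, w, rfl⟩ := pt_surj e; rfl) _).symm.trans ?_
  refine (congrArg (pull G) ((smd Y V U.ls).c_mul hl hm)).trans ((map_mul _ _ _).trans ?_)
  exact (congrArg₂ (· * ·) (pull_pull_id G _ (fun e => by obtain ⟨y, w, rfl⟩ := pt_surj e; rfl) l)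
    (pull_sq G _ (Sb Y V).p (z0 Y U) (fun e => by obtain ⟨y, w, rfl⟩ := pt_surj e; rfl) m)).trans
    (mul_comm _ _)

theorem sm_xm (a : KX Y.Q) (l : KS Y V) (m : KS Y U) :
    xm ((Sb Y V).sm a l) m = (Sb Y _).sm a (xm l m) := (smd Y V U).sm_mul a l m
theorem xm_sm (a : KX Y.Q) (l : KS Y V) (m : KS Y U) :
    xm l ((Sb Y U).sm a m) = (Sb Y _).sm a (xm l m) := (smd Y V U).mul_sm a l m

end eqm

/-! ### the two discs -/

/-- the truncated norm -/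
def nr : C(OnePoint ℂ, ℝ) :=
  OnePoint.continuousMapMk ⟨fun v => min ‖v‖ 2, by fun_prop⟩ 2 (by
    rw [coclosedCompact_eq_cocompact, ← Metric.cobounded_eq_cocompact]
    refine tendsto_const_nhds.congr' ?_
    filter_upwards [(tendsto_norm_cobounded_atTop (E := ℂ)).eventually_ge_atTop 2] with v hv
    exact (min_eq_right hv).symm)

theorem nr_inf : nr ∞ = 2 := rfl
theorem nr_coe (v : ℂ) : nr v = min ‖v‖ 2 := rfl

/-- the folding of the sphere onto the disc -/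
def dk : C(OnePoint ℂ, Cp.UD) :=
  ⟨fun v => ⟨be v / (max ‖be v‖ (2 / 5) : ℝ), mem_closedBall_zero_iff.2 (by
      have : 0 < max ‖be v‖ (2 / 5) := lt_max_of_lt_right (by norm_num)
      rw [norm_div, Complex.norm_real, Real.norm_of_nonneg this.le, div_le_one this]
      exact le_max_left _ _)⟩,
    Continuous.subtype_mk (be.continuous.div (by fun_prop) fun v =>
      Complex.ofReal_ne_zero.2 (lt_max_of_lt_right (by norm_num)).ne') _⟩

theorem dk_inf : dk ∞ = ⟨0, by simp⟩ := Subtype.ext (zero_div _)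
theorem dk_zero : dk ((0 : ℂ) : OnePoint ℂ) = ⟨0, by simp⟩ :=
  Subtype.ext (by change be _ / _ = 0; rw [be_zero, zero_div])

theorem dk_an {v : ℂ} (h1 : 1 ≤ ‖v‖) (h2 : ‖v‖ ≤ 2) : (dk v : ℂ) = an v := by
  have h0 : v ≠ 0 := norm_pos_iff.1 (by linarith)
  have p := nsq_pos v
  have n : ‖be v‖ = ‖v‖ * (1 + ‖v‖ ^ 2)⁻¹ := by
    rw [be_coe, al_coe, norm_mul, Complex.norm_real, Real.norm_of_nonneg (inv_pos.2 p).le]
  have m : max ‖be v‖ (2 / 5) = ‖be v‖ :=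
    max_eq_left (by rw [n, ← div_eq_mul_inv, le_div_iff₀ p]; nlinarith)
  change be v / (max ‖be v‖ (2 / 5) : ℝ) = _
  rw [m, n, show (an v : ℂ) = v / ‖v‖ from congrArg Subtype.val (dif_neg h0), be_coe, al_coe,
    Complex.ofReal_mul]
  exact mul_div_mul_right _ _ (Complex.ofReal_ne_zero.2 (inv_pos.2 p).ne')

/-- the phase -/
def ph (ζ : OnePoint ℂ) : Circle := an (vl ζ)

theorem mid {ζ : OnePoint ℂ} (h1 : 1 ≤ nr ζ) (h2 : nr ζ < 2) :
    ∃ v : ℂ, ζ = v ∧ nr ζ = ‖v‖ ∧ (dk ζ : ℂ) = ph ζ := by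
  induction ζ using OnePoint.rec with
  | infty => exact absurd h2 (lt_irrefl _)
  | coe v =>
    rw [nr_coe] at h1 h2 ⊢
    have k : ‖v‖ < 2 := (min_lt_iff.1 h2).resolve_right (lt_irrefl _)
    exact ⟨v, rfl, min_eq_left k.le, dk_an (le_min_iff.1 h1).1 k.le⟩

theorem ph_cont : ContinuousOn ph {ζ | 5 / 4 ≤ nr ζ ∧ nr ζ ≤ 3 / 2} :=
  IsInducing.subtypeVal.continuousOn_iff.2
    ((continuous_subtype_val.comp dk.continuous).continuousOn.congr fun ζ h =>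
      let ⟨_, _, _, e⟩ := mid (ζ := ζ) (by linarith [h.1]) (by linarith [h.2]); e.symm)

theorem nr_act (χ : Γ →* Circle) (hχ : Continuous χ) (g : Γ) (ζ : OnePoint ℂ) :
    nr ((ch χ hχ).sph.act g ζ) = nr ζ := by
  induction ζ using OnePoint.rec with
  | infty => rfl
  | coe v =>
    change min ‖(χ g : ℂ) * v‖ 2 = min ‖v‖ 2
    rw [norm_mul, Circle.norm_coe, one_mul]

theorem dk_act (χ : Γ →* Circle) (hχ : Continuous χ) (g : Γ) (ζ : OnePoint ℂ) :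
    dk ((ch χ hχ).sph.act g ζ) = (Cp.Dk χ hχ).act g (dk ζ) := Subtype.ext (by
  change be _ / (max ‖be _‖ (2 / 5) : ℝ) = χ g * (be ζ / _)
  rw [be_act, norm_mul, Circle.norm_coe, one_mul, mul_div_assoc])

end Crest.Agent.N218.D6.Lj

end
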