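import Crest.Agent.N218.D6.Lj0

/-! Row 218, block D6 (helper32): the cut of `LOCA` (definitions and leaves). -/

set_option autoImplicit false
set_option linter.unusedVariables false
set_option linter.unusedSectionVars false

open Crest.Agent.R204.K357 unitInterval Topology Filter Set OnePoint

noncomputable section

namespace Crest.Agent.N218.D6.Lj

open K

variable {Γ Γ' : Type} [Group Γ] [TopologicalSpace Γ] [Group Γ'] [TopologicalSpace Γ']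
  [CompactSpace Γ] [CompactSpace Γ'] (d : LD Γ Γ')

/-- the external product for representations -/
def xr {Y : GS Γ} {V U : Rep Γ} (l : KS Y V.ls) (m : KS Y U.ls) : KS Y (V.prod U).ls :=
  xm (V := V.ls) (U := U.ls) l m
theorem ut_xr {Y : GS Γ} {V U : Rep Γ} {l : KS Y V.ls} {m : KS Y U.ls} (a : UT Y V.ls l)
    (b : UT Y U.ls m) : UT Y (V.prod U).ls (xr l m) :=
  show UT Y (V.ls.prod U.ls) (xm (V := V.ls) (U := U.ls) l m) from UT.xm a b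

/-- the disc bundle -/
abbrev YD : GS Γ := d.Y.prod (Cp.Dk d.χ d.hχ)
/-- the boundary of the disc -/
def jD : C(d.YC.Z, (YD d).Z) :=
  ⟨fun z : d.Y.Z × Circle => (z.1, (⟨z.2, mem_closedBall_zero_iff.2 (Circle.norm_coe _).le⟩ : Cp.UD)),
    continuous_fst.prodMk (Continuous.subtype_mk (continuous_subtype_val.comp continuous_snd) _)⟩
/-- inclusion of sphere bundles -/
def jE (M : LS Γ) : EqM d.YC M (YD d) M id (jD d) := eB (jD d) (fun _ _ => rfl) M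
/-- base change to the disc bundle -/
def bD (M : LS Γ) : EqM (YD d) M d.Y M id .fst := eB (Y₂ := YD d) .fst (fun _ _ => rfl) M
/-- a gluing map -/
def gE {M : LS Γ} {g : d.YC.Z × M.Z → OnePoint d.T.W} (p : Pm d.YC M d.T.ls g) :
    EqM d.YC M d.Y d.T.ls id .fst := ⟨p.eqm.f, fun _ _ => rfl, p.eqm.hf, p.eqm.hi⟩
/-- restriction of a class to the small group -/
def rs {V : Rep Γ} (l : KS d.Y V.ls) : KS d.Y' (d.rs V).ls :=
  pull (Eqv.eqm (Y := d.Y) (Y' := d.Y') d.hφ (g := .id _) (fun _ _ => rfl) V.ls).hm.f l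
/-- the fixed part -/
abbrev N : Rep Γ := d.W0.prod d.R
/-- the line -/
abbrev L : LS Γ := ch d.χ d.hχ
/-- the line for the small group -/
abbrev L' : LS Γ' := LS.triv Γ' ℂ
/-- inclusion of the fixed part -/
def I1 (n : (N d).W) : d.M1.W := ((n.1, 0), n.2)
/-- inclusion of the fixed part -/
def I3 (n : (N d).W) : d.M3.W := ((n.1, 0), n.2)
/-- the cylinder -/
def hz (x : (d.Y.Z × OnePoint ℂ) × (d.U.W × d.S.W)) : OnePoint d.T.W :=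
  d.hh x.1.1 (ph x.1.2) (tt (nr x.1.2)) x.2.1 x.2.2

/-- the Thom classes -/
structure Cl where
  W0 : KS d.Y d.W0.ls
  W1 : KS d.Y d.W1.ls
  Z0 : KS d.Y d.Z0.ls
  Z1 : KS d.Y d.Z1.ls
  U : KS d.Y d.U.ls
  q : KS d.Y (L d)
  uW0 : UT d.Y d.W0.ls W0
  uW1 : UT d.Y d.W1.ls W1
  uZ0 : UT d.Y d.Z0.ls Z0
  uZ1 : UT d.Y d.Z1.ls Z1
  uU : UT d.Y d.U.ls U
  uq : UT d.Y (L d) q

variable {d}
namespace Cl
variable (c : Cl d)
def W : KS d.Y d.W.ls := xr c.W0 c.W1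
def Z : KS d.Y d.Z.ls := xr c.Z0 c.Z1
def R : KS d.Y d.R.ls := xr c.W c.U
def T : KS d.Y d.T.ls := xr c.Z c.R
def M1 : KS d.Y d.M1.ls := xr c.W c.R
def M3 : KS d.Y d.M3.ls := xr (xr c.W0 c.Z1) c.R
def N : KS d.Y (N d).ls := xr c.W0 c.R
def S : KS d.Y d.S.ls := xr c.W c.Z
theorem uW : UT d.Y d.W.ls c.W := ut_xr c.uW0 c.uW1
theorem uZ : UT d.Y d.Z.ls c.Z := ut_xr c.uZ0 c.uZ1
theorem uR : UT d.Y d.R.ls c.R := ut_xr c.uW c.uU
theorem uT : UT d.Y d.T.ls c.T := ut_xr c.uZ c.uR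
theorem uM1 : UT d.Y d.M1.ls c.M1 := ut_xr c.uW c.uR
theorem uM3 : UT d.Y d.M3.ls c.M3 := ut_xr (ut_xr c.uW0 c.uZ1) c.uR
theorem uN : UT d.Y (Lj.N d).ls c.N := ut_xr c.uW0 c.uR
theorem uS : UT d.Y d.S.ls c.S := ut_xr c.uW c.uZ
/-- Euler classes -/
def eW : KX d.Y.Q := pull (z0 d.Y d.W1) c.W1
def eZ : KX d.Y.Q := pull (z0 d.Y d.Z1) c.Z1
def eU : KX d.Y.Q := pull (z0 d.Y d.U) c.U
def eq : KX d.Y.Q := pull (z0 d.Y (Rep.ch d.χ d.hχ)) c.q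
end Cl

theorem ut_rs {V : Rep Γ} {l : KS d.Y V.ls} (u : UT d.Y V.ls l) : UT d.Y' (d.rs V).ls (rs d l) :=
  u.pull d.hφ (Y' := d.Y') (g := .id _) (fun _ _ => rfl) (Eqv.mp d.hφ _ _)

/-- the trivialisation of the line over the small group -/
def bL (h : d.Ok) : EqM d.Y' (L' (Γ' := Γ')) d.Y (L d) d.φ (.id _) where
  f := .snd
  hg _ _ := rfl
  hf g y w := by
    induction w using OnePoint.rec with
    | infty => rfl
    | coe w =>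
      refine congrArg OnePoint.some (show w = (L d).act (d.φ g) w from ?_)
      exact ((ch_act _ _ _ w).trans (by rw [(h.ker _).2 ⟨g, rfl⟩]; exact one_mul (show ℂ from w))).symm
  hi _ := rfl

variable (H : PMS) (h : d.Ok)

/-- the gluing data -/
def D3 : T3 (Sb d.Y d.T.ls).E (Sb (YD d) d.M1.ls).E (Sb (YD d) d.M3.ls).E (Sb d.YC d.M1.ls).E
    (Sb d.YC d.M3.ls).E where
  j1 := (jE d _).hm.f
  g1 := (gE d (H d h).1).hm.f
  j3 := (jE d _).hm.f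
  g3 := (gE d (H d h).2.1).hm.f

/-- evaluation over a point of the sphere -/
def ev3 (y : d.Y.Z) (ζ : OnePoint ℂ) (a : OnePoint d.M3.W) (b : OnePoint d.T.W)
    (c : OnePoint d.M1.W) : (D3 H h).W →ₐ[ℂ] ℂ :=
  (D3 H h).ev (nr ζ) (pt (YD d) d.M3.ls (y, dk ζ) a) (pt d.Y d.T.ls y b)
    (pt (YD d) d.M1.ls (y, dk ζ) c)
/-- evaluation on the fixed part -/
def evN (y : d.Y.Z) (ζ : OnePoint ℂ) (n : OnePoint (N d).W) : (D3 H h).W →ₐ[ℂ] ℂ :=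
  ev3 H h y ζ (OnePoint.map (I3 d) n) (opx d.g1 ((y, ph ζ), OnePoint.map (I1 d) n))
    (OnePoint.map (I1 d) n)
/-- evaluation on the source -/
def evS (y : d.Y.Z) (ζ : OnePoint ℂ) (e : OnePoint (d.U.W × d.S.W)) : (D3 H h).W →ₐ[ℂ] ℂ :=
  ev3 H h y ζ (opx (fun x => (d.b3 x : OnePoint d.M3.W)) (y, e)) (opx (hz d) ((y, ζ), e))
    (opx (fun x => (d.b1 x : OnePoint d.M1.W)) (y, e))

/-- the map on the fixed part -/
def IsN (ι : (D3 H h).W →ₐ[ℂ] C((smd d.Y (N d).ls (L d)).P.E, ℂ)) : Prop :=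
  ∀ u y ζ n, ι u (pt (d.Y.prod (L d).sph) (N d).ls (y, ζ) n) = evN H h y ζ n u
/-- the map on the source -/
def IsS (ι : (D3 H h).W →ₐ[ℂ] C((smd d.Y' (d.rs d.S).ls L').P.E, ℂ)) : Prop :=
  ∀ u y ζ (v : OnePoint d.S.W), ι u (pt (d.Y'.prod L'.sph) (d.rs d.S).ls (y, ζ) v) =
    evS H h y ζ (wdg (((0 : d.U.W) : OnePoint d.U.W), v)) u

/-- the patched class -/
structure Pat (c : Cl d) (w : KC (D3 H h).W) (κ1 κ3 : KX d.Y.Q) : Prop where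
  p0 : KA (D3 H h).p0 w = c.T
  p1 : KA (D3 H h).p1 w = pull (bD d d.M1.ls).hm.f ((Sb d.Y d.M1.ls).sm κ1 c.M1)
  p3 : KA (D3 H h).p3 w = pull (bD d d.M3.ls).hm.f ((Sb d.Y d.M3.ls).sm κ3 c.M3)
  /-- `w` is reduced -/
  rd : ∀ (B : Type) [TopologicalSpace B] (f : (D3 H h).W →ₐ[ℂ] C(B, ℂ)),
    (∀ b, ∃ y ζ, ∀ u, f u b = ev3 H h y ζ ∞ ∞ ∞ u) → KA f w = 0
  k3 : ∀ G : EqM d.Y' (d.rs d.W0).ls d.Y d.Z0.ls d.φ (.id _),
    (∀ y (v : d.W0.W), G.f (y, (v : OnePoint d.W0.W)) = d.γ0 ((y, 1), v)) →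
    pull G.hm.f c.Z0 = (Sb d.Y' _).sm (pull d.π κ3) (rs d c.W0)

set_option hygiene false in
/-- quantify -/
local macro "∀L " t:term : term =>
  `(∀ {Γ Γ' : Type} [Group Γ] [TopologicalSpace Γ] [CompactSpace Γ] [Group Γ'] [TopologicalSpace Γ']
    [CompactSpace Γ'] (d : LD Γ Γ') (H : PMS) (h : d.Ok), $t)

/-- leaf GN -/
def GN : Prop := ∀L ∃ ι, IsN H h ι
/-- leaf GS -/
def GS' : Prop := ∀L
  (∀ g y ζ e u, evS H h (d.Y.act (d.φ g) y) ζ ((d.U.prod d.S).ls.sph.act (d.φ g) e) u =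
    evS H h y ζ e u) ∧
  ∀ (Q : Type) [TopologicalSpace Q] [CompactSpace Q] (y : Q → d.Y.Z) (ζ : Q → OnePoint ℂ)
    (η : Q → OnePoint d.U.W), Continuous y → Continuous ζ → Continuous η →
    (∀ q, 5 / 4 ≤ nr (ζ q) → nr (ζ q) ≤ 3 / 2 → η q ≠ ∞) → ∀ u,
    Continuous fun x : Q × OnePoint d.S.W => evS H h (y x.1) (ζ x.1) (wdg (η x.1, x.2)) u
/-- leaf PAT -/
def PAT : Prop := ∀L Function.Surjective (pull d.π) → ∀ c : Cl d, ∃ w κ1 κ3, Pat H h c w κ1 κ3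
/-- leaf POL -/
def POL : Prop := ∀L ∀ (c : Cl d) w κ1 κ3 ι, Pat H h c w κ1 κ3 → IsN H h ι → ∃ x,
  x * c.eq = κ3 * c.eZ - κ1 * c.eW ∧ KA ι w = (smd d.Y (N d).ls (L d)).P.sm
    (pull (Sb d.Y (L d)).p (κ1 * c.eW) + (Sb d.Y (L d)).sm x c.q) (pull (smd d.Y (N d).ls (L d)).q c.N)
/-- the degree on the source -/
def Dg (c : Cl d) (ω : KX (smd d.Y' (d.rs d.S).ls L').P.E) (a : KX d.Y'.Q) : Prop :=
  ∃ al, ω = (smd d.Y' (d.rs d.S).ls L').P.sm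
    (pull (Sb d.Y' L').p al + (Sb d.Y' L').sm a (pull (bL h).hm.f c.q))
    (pull (smd d.Y' (d.rs d.S).ls L').q (rs d c.S))
/-- leaf ZER -/
def ZER : Prop := ∀L d.Uni → ∀ (c : Cl d) w κ1 κ3 ι ι' x b a, Pat H h c w κ1 κ3 → IsN H h ι →
  IsS H h ι' → KA ι w = (smd d.Y (N d).ls (L d)).P.sm
    (pull (Sb d.Y (L d)).p b + (Sb d.Y (L d)).sm x c.q) (pull (smd d.Y (N d).ls (L d)).q c.N) →
  Dg h c (KA ι' w) a → ∃ κw, IsUnit (pull d.π κ3) ∧ IsUnit κw ∧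
    pull d.π c.eZ * pull d.π c.eW * a = pull d.π c.eU * pull d.π x * κw * pull d.π c.eW
/-- leaf END -/
def END : Prop := ∀L ∀ (c : Cl d) w κ1 κ3 ι' a, Pat H h c w κ1 κ3 → IsS H h ι' →
  Dg h c (KA ι' w) a → d.Th.Ok ∧ ∃ lT lS, UT d.Ym (d.rs d.T).ls lT ∧ UT d.Ym d.SC lS ∧
    d.Th.pb lT = (Sb _ _).sm (pull (d.ρ h) a) lS

end Crest.Agent.N218.D6.Lj

end
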