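import Crest.Agent.N218.D6.Lj1

/-! Row 218, block D6 (helper32): assembly of `LOCA` from its leaves. -/

set_option autoImplicit false
set_option linter.unusedVariables false
set_option linter.unusedSectionVars false

open Crest.Agent.R204.K357 unitInterval Topology Filter Set OnePoint

noncomputable section

namespace Crest.Agent.N218.D6.Lj

open K

variable {Γ Γ' : Type} [Group Γ] [TopologicalSpace Γ] [Group Γ'] [TopologicalSpace Γ']
  [CompactSpace Γ] [CompactSpace Γ'] {d : LD Γ Γ'}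

/-- the line is trivial for the small group -/
def iL (h : d.Ok) : (L' (Γ' := Γ')).Iso ((L d).res d.φ d.hφ) :=
  ⟨Homeomorph.refl ℂ, fun g w => ((ch_act d.χ d.hχ (d.φ g) w).trans
    (by rw [(h.ker _).2 ⟨g, rfl⟩]; exact one_mul (show ℂ from w))).symm⟩

theorem ut_bL (h : d.Ok) {l : KS d.Y (L d)} (u : UT d.Y (L d) l) :
    UT d.Y' L' (pull (bL h).hm.f l) := by
  have e : Eqv (Y := d.Y) (Y' := d.Y') d.φ (.id _) := fun _ _ => rfl
  have a := (u.pull d.hφ e (Eqv.mp d.hφ e _)).iso (iL h) ((iL h).mp _)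
  rwa [pull_pull _ _ (bL h).hm.f fun e => by
    obtain ⟨y, w, rfl⟩ := pt_surj e
    induction w using OnePoint.rec <;> rfl] at a

theorem act_L (g : Γ') (ζ : OnePoint ℂ) : (L' (Γ' := Γ')).sph.act g ζ = ζ := by
  induction ζ using OnePoint.rec <;> rfl

theorem act_0 (g : Γ') (v : OnePoint d.S.W) :
    wdg (((0 : d.U.W) : OnePoint d.U.W), (show OnePoint d.S.W from (d.rs d.S).ls.sph.act g v)) =
      (d.U.prod d.S).ls.sph.act (d.φ g) (wdg (((0 : d.U.W) : OnePoint d.U.W), v)) := by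
  induction v using OnePoint.rec with
  | infty => rfl
  | coe v => exact congrArg OnePoint.some (Prod.ext (map_zero (d.U.ρ (d.φ g))).symm rfl)

theorem gs0 (gs : GS') (H : PMS) (h : d.Ok) : ∃ ι, IsS H h ι := by
  obtain ⟨a, b⟩ := gs d H h
  have c := b (d.Y.Z × OnePoint ℂ) Prod.fst Prod.snd (fun _ => ((0 : d.U.W) : OnePoint d.U.W))
    continuous_fst continuous_snd continuous_const fun _ _ _ => coe_ne_infty _
  let ev : ((d.Y'.prod L'.sph).prod (d.rs d.S).ls.sph).Z → (D3 H h).W →ₐ[ℂ] ℂ :=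
    fun z : (d.Y.Z × OnePoint ℂ) × OnePoint d.S.W =>
      evS H h z.1.1 z.1.2 (wdg (((0 : d.U.W) : OnePoint d.U.W), z.2))
  have i : ∀ g z u, ev (((d.Y'.prod L'.sph).prod (d.rs d.S).ls.sph).act g z) u = ev z u :=
    fun g z u => (congrArg₂ (fun a b => evS H h (d.Y.act (d.φ g) z.1.1) a b u) (act_L g z.1.2)
      (act_0 g z.2)).trans (a g z.1.1 z.1.2 _ u)
  exact ⟨Orb.mkH _ ev c i, fun u y ζ v => rfl⟩

theorem ex_dg {H : PMS} {h : d.Ok} {c : Cl d} {w κ1 κ3 ι} (P : Pat H h c w κ1 κ3)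
    (hι : IsS H h ι) : ∃ a, Dg h c (KA ι w) a := by
  have rd : (smd d.Y' (d.rs d.S).ls L').P.Rd (KA ι w) :=
    (Orb.KA_comp ι (cR (smd d.Y' (d.rs d.S).ls L').P.s) w).trans (P.rd _ _ fun b => by
      obtain ⟨y, ζ, rfl⟩ := pt_surj b
      exact ⟨y, ζ, fun u => hι u y ζ ∞⟩)
  obtain ⟨ν, e⟩ := ((ut_rs c.uS).thq L').ex rd
  obtain ⟨a, k⟩ := dec (ut_bL h c.uq).th ν
  exact ⟨a, _, k ▸ e⟩

/-- **assembly** -/
theorem loca0 (gn : GN) (gs : GS') (pat : PAT) (pol : POL) (zer : ZER) (en : END) (H : PMS) :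
    LOCA := by
  intro Γ Γ' _ _ _ _ _ _ d h hU hs lW0 lW1 lZ0 lZ1 lU lq u1 u2 u3 u4 u5 u6
  let c : Cl d := ⟨lW0, lW1, lZ0, lZ1, lU, lq, u1, u2, u3, u4, u5, u6⟩
  obtain ⟨w, κ1, κ3, P⟩ := pat d H h hs c
  obtain ⟨ι, hι⟩ := gn d H h
  obtain ⟨ι', hι'⟩ := gs0 gs H h
  obtain ⟨x, hx, hν⟩ := pol d H h c w κ1 κ3 ι P hι
  obtain ⟨a, ha⟩ := ex_dg P hι'
  obtain ⟨κw, k1, k2, k3⟩ := zer d H h hU c w κ1 κ3 ι ι' x _ a P hι hι' hν ha
  exact ⟨x, κ3, κ1, κw, a, k1, k2, hx, k3, en d H h c w κ1 κ3 ι' a P hι' ha⟩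

end Crest.Agent.N218.D6.Lj

end
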