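import Crest.Agent.N218.D6.Lj2
import Crest.Agent.N218.D6.Push

/-! Row 218, block D6 (helper66): the leaf `END` of the cut of `LOCA`. -/

set_option autoImplicit false
set_option linter.unusedVariables false
set_option linter.unusedSectionVars false

open Crest.Agent.R204.K357 unitInterval Topology Filter Set OnePoint

noncomputable section

namespace Crest.Agent.N218.D6.Lj

open K

namespace En

/-- maps that agree on the kernel of a retraction agree on reduced classes -/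
theorem agree {A B : Type} [CommRing A] [Algebra ℂ A] [CommRing B] [Algebra ℂ B] (r : A →ₐ[ℂ] A)
    (hr : ∀ u, r (r u) = r u) (f g : A →ₐ[ℂ] B) (e : ∀ u, r u = 0 → f u = g u) (w : KC A)
    (hf : KA (f.comp r) w = 0) (hg : KA (g.comp r) w = 0) : KA f w = KA g w := by
  let P : Subalgebra ℂ (A × ℂ) := AlgHom.equalizer (r.comp (AlgHom.fst ℂ _ _))
    ((Algebra.ofId ℂ A).comp (AlgHom.snd ℂ _ _))
  obtain ⟨x, a, -⟩ := T3.mv (P := P) (A := A) (B := ℂ) (C := r.range)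
    ((AlgHom.fst ℂ _ _).comp P.val) ((AlgHom.snd ℂ _ _).comp P.val) r.rangeRestrict
    (Algebra.ofId ℂ _) (fun x => Subtype.ext x.2)
    (fun a b h => ⟨⟨(a, b), congrArg Subtype.val h⟩, rfl, rfl⟩)
    (fun _ _ h h' => Subtype.ext (Prod.ext h h')) r.rangeRestrict_surjective
    (a := w - KA r w) (b := 0) (by
      rw [map_sub, ka_ka r.rangeRestrict r r.rangeRestrict fun u => Subtype.ext (hr u), sub_self,
        map_zero])
  have k := ka_sq f ((AlgHom.fst ℂ _ _).comp P.val) g ((AlgHom.fst ℂ _ _).comp P.val) (fun u => by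
    have := e (u.1.1 - algebraMap ℂ A u.1.2) (by
      rw [map_sub, r.commutes]; exact sub_eq_zero.2 u.2)
    rw [map_sub, map_sub, f.commutes, g.commutes] at this
    exact sub_left_injective this) x
  rwa [a, map_sub, map_sub, ← ka_comp, ← ka_comp, hf, hg, sub_zero, sub_zero] at k

variable {Γ Γ' : Type} [Group Γ] [TopologicalSpace Γ] [Group Γ'] [TopologicalSpace Γ']
  [CompactSpace Γ] [CompactSpace Γ'] {d : LD Γ Γ'} (H : PMS) (h : d.Ok)

/-- the retraction to the section at infinity -/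
def rt : (D3 H h).W →ₐ[ℂ] (D3 H h).W :=
  (D3 H h).en ((Sb d.Y d.T.ls).s.comp (Sb d.Y d.T.ls).p)
    ((Sb (YD d) d.M1.ls).s.comp (Sb (YD d) d.M1.ls).p)
    ((Sb (YD d) d.M3.ls).s.comp (Sb (YD d) d.M3.ls).p)
    (fun c => by obtain ⟨y, a, rfl⟩ := pt_surj c; exact ⟨pt d.YC d.M1.ls y ∞, rfl, rfl⟩)
    fun c => by obtain ⟨y, a, rfl⟩ := pt_surj c; exact ⟨pt d.YC d.M3.ls y ∞, rfl, rfl⟩

theorem rt_rt (u : (D3 H h).W) : rt H h (rt H h u) = rt H h u :=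
  Subtype.ext (Prod.ext (ContinuousMap.ext fun e => by obtain ⟨y, a, rfl⟩ := pt_surj e; rfl)
    (Prod.ext (ContinuousMap.ext fun e => by obtain ⟨y, a, rfl⟩ := pt_surj e; rfl)
      (ContinuousMap.ext fun e => by obtain ⟨y, a, rfl⟩ := pt_surj e; rfl)))

theorem ev_rt (y ζ a b c) (u : (D3 H h).W) :
    ev3 H h y ζ a b c (rt H h u) = ev3 H h y ζ ∞ ∞ ∞ u := by
  unfold ev3
  rw [T3.ev_eq, T3.ev_eq]
  split_ifs <;> rfl

theorem p0_rt (y b) (u : (D3 H h).W) : (D3 H h).p0 (rt H h u) (pt d.Y d.T.ls y b) =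
    ev3 H h y (((3 / 2 : ℝ) : ℂ) : OnePoint ℂ) ∞ ∞ ∞ u := by
  have n : nr (((3 / 2 : ℝ) : ℂ) : OnePoint ℂ) = 3 / 2 := by
    rw [nr_coe, Complex.norm_real, Real.norm_of_nonneg (by norm_num)]; norm_num
  unfold ev3
  rw [T3.ev_eq, n, if_neg (by norm_num), if_pos le_rfl]
  rfl

/-- on the annulus the evaluation factors through the cylinder -/
theorem ev_ann (y : d.Y.Z) {ζ : ℂ} (h1 : 1 ≤ ‖ζ‖) (h2 : ‖ζ‖ ≤ 2) (η : d.U.W) (v : d.S.W)
    (u : (D3 H h).W) : evS H h y ζ (OnePoint.some (η, v)) u =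
      (D3 H h).p0 u (pt d.Y d.T.ls y (d.hh y (an ζ) (tt ‖ζ‖) η v)) := by
  have n : nr ζ = ‖ζ‖ := min_eq_left h2
  have k : ((y, dk ζ) : (YD d).Z) = jD d (y, an ζ) := Prod.ext rfl (Subtype.ext (dk_an h1 h2))
  unfold evS ev3
  rw [T3.ev_eq, k]
  split_ifs with a b
  · rw [Pu.tt0 (n ▸ a), (H d h).2.2.2.2.2.1]
    exact (D3 H h).c3 u (pt d.YC d.M3.ls (y, an ζ) (OnePoint.some (d.b3 (y, (η, v)))))
  · rw [← n]; rfl
  · rw [Pu.tt1 (n ▸ (not_le.1 b).le), (H d h).2.2.2.2.1]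
    exact (D3 H h).c1 u (pt d.YC d.M1.ls (y, an ζ) (OnePoint.some (d.b1 (y, (η, v)))))

/-- the push -/
def et (d : LD Γ Γ') (s : I) (m : d.Ym.Z) (ζ : OnePoint ℂ) : OnePoint d.U.W :=
  sc ((1 - s : ℝ) + s * bp (nr ζ), (((s : ℝ) • d.u m : d.U.W) : OnePoint d.U.W))

theorem et0 (m ζ) : et d 0 m ζ = ((0 : d.U.W) : OnePoint d.U.W) := by simp [et, sc_one]
theorem et1 (m ζ) : et d 1 m ζ = sc (bp (nr ζ), (d.u m : OnePoint d.U.W)) := by simp [et]

theorem co_z {s : I} {b : ℝ} (hb : 0 ≤ b) (e : (1 - s : ℝ) + s * b = 0) : (s : ℝ) = 1 ∧ b = 0 := by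
  have a : (s : ℝ) = 1 := by nlinarith [s.2.2, mul_nonneg s.2.1 hb]
  rw [a] at e
  exact ⟨a, by linarith⟩

include h in
theorem et_c : Continuous fun q : I × d.Ym.Z × OnePoint ℂ => et d q.1 q.2.1 q.2.2 :=
  continuous_iff_continuousAt.2 fun q => (sc_at (E := d.U.W) fun z e => by
    have e : (q.1 : ℝ) • d.u q.2.1 = 0 := coe_injective e
    rw [(co_z (Pu.bp_nn _) z).1, one_smul] at e
    exact h.u0 _ e).comp' (Continuous.continuousAt (by
      have := Pu.bp_c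
      exact Continuous.prodMk (by fun_prop) (continuous_coe.comp (by fun_prop))))

theorem et_ne (s m ζ) (h1 : 5 / 4 ≤ nr ζ) (h2 : nr ζ ≤ 3 / 2) : et d s m ζ ≠ ∞ := by
  rw [et, sc_coe fun e => Pu.bp_ne.2 ⟨by linarith, by linarith⟩ (co_z (Pu.bp_nn _) e).2]
  exact coe_ne_infty _

include h in
theorem et_act (g s m ζ) : et d s (d.Ym.act g m) ζ = d.U.ls.sph.act (d.φ g) (et d s m ζ) := by
  refine Eq.trans ?_ (sc_act d.U (d.φ g) _ _)
  rw [et, h.hu, ← _root_.map_smul]; rfl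

theorem act_S (g : Γ') (v : OnePoint d.S.W) :
    (d.rs d.S).ls.sph.act g v = d.S.ls.sph.act (d.φ g) v := by
  induction v using OnePoint.rec <;> rfl

theorem bp_nr (ζ : ℂ) : bp (nr ζ) = bp ‖ζ‖ := by
  rcases le_total ‖ζ‖ 2 with a | a
  · rw [nr_coe, min_eq_left a]
  · rw [nr_coe, min_eq_right a]
    exact (by_contra fun k => (Pu.bp_ne.1 k).2.false : bp 2 = 0).trans
      (by_contra fun k => (Pu.bp_ne.1 k).2.not_ge a : bp ‖ζ‖ = 0).symm

/-- the end of the push -/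
theorem ev_end (m : d.Ym.Z) (ζ : OnePoint ℂ) (v : OnePoint d.S.W) (u : (D3 H h).W)
    (z : rt H h u = 0) : evS H h (d.i m) ζ (wdg (et d 1 m ζ, v)) u =
      (D3 H h).p0 u (pt d.Y d.T.ls (d.i m) (opx d.F5 (m, wdg (v, ζ)))) := by
  have a : ∀ ζ, evS H h (d.i m) ζ ∞ u = (D3 H h).p0 u (pt d.Y d.T.ls (d.i m) ∞) := fun ζ =>
    ((ev_rt H h _ ζ ∞ ∞ ∞ u).symm.trans (by rw [z, map_zero])).trans
      (show (D3 H h).p0 (rt H h u) (pt d.Y d.T.ls (d.i m) ∞) = 0 by rw [z, map_zero]; rfl).symm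
  induction v using OnePoint.rec with
  | infty => rw [wdg_r]; exact a ζ
  | coe v =>
    induction ζ using OnePoint.rec with
    | infty =>
      rw [et1, nr_inf, (by_contra fun k => (Pu.bp_ne.1 k).2.false : bp 2 = 0), sc_zero]
      exact a _
    | coe ζ =>
      rw [et1, bp_nr]
      change _ = (D3 H h).p0 u (pt d.Y d.T.ls (d.i m) (d.F5 (m, v, ζ)))
      by_cases b : bp ‖ζ‖ = 0
      · rw [Pu.F5_out H h (x := (m, v, ζ)) b, b, sc_zero]
        exact a _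
      · rw [Pu.F5_in H h (x := (m, v, ζ)) b, sc_coe b]
        exact ev_ann H h _ (Pu.bp_ne.1 b).1.le (Pu.bp_ne.1 b).2.le _ v u

/-- the algebra of the end -/
theorem fin {X : Type} [TopologicalSpace X] {A U S : Ex X} (D : SmD A U S) {l : KX A.E}
    {β : KX U.E} {x : KX S.E} {al a : KX X} (hl : A.Rd l) (hβ : U.Rd β) (hx : S.Rd x)
    (e : pull D.c x = D.P.sm (pull U.p al + U.sm a β) (pull D.q l)) : x = S.sm a (D.mul l β) := by
  have k := congrArg (pull D.j) e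
  rw [pull_sq D.j D.c A.p S.s D.cj, show pull S.s x = 0 from hx, map_zero, Ex.sm, map_mul,
    pull_pull_id D.j D.q D.qj, pull_sq D.j D.P.p A.p U.s D.pj, map_add, U.pull_sp,
    show pull U.s _ = 0 from hβ.sm a, add_zero] at k
  rw [← D.mul_sm]
  refine D.eq_mul hl (hβ.sm a) (e.trans ?_)
  rw [Ex.sm, map_add, add_mul, ← pull_sq D.q A.p D.P.p U.p D.pq, ← map_mul, ← k, map_zero,
    zero_add, mul_comm]

end En

open En in
/-- **leaf END** -/
theorem lend (gs : GS') : END := by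
  intro Γ Γ' _ _ _ _ _ _ d H h c w κ1 κ3 ι a P hι ⟨al, ha⟩
  obtain ⟨pm, ok, ht⟩ := push H d h
  obtain ⟨F, r⟩ := pm.exists_rg
  obtain ⟨inv, ct⟩ := gs d H h
  have hi : ∀ g y, d.i (d.Ym.act g y) = d.Y'.act g (d.i y) := h.hi
  let G := (h.hi.eqm d.hφ d.T.ls).hm.f
  let BS := eB (Y := d.Y') (Y₂ := d.Ym) d.i hi (d.rs d.S).ls
  let BL := eB (Y := d.Y') (Y₂ := d.Ym) d.i hi (L' (Γ' := Γ'))
  let BP := eB (Y := d.Y'.prod L'.sph) (Y₂ := d.Ym.prod L'.sph) (d.i.prodMap (.id _))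
    (fun g y => Prod.ext (hi g y.1) rfl) (d.rs d.S).ls
  have uT : UT d.Ym (d.rs d.T).ls (pull G c.T) := c.uT.pull d.hφ h.hi (h.hi.mp d.hφ _)
  have uS : UT d.Ym (d.rs d.S).ls (pull BS.hm.f (rs d c.S)) :=
    (ut_rs c.uS).pull (φ := .id Γ') continuous_id (g := d.i) hi fun _ _ => rfl
  have uL : UT d.Ym L' (pull BL.hm.f (pull (bL h).hm.f c.q)) :=
    (ut_bL h c.uq).pull (φ := .id Γ') continuous_id (g := d.i) hi fun _ _ => rfl
  refine ⟨ok, _, _, uT, uS.xm uL, (DFunLike.congr_fun (ht F r).pull_eq _).trans ?_⟩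
  let D := smd d.Ym (d.rs d.S).ls L'
  refine fin D (al := pull (d.ρ h) al) uS.1 uL.1 (uT.1.hm F) ?_
  let Z := (d.Ym.prod L'.sph).prod (d.rs d.S).ls.sph
  let ev : I → Z.Z → (D3 H h).W →ₐ[ℂ] ℂ := fun s (z : (d.Ym.Z × OnePoint ℂ) × OnePoint d.S.W) =>
    evS H h (d.i z.1.1) z.1.2 (wdg (et d s z.1.1 z.1.2, z.2))
  have hc : ∀ u, Continuous fun z : I × Z.Z => ev z.1 z.2 u := fun u =>
    (ct (I × d.Ym.Z × OnePoint ℂ) (fun q => d.i q.2.1) (fun q => q.2.2) _ (by fun_prop)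
      (by fun_prop) (et_c h) (fun q => et_ne _ _ _) u).comp
      (show Continuous fun z : I × (d.Ym.Z × OnePoint ℂ) × OnePoint d.S.W =>
        ((z.1, z.2.1), z.2.2) by fun_prop)
  have hv : ∀ s g z u, ev s (Z.act g z) u = ev s z u := by
    rintro s g ⟨⟨m, ζ⟩, v⟩ u
    refine Eq.trans ?_ (inv g (d.i m) ζ (wdg (et d s m ζ, v)) u)
    change evS H h (d.i (d.Ym.act g m)) (L'.sph.act g ζ) (wdg (et d s (d.Ym.act g m)
      (L'.sph.act g ζ), (show OnePoint d.S.W from (d.rs d.S).ls.sph.act g v))) u = _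
    rw [act_L, h.hi, et_act h, act_S]
    exact congrArg (fun e => evS H h _ ζ e u) (wdg_act2 d.U.ls d.S.ls (d.φ g) _ _).symm
  have k := Orb.mkH_ht Z ev hc hv w
  let f2 : (D3 H h).W →ₐ[ℂ] C(D.P.E, ℂ) := (cR ((G.comp F.f).comp D.c)).comp (D3 H h).p0
  have e2 : ∀ u m ζ v, f2 u (pt (d.Ym.prod L'.sph) (d.rs d.S).ls (m, ζ) v) =
      (D3 H h).p0 u (pt d.Y d.T.ls (d.i m) (opx d.F5 (m, wdg (v, ζ)))) := fun u m ζ v =>
    congrArg (fun e => (D3 H h).p0 u (G e)) (r.opx m _)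
  have k2 := agree (rt H h) (rt_rt H h) (Orb.mkH Z (ev 1) (fun u => (hc u).comp (.prodMk_right 1))
    (hv 1)) f2 (fun u z => ContinuousMap.ext fun x => by
      obtain ⟨⟨m, ζ⟩, v, rfl⟩ := pt_surj (Y := d.Ym.prod L'.sph) (M := (d.rs d.S).ls) x
      exact (ev_end H h m ζ v u z).trans (e2 u m ζ v).symm) w
    (P.rd _ _ fun x => by
      obtain ⟨⟨m, ζ⟩, v, rfl⟩ := pt_surj (Y := d.Ym.prod L'.sph) (M := (d.rs d.S).ls) x
      exact ⟨d.i m, ζ, fun u => ev_rt H h _ _ _ _ _ u⟩)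
    (P.rd _ _ fun x => by
      obtain ⟨⟨m, ζ⟩, v, rfl⟩ := pt_surj (Y := d.Ym.prod L'.sph) (M := (d.rs d.S).ls) x
      exact ⟨d.i m, _, fun u => (e2 _ m ζ v).trans (p0_rt H h _ _ u)⟩)
  have k0 : KA (Orb.mkH Z (ev 0) (fun u => (hc u).comp (.prodMk_right 0)) (hv 0)) w =
      pull BP.hm.f (KA ι w) := (ka_ka (cR BP.hm.f) ι _ (fun u => ContinuousMap.ext fun x => by
    obtain ⟨⟨m, ζ⟩, v, rfl⟩ := pt_surj (Y := d.Ym.prod L'.sph) (M := (d.rs d.S).ls) x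
    exact (hι u (d.i m) ζ v).trans
      (congrArg (fun e => evS H h (d.i m) ζ (wdg (e, v)) u) (et0 m ζ).symm)) w).symm
  let G' : C((Sb d.Ym (d.rs d.T).ls).E, (Sb d.Y d.T.ls).E) := G
  have k3 : pull D.c (pull F.f (pull G' c.T)) = KA f2 w :=
    ((pull_comp _ _ _).trans ((congrArg (pull D.c) (pull_comp F.f G' c.T)))).symm.trans
      ((congrArg _ P.p0.symm).trans (ka_comp _ _ w).symm)
  have b : ∀ x, pull BP.b x = pull BL.hm.f x := pull_congr fun e => by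
    obtain ⟨y, v, rfl⟩ := pt_surj (Y := d.Ym) (M := L') e; rfl
  refine k3.trans (k2.symm.trans (k.symm.trans (k0.trans ((congrArg _ ha).trans
    ((BP.hm.pull_sm _ _).trans (congrArg₂ D.P.sm ((b _).trans ((map_add _ _ _).trans ?_))
      (pull_sq BP.hm.f _ D.q BS.hm.f (fun e => by obtain ⟨y, v, rfl⟩ := pt_surj e; rfl) _)))))))
  exact congrArg₂ (· + ·) (pull_sq BL.hm.f _ (Sb d.Ym L').p (d.ρ h) BL.hm.hp al)
    (BL.hm.pull_sm _ _)

end Crest.Agent.N218.D6.Lj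

end
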