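import Crest.Agent.N218.D6.Lj1

/-! Row 218, block D6 (helper37): characters that agree away from infinity. -/

set_option autoImplicit false
set_option linter.unusedVariables false
set_option linter.unusedSectionVars false

open Crest.Agent.R204.K357 unitInterval Topology Filter Set OnePoint

noncomputable section

namespace Crest.Agent.N218.D6.Lj

open K

/-- maps that agree on the kernel of an idempotent -/
theorem kr_agree {A C : Type} [CommRing A] [CommRing C] (E : A →+* A) (hE : ∀ a, E (E a) = E a)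
    (f g : A →+* C) (h : ∀ a, E a = 0 → f a = g a) {w : KC A} (hw : KR E w = 0) :
    KR f w = KR g w := by
  let τ : A →+* Db E := ((RingHom.id A).prod E).codRestrict (Db E) fun a => (hE a).symm
  have X : Exc (E.comp (f.eqLocus g).subtype) E (f.eqLocus g).subtype :=
    ⟨fun a e => e, fun a _ e => Subtype.ext e, fun a e => ⟨⟨a, h a e⟩, e, rfl⟩⟩
  obtain ⟨y, e, -⟩ := X.ksrj (z := KR τ w) ((kr_kr _ τ E (fun _ => rfl) w).trans hw)
  rw [← kr_id (Db.f E) τ (fun _ => rfl) w, ← e, Db.f_mp]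
  exact kr_sq _ _ _ _ (fun a => a.2) _

variable {Γ Γ' : Type} [Group Γ] [TopologicalSpace Γ] [Group Γ'] [TopologicalSpace Γ']
  [CompactSpace Γ] [CompactSpace Γ'] {d : LD Γ Γ'} (H : PMS) (h : d.Ok)

/-- the retraction onto the part at infinity -/
def En : (D3 H h).W →ₐ[ℂ] (D3 H h).W :=
  (D3 H h).en ((Sb _ _).s.comp (Sb _ _).p) ((Sb _ _).s.comp (Sb _ _).p) ((Sb _ _).s.comp (Sb _ _).p)
    (fun c => by
      obtain ⟨y, w, rfl⟩ := pt_surj c
      exact ⟨pt _ _ y ∞, rfl, rfl⟩)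
    (fun c => by
      obtain ⟨y, w, rfl⟩ := pt_surj c
      exact ⟨pt _ _ y ∞, rfl, rfl⟩)

theorem ev3_En (y ζ a t e u) : ev3 H h y ζ a t e (En H h u) = ev3 H h y ζ ∞ ∞ ∞ u := by
  unfold ev3
  rw [T3.ev_eq, T3.ev_eq]
  rfl

theorem En_En (u : (D3 H h).W) : En H h (En H h u) = En H h u :=
  Subtype.ext (Prod.ext (ContinuousMap.ext fun e => by obtain ⟨y, w, rfl⟩ := pt_surj e; rfl)
    (Prod.ext (ContinuousMap.ext fun e => by obtain ⟨y, w, rfl⟩ := pt_surj e; rfl)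
      (ContinuousMap.ext fun e => by obtain ⟨y, w, rfl⟩ := pt_surj e; rfl)))

theorem ev3_mid (y a t e u) : ev3 H h y (((3 / 2 : ℝ) : ℂ) : OnePoint ℂ) a t e u =
    (D3 H h).p0 u (pt d.Y d.T.ls y t) := by
  have : nr (((3 / 2 : ℝ) : ℂ) : OnePoint ℂ) = 3 / 2 := by
    rw [nr_coe, Complex.norm_real, Real.norm_of_nonneg (by norm_num)]; norm_num
  unfold ev3
  rw [T3.ev_eq, this, if_neg (by norm_num), if_pos le_rfl]

variable {H h}

/-- **two families of characters that agree away from infinity** -/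
theorem agree {c : Cl d} {w κ1 κ3} (P : Pat H h c w κ1 κ3) {B : Type} [TopologicalSpace B]
    (f g : (D3 H h).W →ₐ[ℂ] C(B, ℂ))
    (hf : ∀ b, ∃ y ζ a t e, ∀ u, f u b = ev3 H h y ζ a t e u)
    (hg : ∀ b, ∃ y ζ a t e, ∀ u, g u b = ev3 H h y ζ a t e u)
    (k : ∀ b, (∀ u, f u b = g u b) ∨ ((∃ y ζ, ∀ u, f u b = ev3 H h y ζ ∞ ∞ ∞ u) ∧
      ∃ y ζ, ∀ u, g u b = ev3 H h y ζ ∞ ∞ ∞ u)) : KA f w = KA g w := by
  have z : ∀ f : (D3 H h).W →ₐ[ℂ] C(B, ℂ), (∀ b, ∃ y ζ a t e, ∀ u, f u b = ev3 H h y ζ a t e u) →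
      KA f (w - KA (En H h) w) = KA f w := fun f hf => by
    rw [map_sub, show KA f (KA (En H h) w) = KA (f.comp (En H h)) w from
      kr_kr _ _ _ (fun _ => rfl) w, P.rd B (f.comp (En H h)) fun b => ?_, sub_zero]
    obtain ⟨y, ζ, a, t, e, q⟩ := hf b
    exact ⟨y, ζ, fun u => (q _).trans (ev3_En H h y ζ a t e u)⟩
  rw [← z f hf, ← z g hg]
  refine kr_agree (En H h : (D3 H h).W →+* (D3 H h).W) (En_En H h) _ _ (fun u e => ?_) ?_
  · refine ContinuousMap.ext fun b => (k b).elim (fun q => q u) fun ⟨⟨y, ζ, q⟩, y', ζ', q'⟩ => ?_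
    have n : ∀ y ζ, ev3 H h y ζ ∞ ∞ ∞ u = 0 := fun y ζ => by
      rw [← ev3_En H h y ζ ∞ ∞ ∞ u, show En H h u = 0 from e, map_zero]
    exact ((q u).trans (n y ζ)).trans ((q' u).trans (n y' ζ')).symm
  · rw [map_sub, sub_eq_zero]
    exact (kr_kr _ _ _ (En_En H h) w).symm

end Crest.Agent.N218.D6.Lj

end
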