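import Crest.Agent.N218.D6.Lj2
import Crest.Agent.N218.D6.LjRel
import Crest.Agent.N218.D6.Push

/-! Row 218, block D6 (helper34): leaf `END`. -/

set_option autoImplicit false
set_option linter.unusedVariables false
set_option linter.unusedSectionVars false

open Crest.Agent.R204.K357 unitInterval Topology Filter Set OnePoint

noncomputable section

namespace Crest.Agent.N218.D6.Lj.E3

open K

theorem fin {X : Type} [TopologicalSpace X] {A U S : Ex X} (D : SmD A U S) {l : KX A.E}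
    (t : A.Th l) {β : KX U.E} (rβ : U.Rd β) {x : KX S.E} (rx : S.Rd x) {al a : KX X}
    (e : pull D.c x = D.P.sm (pull U.p al + U.sm a β) (pull D.q l)) :
    x = S.sm a (D.mul l β) := by
  have k := congrArg (pull D.j) e
  rw [pull_sq D.j D.c A.p S.s D.cj, show pull S.s x = 0 from rx, map_zero, Ex.sm, map_mul,
    pull_sq D.j D.P.p A.p U.s D.pj, pull_pull_id D.j D.q D.qj, map_add (pull U.s), U.pull_sp,
    show pull U.s (U.sm a β) = 0 from rβ.sm a, add_zero] at k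
  obtain rfl : al = 0 := t.inj (k.symm.trans (A.zero_sm l).symm)
  rw [← D.mul_sm]
  refine D.eq_mul t.1 (rβ.sm a) ?_
  rw [e, map_zero, zero_add, Ex.sm, mul_comm]

variable {Γ Γ' : Type} [Group Γ] [TopologicalSpace Γ] [Group Γ'] [TopologicalSpace Γ']
  [CompactSpace Γ] [CompactSpace Γ'] {d : LD Γ Γ'} (H : PMS) (h : d.Ok)

theorem jd (y : d.Y.Z) {ζ : OnePoint ℂ} (h1 : 1 ≤ nr ζ) (h2 : nr ζ < 2) :
    ((y, dk ζ) : (YD d).Z) = jD d (y, ph ζ) :=
  let ⟨_, _, _, e⟩ := mid h1 h2; Prod.ext rfl (Subtype.ext e)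

/-- on the annulus the evaluation goes through the target -/
theorem evS_ann (y : d.Y.Z) {ζ : OnePoint ℂ} (h1 : 1 ≤ nr ζ) (h2 : nr ζ < 2) (η : d.U.W)
    (v : d.S.W) (u : (D3 H h).W) : evS H h y ζ ((η, v) : d.U.W × d.S.W) u =
      (D3 H h).p0 u (pt d.Y d.T.ls y (d.hh y (ph ζ) (tt (nr ζ)) η v)) := by
  obtain ⟨-, -, -, -, e1, e0, -⟩ := id (H d h)
  rw [evS, ev3, T3.ev_eq, jd y h1 h2]
  split_ifs with a b
  · rw [Pu.tt0 a, e0]
    exact (D3 H h).c3 u (pt d.YC d.M3.ls (y, ph ζ) (OnePoint.some (X := d.M3.W) (d.b3 (y, (η, v)))))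
  · rfl
  · rw [Pu.tt1 (not_le.1 b).le, e1]
    exact (D3 H h).c1 u (pt d.YC d.M1.ls (y, ph ζ) (OnePoint.some (X := d.M1.W) (d.b1 (y, (η, v)))))

variable (d) in
/-- the push -/
def et (s : ℝ) (y : d.Ym.Z) (ζ : OnePoint ℂ) : OnePoint d.U.W :=
  sc ((1 - s) + s * bp (nr ζ), ((s • d.u y : d.U.W) : OnePoint d.U.W))

theorem et0 (y : d.Ym.Z) (ζ : OnePoint ℂ) : et d 0 y ζ = ((0 : d.U.W) : OnePoint d.U.W) := by
  rw [et, zero_smul, zero_mul, sub_zero, add_zero, sc_one]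
theorem et1 (y : d.Ym.Z) (ζ : OnePoint ℂ) : et d 1 y ζ = sc (bp (nr ζ), (d.u y : OnePoint d.U.W)) := by
  rw [et, one_smul, one_mul, sub_self, zero_add]

include h in
theorem et_c : Continuous fun x : I × d.Ym.Z × OnePoint ℂ => et d x.1 x.2.1 x.2.2 :=
  continuous_iff_continuousAt.2 fun x => ContinuousAt.comp
    (f := fun x : I × d.Ym.Z × OnePoint ℂ => (((1 - x.1 : ℝ) + x.1 * bp (nr x.2.2),
      (((x.1 : ℝ) • d.u x.2.1 : d.U.W) : OnePoint d.U.W)) : ℝ × OnePoint d.U.W))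
    (sc_at fun z e => by
      have a := mul_nonneg x.1.2.1 (Pu.bp_nn (nr x.2.2))
      have b : (x.1 : ℝ) = 1 := le_antisymm x.1.2.2 (by simp only at z; linarith)
      exact h.u0 x.2.1 (by simpa [b] using coe_injective e))
    (Continuous.continuousAt (by
      have := Pu.bp_c
      exact Continuous.prodMk (by fun_prop) (continuous_coe.comp (by fun_prop))))

theorem et_ne (s : I) (y : d.Ym.Z) {ζ : OnePoint ℂ} (a : 5 / 4 ≤ nr ζ) (b : nr ζ ≤ 3 / 2) :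
    et d s y ζ ≠ ∞ := by
  have p : 0 < bp (nr ζ) := (Pu.bp_nn _).lt_of_ne' (Pu.bp_ne.2 ⟨by linarith, by linarith⟩)
  have : (1 - s : ℝ) + s * bp (nr ζ) ≠ 0 := by
    rcases s.2.2.eq_or_lt with e | e
    · rw [e]; linarith
    · have := mul_nonneg s.2.1 p.le
      linarith
  rw [et, sc_coe this]; exact coe_ne_infty _

include h in
theorem et_act (g : Γ') (s : ℝ) (y : d.Ym.Z) (ζ : OnePoint ℂ) :
    et d s (d.Ym.act g y) ζ = d.U.ls.sph.act (d.φ g) (et d s y ζ) := by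
  by_cases a : (1 - s) + s * bp (nr ζ) = 0
  · rw [et, et, a, sc_zero, sc_zero]; rfl
  · rw [et, et, sc_coe a, sc_coe a, h.hu, ← (d.U.ρ (d.φ g)).map_smul, ← (d.U.ρ (d.φ g)).map_smul]
    rfl

theorem lend3 (gs : GS') : END := by
  intro Γ Γ' _ _ _ _ _ _ d H h c w κ1 κ3 ι' a P hS ⟨al, hD⟩
  obtain ⟨pm, ok, ht⟩ := push H d h
  obtain ⟨F, rg⟩ := pm.exists_rg
  obtain ⟨inv, ct⟩ := gs d H h
  let G := (h.hi.eqm d.hφ d.T.ls).hm
  let GM := (eB (Y := d.Y') (Y₂ := d.Ym) d.i h.hi (d.rs d.S).ls).hm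
  let GC := (eB (Y := d.Y') (Y₂ := d.Ym) d.i h.hi (L' (Γ' := Γ'))).hm
  let D := smd d.Ym (d.rs d.S).ls (L' (Γ' := Γ'))
  let B := (eB (Y := d.Y'.prod (L' (Γ' := Γ')).sph) (Y₂ := d.Ym.prod (L' (Γ' := Γ')).sph)
    ⟨fun z : d.Ym.Z × OnePoint ℂ => (d.i z.1, z.2), by fun_prop⟩
    (fun g z => Prod.ext (h.hi g z.1) rfl) (d.rs d.S).ls).hm
  have uT : UT d.Ym (d.rs d.T).ls (pull G.f c.T) := c.uT.pull d.hφ h.hi (h.hi.mp _ _)
  have uS : UT d.Ym (d.rs d.S).ls (pull GM.f (rs d c.S)) :=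
    (ut_rs c.uS).pull (φ := .id Γ') continuous_id (Y' := d.Ym) (g := d.i) h.hi fun _ _ => rfl
  have uL : UT d.Ym (L' (Γ' := Γ')) (pull GC.f (pull (bL h).hm.f c.q)) :=
    (ut_bL h c.uq).pull (φ := .id Γ') continuous_id (Y' := d.Ym) (g := d.i) h.hi fun _ _ => rfl
  refine ⟨ok, _, _, uT, uS.xm uL, (DFunLike.congr_fun (ht F rg).pull_eq _).trans
    (fin D uS.th uL.1 (uT.1.hm F) (al := pull (d.ρ h) al) ?_)⟩
  let Z := (d.Ym.prod (L' (Γ' := Γ')).sph).prod (d.rs d.S).ls.sph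
  let ev : I → Z.Z → (D3 H h).W →ₐ[ℂ] ℂ :=
    fun s (z : (d.Ym.Z × OnePoint ℂ) × OnePoint d.S.W) =>
      evS H h (d.i z.1.1) z.1.2 (wdg (et d s z.1.1 z.1.2, z.2))
  have hc : ∀ u, Continuous fun z : I × Z.Z => ev z.1 z.2 u := fun u =>
    Continuous.comp (f := fun z : I × (d.Ym.Z × OnePoint ℂ) × OnePoint d.S.W =>
      (((z.1, z.2.1), z.2.2) : (I × d.Ym.Z × OnePoint ℂ) × OnePoint d.S.W))
      (ct (I × d.Ym.Z × OnePoint ℂ) (fun x => d.i x.2.1) (fun x => x.2.2)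
        (fun x => et d x.1 x.2.1 x.2.2) (by fun_prop) (by fun_prop) (et_c h)
        (fun x => et_ne x.1 x.2.1) u) (by fun_prop)
  have hi : ∀ s g z u, ev s (Z.act g z) u = ev s z u := fun s g z u => by
    refine Eq.trans ?_ (inv g (d.i z.1.1) z.1.2 (wdg (et d s z.1.1 z.1.2, z.2)) u)
    change evS H h (d.i (d.Ym.act g z.1.1)) ((L' (Γ' := Γ')).sph.act g z.1.2)
      (wdg (et d s (d.Ym.act g z.1.1) ((L' (Γ' := Γ')).sph.act g z.1.2),
        d.S.ls.sph.act (d.φ g) z.2)) u = _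
    rw [act_L, et_act h, h.hi]
    exact congrArg (fun e => evS H h _ _ e u) (wdg_act2 d.U.ls d.S.ls (d.φ g) _ _).symm
  have k := Orb.mkH_ht Z ev hc hi w
  have k0 : KA (Orb.mkH Z (ev 0) (fun u => (hc u).comp (.prodMk_right 0)) (hi 0)) w =
      pull B.f (KA ι' w) :=
    Eq.trans (congrArg (fun f => KA f w) (AlgHom.ext fun u => ContinuousMap.ext fun x => by
      obtain ⟨⟨y, ζ⟩, v, rfl⟩ := pt_surj (Y := d.Ym.prod (L' (Γ' := Γ')).sph) (M := (d.rs d.S).ls) x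
      exact (congrArg (fun e => evS H h (d.i y) ζ (wdg (e, v)) u) (et0 y ζ)).trans
        (hS u (d.i y) ζ v).symm)) (ka_comp (cR B.f) ι' w)
  have fv : ∀ y e, G.f (F.f (pt d.Ym d.SC y e)) = pt d.Y d.T.ls (d.i y) (opx d.F5 (y, e)) :=
    fun y e => by
      induction e using OnePoint.rec with
      | infty => exact congrArg G.f (F.f_inf y)
      | coe e => exact congrArg G.f (rg y e)
  have k1 : KA (Orb.mkH Z (ev 1) (fun u => (hc u).comp (.prodMk_right 1)) (hi 1)) w =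
      KA ((cR (G.f.comp (F.f.comp D.c))).comp (D3 H h).p0) w := by
    have f1 : ∀ (y : d.Ym.Z) (ζ : OnePoint ℂ) (v : OnePoint d.S.W) u,
        ((cR (G.f.comp (F.f.comp D.c))).comp (D3 H h).p0) u
          (pt (d.Ym.prod (L' (Γ' := Γ')).sph) (d.rs d.S).ls (y, ζ) v) =
        (D3 H h).p0 u (pt d.Y d.T.ls (d.i y) (opx d.F5 (y, wdg (v, ζ)))) :=
      fun y ζ v u => congrArg ((D3 H h).p0 u) (fv y _)
    refine agree P _ _ (fun b => ?_) (fun b => ?_) fun b => ?_ <;>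
      obtain ⟨⟨y, ζ⟩, v, rfl⟩ := pt_surj (Y := d.Ym.prod (L' (Γ' := Γ')).sph) (M := (d.rs d.S).ls) b
    · exact ⟨_, _, _, _, _, fun u => rfl⟩
    · exact ⟨_, _, ∞, _, ∞, fun u => (f1 y ζ v u).trans (ev3_mid H h _ _ _ _ u).symm⟩
    have q : wdg (et d 1 y ζ, v) = ∞ → opx d.F5 (y, wdg (v, ζ)) = ∞ →
        (∃ y' ζ', ∀ u, ev 1 ((y, ζ), v) u = ev3 H h y' ζ' ∞ ∞ ∞ u) ∧ ∃ y' ζ', ∀ u,
          ((cR (G.f.comp (F.f.comp D.c))).comp (D3 H h).p0) u
            (pt (d.Ym.prod (L' (Γ' := Γ')).sph) (d.rs d.S).ls (y, ζ) v) = ev3 H h y' ζ' ∞ ∞ ∞ u :=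
      fun a b => ⟨⟨d.i y, ζ, fun u => congrArg (fun e => evS H h (d.i y) ζ e u) a⟩,
        _, _, fun u => (f1 y ζ v u).trans ((congrArg (fun e => (D3 H h).p0 u
          (pt d.Y d.T.ls (d.i y) e)) b).trans (ev3_mid H h _ ∞ ∞ ∞ u).symm)⟩
    induction v using OnePoint.rec with
    | infty => exact .inr (q (wdg_r _) rfl)
    | coe v =>
      by_cases a : bp (nr ζ) = 0
      · refine .inr (q (by rw [et1, a, sc_zero]; rfl) ?_)
        induction ζ using OnePoint.rec with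
        | infty => rfl
        | coe z =>
          refine Pu.F5_out H h (x := (y, v, z)) (by_contra fun n => Pu.bp_ne.2 ?_ a)
          have m := Pu.bp_ne.1 n
          exact ((nr_coe z).trans (min_eq_left m.2.le)).symm ▸ m
      · have m := Pu.bp_ne.1 a
        obtain ⟨z, rfl, n, -⟩ := mid m.1.le m.2
        refine .inl fun u => Eq.trans ?_ (f1 y z (OnePoint.some (X := d.S.W) v) u).symm
        refine (congrArg (fun e => evS H h (d.i y) z (wdg (e, OnePoint.some (X := d.S.W) v)) u)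
          ((et1 y z).trans (sc_coe a _))).trans ((evS_ann H h _ m.1.le m.2 _ v u).trans ?_)
        rw [n] at a ⊢
        exact congrArg (fun e => (D3 H h).p0 u (pt d.Y d.T.ls (d.i y) e))
          (Pu.F5_in H h (x := (y, v, z)) a).symm
  have k2 : KA ((cR (G.f.comp (F.f.comp D.c))).comp (D3 H h).p0) w =
      pull D.c (pull F.f (pull G.f c.T)) :=
    (ka_comp _ _ w).trans ((congrArg (pull (G.f.comp (F.f.comp D.c))) P.p0).trans
      ((pull_comp _ _ _).trans (pull_comp _ _ _)))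
  refine (k2.symm.trans (k1.symm.trans (k.symm.trans k0))).trans ((congrArg _ hD).trans
    ((B.pull_sm _ _).trans (congrArg₂ D.P.sm ?_ ?_)))
  · refine (pull_congr (g := GC.f) (fun x => by obtain ⟨z, rfl⟩ := GS.pr_surj _ x; rfl) _).trans
      ((map_add _ _ _).trans (congrArg₂ (· + ·) (pull_sq _ _ _ _ GC.hp al) (GC.pull_sm _ _)))
  · exact pull_sq _ _ _ _ (fun x => by obtain ⟨y, v, rfl⟩ := pt_surj x; rfl) _

end Crest.Agent.N218.D6.Lj.E3

end
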