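import Crest.Agent.N218.D6.Lj1

/-! Row 218, block D6 (helper56): the map on the fixed part (leaf GN). -/

set_option autoImplicit false
set_option linter.unusedVariables false
set_option linter.unusedSectionVars false
set_option maxHeartbeats 400000

open Crest.Agent.R204.K357 unitInterval Topology Filter Set OnePoint

noncomputable section

namespace Crest.Agent.N218.D6.Lj

open K

namespace Gn

theorem map_ct {A B : Type} [TopologicalSpace A] [TopologicalSpace B] [T2Space A] [T2Space B]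
    {f : A → B} {r : B → A} (hf : Continuous f) (hr : Continuous r) (e : ∀ a, r (f a) = a) :
    Continuous (OnePoint.map f) :=
  OnePoint.continuous_map hf (by
    rw [coclosedCompact_eq_cocompact, coclosedCompact_eq_cocompact]
    exact (Function.LeftInverse.isClosedEmbedding e hr hf).tendsto_cocompact)

variable {Γ Γ' : Type} [Group Γ] [TopologicalSpace Γ] [Group Γ'] [TopologicalSpace Γ']
  [CompactSpace Γ] [CompactSpace Γ'] {d : LD Γ Γ'}

theorem I1_ct : Continuous (OnePoint.map (I1 d)) :=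
  map_ct (r := fun m : d.M1.W => ((m.1.1, m.2) : (N d).W))
    ((continuous_fst.prodMk continuous_const).prodMk continuous_snd)
    (continuous_fst.fst.prodMk continuous_snd) fun _ => rfl
theorem I3_ct : Continuous (OnePoint.map (I3 d)) :=
  map_ct (r := fun m : d.M3.W => ((m.1.1, m.2) : (N d).W))
    ((continuous_fst.prodMk continuous_const).prodMk continuous_snd)
    (continuous_fst.fst.prodMk continuous_snd) fun _ => rfl

theorem I1_act (g : Γ) (n : OnePoint (N d).W) : OnePoint.map (I1 d) ((N d).ls.sph.act g n) =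
    d.M1.ls.sph.act g (OnePoint.map (I1 d) n) := by
  induction n using OnePoint.rec with
  | infty => rfl
  | coe n =>
    exact congrArg OnePoint.some (Prod.ext (Prod.ext rfl (map_zero (d.W1.ρ g)).symm) rfl)
theorem I3_act (g : Γ) (n : OnePoint (N d).W) : OnePoint.map (I3 d) ((N d).ls.sph.act g n) =
    d.M3.ls.sph.act g (OnePoint.map (I3 d) n) := by
  induction n using OnePoint.rec with
  | infty => rfl
  | coe n =>
    exact congrArg OnePoint.some (Prod.ext (Prod.ext rfl (map_zero (d.Z1.ρ g)).symm) rfl)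

theorem g13 (h : d.Ok) (p : d.Y.Z × Circle) (n : OnePoint (N d).W) :
    opx d.g1 (p, OnePoint.map (I1 d) n) = opx d.g3 (p, OnePoint.map (I3 d) n) := by
  induction n using OnePoint.rec with
  | infty => rfl
  | coe n => exact congrArg (fun a => wdg (a, (n.2 : OnePoint d.R.W))) (h.e0 p n.1)

theorem dk_jD (y : d.Y.Z) {ζ : OnePoint ℂ} (h1 : 1 ≤ nr ζ) (h2 : nr ζ < 2) :
    ((y, dk ζ) : (YD d).Z) = jD d (y, ph ζ) :=
  let ⟨_, _, _, e⟩ := mid h1 h2; Prod.ext rfl (Subtype.ext e)

theorem ph_act (g : Γ) {ζ : OnePoint ℂ} (h1 : 1 ≤ nr ζ) (h2 : nr ζ < 2) :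
    ph ((L d).sph.act g ζ) = d.χ g * ph ζ := by
  obtain ⟨_, _, _, e⟩ := mid h1 h2
  obtain ⟨_, _, _, e'⟩ := mid (ζ := (L d).sph.act g ζ) ((nr_act _ _ g ζ).symm ▸ h1)
    ((nr_act _ _ g ζ).symm ▸ h2)
  refine Circle.ext (e'.symm.trans ((congrArg Subtype.val (dk_act _ _ g ζ)).trans ?_))
  exact congrArg (fun a : ℂ => (d.χ g : ℂ) * a) e

variable (H : PMS) (h : d.Ok)

theorem ev_ct (u : (D3 H h).W) : Continuous fun z : (d.Y.Z × OnePoint ℂ) × OnePoint (N d).W =>
    evN H h z.1.1 z.1.2 z.2 u := by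
  have p := (H d h).1
  have c : Continuous fun z : (d.Y.Z × OnePoint ℂ) × OnePoint (N d).W =>
      ((z.1.1, dk z.1.2) : (YD d).Z) :=
    continuous_fst.fst.prodMk (dk.continuous.comp continuous_fst.snd)
  refine (D3 H h).ev_cont (nr.continuous.comp continuous_fst.snd)
    (cont_pt.comp (c.prodMk (I3_ct.comp continuous_snd))) ?_
    (cont_pt.comp (c.prodMk (I1_ct.comp continuous_snd))) (fun z e => ?_) (fun z e => ?_) u
  · exact cont_pt.comp_continuousOn (continuous_fst.fst.continuousOn.prodMk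
      (p.eqm.f.continuous.comp_continuousOn ((continuous_fst.fst.continuousOn.prodMk
        (ph_cont.comp continuous_fst.snd.continuousOn fun _ a => a)).prodMk
          (I1_ct.comp continuous_snd).continuousOn)))
  · have e' : nr z.1.2 = 5 / 4 := e
    exact ⟨pt d.YC d.M3.ls (z.1.1, ph z.1.2) (OnePoint.map (I3 d) z.2),
      congrArg (fun a => pt (YD d) d.M3.ls a _) (dk_jD z.1.1 (by linarith) (by linarith)),
      congrArg (pt d.Y d.T.ls z.1.1) (g13 h _ _)⟩
  · have e' : nr z.1.2 = 3 / 2 := e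
    exact ⟨pt d.YC d.M1.ls (z.1.1, ph z.1.2) (OnePoint.map (I1 d) z.2),
      congrArg (fun a => pt (YD d) d.M1.ls a _) (dk_jD z.1.1 (by linarith) (by linarith)), rfl⟩

theorem ev_act (g : Γ) (y : d.Y.Z) (ζ : OnePoint ℂ) (n : OnePoint (N d).W) (u : (D3 H h).W) :
    evN H h (d.Y.act g y) ((L d).sph.act g ζ) ((N d).ls.sph.act g n) u = evN H h y ζ n u := by
  have a : nr ((L d).sph.act g ζ) = nr ζ := nr_act _ _ g ζ
  have b : ((d.Y.act g y, dk ((L d).sph.act g ζ)) : (YD d).Z) = (YD d).act g (y, dk ζ) :=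
    Prod.ext rfl (dk_act _ _ g ζ)
  simp only [evN, ev3, T3.ev_eq, a, b, I1_act, I3_act]
  split_ifs with h1 h2
  · exact congrArg _ (pt_act (Y := YD d) (M := d.M3.ls) g (y, dk ζ) _)
  · rw [ph_act g (by linarith) (by linarith)]
    refine congrArg _ (Eq.trans (congrArg _ ?_) (pt_act g y _))
    exact (H d h).1.eqm.hf g (y, ph ζ) (OnePoint.map (I1 d) n)
  · exact congrArg _ (pt_act (Y := YD d) (M := d.M1.ls) g (y, dk ζ) _)

end Gn
open Gn

/-- **leaf GN** -/
theorem gn : GN := fun d H h =>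
  ⟨Orb.mkH ((d.Y.prod (L d).sph).prod (N d).ls.sph) (fun z => evN H h z.1.1 z.1.2 z.2)
    (ev_ct H h) fun g z u => ev_act H h g z.1.1 z.1.2 z.2 u, fun _ _ _ _ => rfl⟩

end Crest.Agent.N218.D6.Lj

end
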