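import Crest.Agent.N218.D6.Lj1

/-! Row 218, block D6 (helper21): invariance and continuity of the evaluation on the source. -/

set_option autoImplicit false
set_option linter.unusedVariables false
set_option linter.unusedSectionVars false

open unitInterval Topology Filter Set OnePoint

noncomputable section

namespace Crest.Agent.N218.D6.Lj

open K

theorem gs : GS' := by
  intro Γ Γ' _ _ _ _ _ _ d H h
  obtain ⟨-, -, p1, p3, e1, e0, eq, ct⟩ := id (H d h)
  refine ⟨fun g y ζ e u => ?_, fun Q _ _ y ζ η cy cζ cη hη u => ?_⟩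
  · have a : ∀ (M : LS Γ) (w : OnePoint M.Z), pt (YD d) M (d.Y.act (d.φ g) y, dk ζ)
        (M.sph.act (d.φ g) w) = pt (YD d) M (y, dk ζ) w := fun M w => by
      refine Eq.trans (congrArg (fun z => pt (YD d) M (_, z) _) (Subtype.ext ?_))
        (pt_act (Y := YD d) (d.φ g) (y, dk ζ) w)
      change _ = (d.χ (d.φ g) : ℂ) * _
      rw [(h.ker _).2 ⟨g, rfl⟩, Circle.coe_one, one_mul]
    refine congrArg (· u) (congr (congr (congrArg ((D3 H h).ev _)
      (Eq.trans (congrArg _ ?_) (a _ _))) (Eq.trans (congrArg _ ?_) (pt_act (d.φ g) y _)))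
      (Eq.trans (congrArg _ ?_) (a _ _))) <;> induction e using OnePoint.rec
    exacts [rfl, p3.eq g y _, rfl, eq g y (ph ζ) (tt (nr ζ)) _ _, rfl, p1.eq g y _]
  have cw : Continuous fun x : Q × OnePoint d.S.W => (y x.1, wdg (η x.1, x.2)) :=
    (cy.comp continuous_fst).prodMk (continuous_wdg.comp (by fun_prop))
  have cd : Continuous fun x : Q × OnePoint d.S.W => (y x.1, dk (ζ x.1)) := by fun_prop
  have md : ∀ ζ, 1 ≤ nr ζ → nr ζ < 2 → ∀ y, (y, dk ζ) = jD d (y, ph ζ) := fun ζ a b y =>
    let ⟨_, _, _, e⟩ := mid a b; Prod.ext rfl (Subtype.ext e)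
  refine (D3 H h).ev_cont (n := fun x : Q × OnePoint d.S.W => nr (ζ x.1)) (by fun_prop)
    ((cont_pt (Y := YD d) (M := d.M3.ls)).comp (cd.prodMk ((continuous_opx p3.ct p3.pr).comp cw))) ?_
    ((cont_pt (Y := YD d) (M := d.M1.ls)).comp (cd.prodMk ((continuous_opx p1.ct p1.pr).comp cw)))
    (fun z e => ⟨pt d.YC d.M3.ls (y z.1, ph (ζ z.1)) (opx (fun x => (d.b3 x : OnePoint d.M3.W))
      (y z.1, wdg (η z.1, z.2))), congrArg (pt (YD d) d.M3.ls · _)
      (md _ (by linarith) (by linarith) _), congrArg (pt d.Y d.T.ls _) ?_⟩)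
    (fun z e => ⟨pt d.YC d.M1.ls (y z.1, ph (ζ z.1)) (opx (fun x => (d.b1 x : OnePoint d.M1.W))
      (y z.1, wdg (η z.1, z.2))), congrArg (pt (YD d) d.M1.ls · _)
      (md _ (by linarith) (by linarith) _), congrArg (pt d.Y d.T.ls _) ?_⟩) u
  · let P := {q : Q // 5 / 4 ≤ nr (ζ q) ∧ nr (ζ q) ≤ 3 / 2}
    have cn : Continuous fun q => nr (ζ q) := by fun_prop
    have : CompactSpace P := isCompact_iff_compactSpace.1
      ((isClosed_le continuous_const cn).inter (isClosed_le cn continuous_const)).isCompact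
    have v : ∀ q : P, ((vl (η q.1) : d.U.W) : OnePoint d.U.W) = η q.1 := fun q => by
      have := hη q.1 q.2.1 q.2.2
      induction e : η q.1 using OnePoint.rec with
      | infty => exact absurd e this
      | coe a => rfl
    obtain ⟨c, p⟩ := ct P ⟨fun q => y q.1, cy.comp continuous_subtype_val⟩
      ⟨fun q => ph (ζ q.1), ph_cont.comp_continuous (cζ.comp continuous_subtype_val) fun q => q.2⟩
      ⟨fun q => tt (nr (ζ q.1)), Continuous.comp (g := fun q => tt (nr (ζ q)))
        (by unfold tt; fun_prop) continuous_subtype_val⟩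
      ⟨fun q => vl (η q.1), isOpenEmbedding_coe.isInducing.continuous_iff.2
        ((cη.comp continuous_subtype_val).congr fun q => (v q).symm)⟩
    rw [continuousOn_iff_continuous_domRestrict]
    refine ((cont_pt (Y := d.Y) (M := d.T.ls)).comp ((cy.comp continuous_subtype_val.fst).prodMk
      ((continuous_opx c p).comp (f := fun z => ((⟨z.1.1, z.2⟩ : P), z.1.2))
        ((continuous_subtype_val.fst.subtype_mk _).prodMk continuous_subtype_val.snd)))).congr ?_
    rintro ⟨⟨q, w⟩, m⟩
    refine congrArg (pt d.Y d.T.ls _) ?_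
    change _ = opx (hz d) (_, wdg (η q, w))
    rw [← v ⟨q, m⟩]
    induction w using OnePoint.rec <;> rfl
  · change opx (hz d) (_, wdg (η z.1, z.2)) = opx d.g3 (_, opx _ (_, wdg (η z.1, z.2)))
    induction wdg (η z.1, z.2) using OnePoint.rec with
    | infty => rfl
    | coe w => exact (congrArg (d.hh _ _ · _ _) (by rw [e]; norm_num [tt])).trans (e0 _ _ w.1 w.2)
  · change opx (hz d) (_, wdg (η z.1, z.2)) = opx d.g1 (_, opx _ (_, wdg (η z.1, z.2)))
    induction wdg (η z.1, z.2) using OnePoint.rec with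
    | infty => rfl
    | coe w => exact (congrArg (d.hh _ _ · _ _) (by rw [e]; norm_num [tt])).trans (e1 _ _ w.1 w.2)

end Crest.Agent.N218.D6.Lj

end
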