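import Crest.Agent.N218.D6.Lj1
import Crest.Agent.N218.K.K1

/-! Row 218, block D6 (helper99): the leaf `PAT` of the cut `Lj1`. -/

set_option autoImplicit false
set_option linter.unusedVariables false
set_option linter.unusedSectionVars false

open Crest.Agent.R204.K357 unitInterval Topology Filter Set OnePoint

noncomputable section

namespace Crest.Agent.N218.D6.Lj

open K

variable {Γ Γ' : Type} [Group Γ] [TopologicalSpace Γ] [Group Γ'] [TopologicalSpace Γ']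
  [CompactSpace Γ] [CompactSpace Γ']

namespace Pt

variable (d : LD Γ Γ')

/-- base change to the circle bundle -/
def bC (M : LS Γ) : EqM d.YC M d.Y M id .fst := eB (Y₂ := d.YC) .fst (fun _ _ => rfl) M
/-- the projection of the circle bundle -/
def fC : C(d.YC.Q, d.Y.Q) := GS.qmap d.YC d.Y .fst fun g _ => ⟨g, rfl⟩
/-- restriction of the group -/
def rE (V : LS Γ) : EqM d.Y' (V.res d.φ d.hφ) d.Y V d.φ (.id _) :=
  Eqv.eqm (Y := d.Y) (Y' := d.Y') d.hφ (g := .id _) (fun _ _ => rfl) V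
/-- the section at the phase one -/
def s1 : C(d.Y'.Z, d.YC.Z) :=
  ⟨fun y : d.Y.Z => ((y, (1 : Circle)) : d.Y.Z × Circle), continuous_id.prodMk continuous_const⟩

variable {d}

theorem s1_eqv (h : d.Ok) : Eqv (Y := d.YC) (Y' := d.Y') d.φ (s1 d) := fun γ y =>
  Prod.ext rfl (show (1 : Circle) = d.χ (d.φ γ) * 1 by rw [(h.ker _).2 ⟨γ, rfl⟩, one_mul])

/-- the identification of the two quotients -/
def sg (h : d.Ok) : C(d.Y'.Q, d.YC.Q) :=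
  GS.qmap d.Y' d.YC (s1 d) fun g y => ⟨d.φ g, (s1_eqv h g y).symm⟩

theorem sg_bij (h : d.Ok) : Function.Bijective (sg h) := by
  refine ⟨fun x x' e => ?_, fun x => ?_⟩
  · obtain ⟨y, rfl⟩ := d.Y'.pr_surj x
    obtain ⟨y', rfl⟩ := d.Y'.pr_surj x'
    obtain ⟨g, k⟩ := d.YC.pr_eq.1 (show d.YC.pr (s1 d y) = d.YC.pr (s1 d y') from e)
    have k2 : d.χ g * 1 = 1 := congrArg Prod.snd k
    obtain ⟨g', rfl⟩ := (h.ker g).1 ((mul_one _).symm.trans k2)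
    exact d.Y'.pr_eq.2 ⟨g', congrArg Prod.fst k⟩
  · obtain ⟨⟨y, θ⟩, rfl⟩ := d.YC.pr_surj x
    obtain ⟨g, rfl⟩ := h.sj θ
    refine ⟨d.Y'.pr (d.Y.act g⁻¹ y), d.YC.pr_eq.2 ⟨g, Prod.ext ?_ (mul_one (d.χ g))⟩⟩
    exact d.Y.ls.act_inv g y

theorem fC_sg (h : d.Ok) (κ : KX d.Y.Q) : pull (sg h) (pull (fC d) κ) = pull d.π κ :=
  pull_pull _ _ _ (fun x => by obtain ⟨y, rfl⟩ := d.Y'.pr_surj x; rfl) κ

theorem fC_surj (h : d.Ok) (s : Function.Surjective (pull d.π)) :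
    Function.Surjective (pull (fC d)) := fun k =>
  let ⟨κ, e⟩ := s (pull (sg h) k)
  ⟨κ, (pull_bij _ (sg_bij h)).1 ((fC_sg h κ).trans e)⟩

theorem jE_inj (M : LS Γ) : Function.Injective (jE d M).hm.f := fun x x' e => by
  obtain ⟨⟨y, θ⟩, w, rfl⟩ := pt_surj x
  obtain ⟨⟨y', θ'⟩, w', rfl⟩ := pt_surj x'
  obtain ⟨g, k⟩ := ((YD d).prod M.sph).pr_eq.1
    (show ((YD d).prod M.sph).pr (jD d (y, θ), w) = ((YD d).prod M.sph).pr (jD d (y', θ'), w') from e)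
  refine (d.YC.prod M.sph).pr_eq.2 ⟨g, Prod.ext (Prod.ext (congrArg (fun z : (d.Y.Z × Cp.UD) × OnePoint M.Z => z.1.1) k) ?_)
    (congrArg (fun z : (d.Y.Z × Cp.UD) × OnePoint M.Z => z.2) k)⟩
  exact Subtype.ext (congrArg (fun z : (d.Y.Z × Cp.UD) × OnePoint M.Z => (z.1.2 : ℂ)) k)

/-- the degree of a gluing map comes from the base -/
theorem deg (h : d.Ok) (s : Function.Surjective (pull d.π)) {M : LS Γ}
    {g : d.YC.Z × M.Z → OnePoint d.T.W} (p : Pm d.YC M d.T.ls g) {l : KS d.Y M} (u : UT d.Y M l)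
    {t : KS d.Y d.T.ls} (ht : (Sb d.Y d.T.ls).Rd t) :
    ∃ κ, pull (gE d p).hm.f t = pull (bC d M).hm.f ((Sb d.Y M).sm κ l) := by
  obtain ⟨k, e⟩ := (u.base (Y' := d.YC) .fst (fun _ _ => rfl) (F := (bC d M).hm.f)
    fun _ _ => rfl).ex (ht.hm (gE d p).hm)
  obtain ⟨κ, rfl⟩ := fC_surj h s k
  exact ⟨κ, e.trans ((bC d M).hm.pull_sm κ l).symm⟩

theorem jb (M : LS Γ) (x : KS d.Y M) :
    pull (jE d M).hm.f (pull (bD d M).hm.f x) = pull (bC d M).hm.f x :=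
  pull_pull _ _ _ (fun e => by obtain ⟨y, w, rfl⟩ := pt_surj e; rfl) x

theorem xm3 {A A' B C : LS Γ} (G : EqM d.Y' (A.res d.φ d.hφ) d.Y A' d.φ (.id _))
    (F : C((Sb d.Y' (((A.res d.φ d.hφ).prod (B.res d.φ d.hφ)).prod (C.res d.φ d.hφ))).E,
      (Sb d.Y ((A'.prod B).prod C)).E))
    (h0 : ∀ y, F (pt d.Y' _ y ∞) = pt d.Y _ y ∞)
    (hF : ∀ y (a : A.Z) (b : B.Z) (c : C.Z), F (pt d.Y' _ y (OnePoint.some ((a, b), c))) =
      pt d.Y _ y (wdg (wdg (G.f (y, OnePoint.some a), OnePoint.some b), OnePoint.some c)))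
    {x : KS d.Y A'} {y : KS d.Y B} {z : KS d.Y C} (hx : (Sb _ _).Rd x) (hy : (Sb _ _).Rd y)
    (hz : (Sb _ _).Rd z) : pull F (xm (xm x y) z) =
      xm (xm (pull G.hm.f x) (pull (rE d B).hm.f y)) (pull (rE d C).hm.f z) := by
  obtain ⟨F1, a1, b1⟩ := exists_pr G (rE d B)
  obtain ⟨F2, a2, b2⟩ := exists_pr F1 (rE d C)
  rw [← b1 x y hx hy, ← b2 _ z (rd_xm x y) hz]
  refine pull_congr (fun e => ?_) _
  induction e using sb_ind with
  | h0 y => exact (h0 y).trans (congrArg (pt d.Y _ y) (F2.hi y).symm)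
  | h1 y v =>
    obtain ⟨⟨a, b⟩, c⟩ := v
    refine (hF y a b c).trans (congrArg (pt d.Y _ y) ?_)
    exact ((a2 y (OnePoint.some (a, b)) (OnePoint.some c)).trans
      (congrArg (fun q => wdg (q, OnePoint.some c)) (a1 y (OnePoint.some a) (OnePoint.some b)))).symm

theorem sm3 {Y : GS Γ'} {A B C : LS Γ'} (a : KX Y.Q) (x : KS Y A) (y : KS Y B) (z : KS Y C) :
    (Sb Y ((A.prod B).prod C)).sm a (xm (xm x y) z) = xm (xm ((Sb Y A).sm a x) y) z := by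
  rw [sm_xm, sm_xm]

/-- the retraction onto the section -/
def sp {X : Type} [TopologicalSpace X] (A : Ex X) : C(A.E, A.E) := A.s.comp A.p

theorem pull_sp' {X : Type} [TopologicalSpace X] {A : Ex X} {x : KX A.E} (h : A.Rd x) :
    pull (sp A) x = 0 := by
  rw [sp, pull_comp, show pull A.s x = 0 from h, map_zero]

end Pt

open Pt

/-- **leaf PAT** -/
theorem pat : PAT := by
  intro Γ Γ' _ _ _ _ _ _ d H h s c
  obtain ⟨κ1, e1⟩ := deg h s (H d h).1 c.uM1 c.uT.1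
  obtain ⟨κ3, e3⟩ := deg h s (H d h).2.1 c.uM3 c.uT.1
  obtain ⟨w, q0, q1, q3⟩ := (D3 H h).patch (jE_inj _) (jE_inj _) (x0 := c.T)
    (x1 := pull (bD d d.M1.ls).hm.f ((Sb d.Y d.M1.ls).sm κ1 c.M1))
    (x3 := pull (bD d d.M3.ls).hm.f ((Sb d.Y d.M3.ls).sm κ3 c.M3))
    ((jb _ _).trans e1.symm) ((jb _ _).trans e3.symm)
  let r := (D3 H h).en (sp (Sb d.Y d.T.ls)) (sp (Sb (YD d) d.M1.ls)) (sp (Sb (YD d) d.M3.ls))
    (fun e => by obtain ⟨y, v, rfl⟩ := pt_surj e; exact ⟨pt _ _ y ∞, rfl, rfl⟩)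
    (fun e => by obtain ⟨y, v, rfl⟩ := pt_surj e; exact ⟨pt _ _ y ∞, rfl, rfl⟩)
  refine ⟨w - KA r w, κ1, κ3, ?_, ?_, ?_, fun B _ f hf => ?_, fun G hG => ?_⟩
  · rw [map_sub, ka_sq (D3 H h).p0 r (cR (sp (Sb d.Y d.T.ls))) (D3 H h).p0 (fun _ => rfl), q0]
    exact sub_eq_self.2 (pull_sp' c.uT.1)
  · rw [map_sub, ka_sq (D3 H h).p1 r (cR (sp (Sb (YD d) d.M1.ls))) (D3 H h).p1 (fun _ => rfl), q1]
    exact sub_eq_self.2 (pull_sp' ((c.uM1.1.sm κ1).hm (bD d _).hm))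
  · rw [map_sub, ka_sq (D3 H h).p3 r (cR (sp (Sb (YD d) d.M3.ls))) (D3 H h).p3 (fun _ => rfl), q3]
    exact sub_eq_self.2 (pull_sp' ((c.uM3.1.sm κ3).hm (bD d _).hm))
  · rw [map_sub, ka_ka f r f (fun u => ContinuousMap.ext fun b => ?_), sub_self]
    obtain ⟨y, ζ, k⟩ := hf b
    rw [k, k, ev3, T3.ev_eq, T3.ev_eq]
    rfl
  · let S := ((s1_eqv h).eqm d.hφ d.M3.ls).hm
    have k := congrArg (pull S.f) e3
    rw [← pull_comp, (bC d d.M3.ls).hm.pull_sm, S.pull_sm, ← pull_comp S.f] at k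
    have k1 := xm3 (A := d.W0.ls) (B := d.Z1.ls) (C := d.R.ls) G
      ((gE d (H d h).2.1).hm.f.comp S.f) (fun _ => rfl) (fun y a b c =>
        congrArg (fun q => pt d.Y d.T.ls y (wdg (wdg (q, OnePoint.some b), OnePoint.some c)))
          (hG y a).symm) c.uZ0.1 c.uZ1.1 c.uR.1
    have k2 := xm3 (A := d.W0.ls) (B := d.Z1.ls) (C := d.R.ls) (rE d d.W0.ls)
      ((bC d d.M3.ls).hm.f.comp S.f) (fun _ => rfl) (fun y a b c => rfl) c.uW0.1 c.uZ1.1 c.uR.1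
    have k3 := k1.symm.trans (k.trans (congrArg₂ (Sb d.Y' _).sm (fC_sg h κ3) k2))
    have k4 := k3.trans (sm3 (pull d.π κ3) (pull (rE d d.W0.ls).hm.f c.W0)
      (pull (rE d d.Z1.ls).hm.f c.Z1) (pull (rE d d.R.ls).hm.f c.R))
    exact (ut_rs c.uZ1).inj_r (c.uZ0.1.hm G.hm) ((ut_rs c.uW0).1.sm _)
      ((ut_rs c.uR).inj_r (rd_xm _ _) (rd_xm _ _) k4)

end Crest.Agent.N218.D6.Lj

end
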