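import Crest.Agent.N218.D6.Lj1
import Crest.Agent.N218.K.K1

/-! Row 218, block D6 (helper39): leaf PAT. -/

set_option autoImplicit false
set_option linter.unusedVariables false
set_option linter.unusedSectionVars false

open Crest.Agent.R204.K357 unitInterval Topology Filter Set OnePoint

noncomputable section

namespace Crest.Agent.N218.D6.Lj

open K

namespace P2

variable {Γ Γ' : Type} [Group Γ] [TopologicalSpace Γ] [Group Γ'] [TopologicalSpace Γ']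
  [CompactSpace Γ] [CompactSpace Γ'] {d : LD Γ Γ'}

/-- base change to the circle bundle -/
def bC (d : LD Γ Γ') (M : LS Γ) : EqM d.YC M d.Y M id .fst := eB (Y₂ := d.YC) .fst (fun _ _ => rfl) M

/-- the slice -/
def sg (h : d.Ok) (M : LS Γ) : EqM d.Y' (M.res d.φ d.hφ) d.YC M d.φ
    ⟨fun y : d.Y.Z => ((y, 1) : d.Y.Z × Circle), by fun_prop⟩ where
  f := .snd
  hg g y := Prod.ext rfl (show (1 : Circle) = d.χ (d.φ g) * 1 by rw [(h.ker _).2 ⟨g, rfl⟩, one_mul])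
  hf g y w := by induction w using OnePoint.rec <;> rfl
  hi _ := rfl

theorem sg_bij (h : d.Ok) (M : LS Γ) : Function.Bijective (sg h M).b := by
  refine ⟨fun a b e => ?_, fun a => ?_⟩
  · obtain ⟨y, rfl⟩ := d.Y'.pr_surj a
    obtain ⟨y', rfl⟩ := d.Y'.pr_surj b
    obtain ⟨g, e⟩ := d.YC.pr_eq.1 (show d.YC.pr (y, (1 : Circle)) = d.YC.pr (y', (1 : Circle)) from e)
    obtain ⟨g', rfl⟩ := (h.ker g).1 ((mul_one _).symm.trans (congrArg Prod.snd e))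
    exact d.Y'.pr_eq.2 ⟨g', congrArg Prod.fst e⟩
  · obtain ⟨⟨y, θ⟩, rfl⟩ := d.YC.pr_surj a
    obtain ⟨g, e⟩ := h.sj (show Circle from θ)⁻¹
    have k : d.YC.act g (y, θ) = (d.Y.act g y, (1 : Circle)) :=
      Prod.ext rfl ((congrArg (· * (show Circle from θ)) e).trans (inv_mul_cancel _))
    exact ⟨d.Y'.pr (d.Y.act g y), (d.YC.pr_eq.2 ⟨g, k⟩).symm⟩

theorem lift (h : d.Ok) (s : Function.Surjective (pull d.π)) (M : LS Γ) (k : KX d.YC.Q) :
    ∃ κ, pull (bC d M).b κ = k ∧ pull d.π κ = pull (sg h M).b k := by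
  obtain ⟨κ, e⟩ := s (pull (sg h M).b k)
  refine ⟨κ, (pull_bij _ (sg_bij h M)).1 (Eq.trans (pull_pull _ _ d.π (fun x => ?_) κ) e), e⟩
  obtain ⟨y, rfl⟩ := d.Y'.pr_surj x; rfl

theorem th_bC {M : LS Γ} {l : KS d.Y M} (u : UT d.Y M l) : (Sb d.YC M).Th (pull (bC d M).hm.f l) :=
  u.base (Y' := d.YC) .fst (fun _ _ => rfl) fun _ _ => rfl

theorem j_bD (M : LS Γ) (κ : KX d.Y.Q) (l : KS d.Y M) :
    pull (jE d M).hm.f (pull (bD d M).hm.f ((Sb d.Y M).sm κ l)) =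
      (Sb d.YC M).sm (pull (bC d M).b κ) (pull (bC d M).hm.f l) :=
  (pull_pull _ _ (bC d M).hm.f (fun e => by obtain ⟨y, w, rfl⟩ := pt_surj e; rfl) _).trans
    ((bC d M).hm.pull_sm κ l)

theorem bC_xm {V U : LS Γ} {l : KS d.Y V} {m : KS d.Y U} (a : (Sb _ _).Rd l) (b : (Sb _ _).Rd m) :
    pull (bC d (V.prod U)).hm.f (xm l m) = xm (pull (bC d V).hm.f l) (pull (bC d U).hm.f m) :=
  (bC d V).xm_nat (bC d U) _ (fun _ _ _ => rfl) a b

theorem jE_inj (M : LS Γ) : Function.Injective (jE d M).hm.f := fun a b e => by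
  obtain ⟨y, w, rfl⟩ := pt_surj a
  obtain ⟨y', w', rfl⟩ := pt_surj b
  obtain ⟨g, e1, e2⟩ := pt_iff.1 (show pt (YD d) M (jD d y) w = pt (YD d) M (jD d y') w' from e)
  exact pt_iff.2 ⟨g, Prod.ext (congrArg (fun z : (YD d).Z => z.1) e1)
    (Circle.ext (congrArg (fun z : (YD d).Z => (show Cp.UD from z.2).1) e1)), e2⟩

theorem sp_rd {X : Type} [TopologicalSpace X] {A : Ex X} {x : KX A.E} (r : A.Rd x) :
    KA (cR (A.s.comp A.p)) x = 0 :=
  (pull_cm A.p A.s x).trans (by rw [show pull A.s x = 0 from r, map_zero])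

variable (H : PMS) (h : d.Ok)

/-- the retraction to the base -/
def rt : (D3 H h).W →ₐ[ℂ] (D3 H h).W :=
  (D3 H h).en ((Sb _ _).s.comp (Sb _ _).p) ((Sb _ _).s.comp (Sb _ _).p) ((Sb _ _).s.comp (Sb _ _).p)
    (fun c => ⟨(Sb _ _).s ((Sb _ _).p c), by
      obtain ⟨y, w, rfl⟩ := pt_surj c; exact ⟨rfl, rfl⟩⟩)
    fun c => ⟨(Sb _ _).s ((Sb _ _).p c), by
      obtain ⟨y, w, rfl⟩ := pt_surj c; exact ⟨rfl, rfl⟩⟩

theorem ev_rt (y : d.Y.Z) (ζ : OnePoint ℂ) (u : (D3 H h).W) :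
    ev3 H h y ζ ∞ ∞ ∞ (rt H h u) = ev3 H h y ζ ∞ ∞ ∞ u := by
  unfold ev3
  rw [T3.ev_eq, T3.ev_eq]
  rfl

theorem g3 (c : Cl d) {k : KX d.YC.Q} (G : EqM d.YC d.W0.ls d.Y d.Z0.ls id .fst)
    (hG : ∀ y (v : d.W0.W), G.f (y, (v : OnePoint d.W0.W)) = d.γ0 (y, v))
    (e : pull G.hm.f c.Z0 = (Sb _ _).sm k (pull (bC d _).hm.f c.W0)) :
    pull (D3 H h).g3 c.T = (Sb _ _).sm k (pull (bC d d.M3.ls).hm.f c.M3) := by
  obtain ⟨F, f1, f2⟩ := exists_pr G (bC d d.Z1.ls)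
  have a := F.xm_nat (bC d d.R.ls) (D3 H h).g3 (fun y w u => ?_) c.uZ.1 c.uR.1
  · have b := f2 _ _ c.uZ0.1 c.uZ1.1
    have b' := bC_xm (V := d.W0.ls.prod d.Z1.ls) (U := d.R.ls) (rd_xm c.W0 c.Z1) c.uR.1
    rw [e, sm_xm, ← bC_xm c.uW0.1 c.uZ1.1] at b
    exact a.trans ((congrArg (xm · _) b).trans ((sm_xm _ _ _).trans (congrArg _ b'.symm)))
  · refine congrArg (pt d.Y d.T.ls y.1) ?_
    induction w using OnePoint.rec with
    | infty => exact congrArg (fun a => wdg (a, u)) (F.hi y).symm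
    | coe w =>
      induction u using OnePoint.rec with
      | infty => exact (wdg_r _).symm
      | coe u =>
        exact congrArg (fun a => wdg (a, OnePoint.some u))
          ((congrArg (fun a => wdg (a, OnePoint.some w.2)) (hG y w.1).symm).trans
            (f1 y w.1 w.2).symm)

end P2

open P2 in
/-- **PAT** -/
theorem pat2 : PAT := by
  intro Γ Γ' _ _ _ _ _ _ d H h s c
  let G0 : EqM d.YC d.W0.ls d.Y d.Z0.ls id .fst :=
    ⟨h.pγ0.eqm.f, fun _ _ => rfl, h.pγ0.eqm.hf, h.pγ0.eqm.hi⟩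
  obtain ⟨k1, e1⟩ := (th_bC c.uM1).ex (c.uT.1.hm (gE d (H d h).1).hm)
  obtain ⟨k3, e3⟩ := (th_bC c.uW0).ex (c.uZ0.1.hm G0.hm)
  obtain ⟨κ1, rfl, -⟩ := lift h s d.M1.ls k1
  obtain ⟨κ3, a3, b3⟩ := lift h s d.M3.ls k3
  have e4 := g3 H h c G0 (fun _ _ => rfl) e3
  obtain ⟨w, w0, w1, w3⟩ := (D3 H h).patch (jE_inj _) (jE_inj _)
    ((j_bD _ κ1 c.M1).trans e1.symm) ((j_bD _ κ3 c.M3).trans ((congrArg ((Sb _ _).sm · _) a3).trans e4.symm))
  · refine ⟨w - KA (rt H h) w, κ1, κ3, ?_, ?_, ?_, fun B _ f hf => ?_, fun G hG => ?_⟩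
    · rw [map_sub, ← ka_comp, show (D3 H h).p0.comp (rt H h) =
        (cR ((Sb _ _).s.comp (Sb _ _).p)).comp (D3 H h).p0 from rfl, ka_comp, w0, sp_rd c.uT.1, sub_zero]
    · rw [map_sub, ← ka_comp, show (D3 H h).p1.comp (rt H h) =
        (cR ((Sb _ _).s.comp (Sb _ _).p)).comp (D3 H h).p1 from rfl, ka_comp, w1,
        sp_rd ((c.uM1.1.sm κ1).hm (bD d _).hm), sub_zero]
    · rw [map_sub, ← ka_comp, show (D3 H h).p3.comp (rt H h) =
        (cR ((Sb _ _).s.comp (Sb _ _).p)).comp (D3 H h).p3 from rfl, ka_comp, w3,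
        sp_rd ((c.uM3.1.sm κ3).hm (bD d _).hm), sub_zero]
    · rw [map_sub, ← ka_comp, show f.comp (rt H h) = f from AlgHom.ext fun u =>
        ContinuousMap.ext fun b => let ⟨y, ζ, e⟩ := hf b
          (e _).trans ((ev_rt H h y ζ u).trans (e u).symm), sub_self]
    · have k := congrArg (pull (sg h d.W0.ls).hm.f) e3
      rw [(sg h d.W0.ls).hm.pull_sm] at k
      refine ((pull_pull (sg h d.W0.ls).hm.f G0.hm.f G.hm.f (fun e => ?_) _).symm.trans k).trans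
        (congrArg₂ (Sb _ _).sm b3.symm (pull_pull _ _ _ (fun e => ?_) _))
      · induction e using sb_ind with
        | h0 y => exact congrArg (pt d.Y d.Z0.ls y) (G.hi y).symm
        | h1 y v => exact congrArg (pt d.Y d.Z0.ls y) (hG y v).symm
      · obtain ⟨y, w, rfl⟩ := pt_surj e; rfl

end Crest.Agent.N218.D6.Lj

end
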