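import Crest.Agent.N218.D6.Lj1

/-! Row 218, block D6 (helper34): leaf `POL`, the two poles. -/

set_option autoImplicit false
set_option linter.unusedVariables false
set_option linter.unusedSectionVars false

open Crest.Agent.R204.K357 unitInterval Topology Filter Set OnePoint

noncomputable section

namespace Crest.Agent.N218.D6.Lj

open K

variable {Γ : Type} [Group Γ] [TopologicalSpace Γ] [CompactSpace Γ]

/-- evaluation at a fixed point of the parameter space -/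
theorem pole {Y : GS Γ} {A R : LS Γ} {U : Rep Γ} {K K' : GS Γ} (a : K.Z) (ha : ∀ g, K.act g a = a)
    (a' : K'.Z) (ha' : ∀ g, K'.act g a' = a') {lA : KS Y A} {lU : KS Y U.ls} {lR : KS Y R}
    (rA : (Sb Y A).Rd lA) (rU : (Sb Y U.ls).Rd lU) (rR : (Sb Y R).Rd lR)
    (t : (Sb Y _).Th (xm lA lR)) {W : Type} [CommRing W] [Algebra ℂ W]
    (ι : W →ₐ[ℂ] C((Sb (Y.prod K) (A.prod R)).E, ℂ))
    (p : W →ₐ[ℂ] C((Sb (Y.prod K') ((A.prod U.ls).prod R)).E, ℂ))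
    (hι : ∀ u y n, ι u (pt (Y.prod K) (A.prod R) (y, a) n) = p u (pt (Y.prod K') _ (y, a')
      (OnePoint.map (fun n : A.Z × R.Z => ((n.1, (0 : U.W)), n.2)) n)))
    (q : C((Sb (Y.prod K) (A.prod R)).E, (Sb Y (A.prod R)).E))
    (hq : ∀ y n, q (pt (Y.prod K) _ (y, a) n) = pt Y _ y n)
    (b : C((Sb (Y.prod K') ((A.prod U.ls).prod R)).E, (Sb Y ((A.prod U.ls).prod R)).E))
    (hb : ∀ y n, b (pt (Y.prod K') _ (y, a') n) = pt Y _ y n)
    (z : C(Y.Q, (Y.prod K).Q)) (hz : ∀ y, z (Y.pr y) = (Y.prod K).pr (y, a))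
    {w : KC W} {κ : KX Y.Q} {ν : KX (Y.prod K).Q}
    (h1 : KA p w = pull b ((Sb Y _).sm κ (xm (xm lA lU) lR)))
    (h2 : KA ι w = (Sb (Y.prod K) _).sm ν (pull q (xm lA lR))) :
    pull z ν = κ * pull (z0 Y U) lU := by
  obtain ⟨F, hF, nat⟩ := exists_pr (eZ Y A U) (eI Y R)
  have hF' : ∀ y n, F.f (y, n) = OnePoint.map (fun n : A.Z × R.Z => ((n.1, (0 : U.W)), n.2)) n :=
    fun y n => by
      induction n using OnePoint.rec with
      | infty => exact F.hi y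
      | coe n => exact hF y (n.1 : OnePoint A.Z) (n.2 : OnePoint R.Z)
  let J := (eB (Y := Y.prod K) (Y₂ := Y) ⟨fun y => (y, a), by fun_prop⟩
    (fun g y => Prod.ext rfl (ha g).symm) (A.prod R)).hm
  let J' := (eB (Y := Y.prod K') (Y₂ := Y) ⟨fun y => (y, a'), by fun_prop⟩
    (fun g y => Prod.ext rfl (ha' g).symm) ((A.prod U.ls).prod R)).hm
  have e : pull J.f (KA ι w) = pull (J'.f.comp F.hm.f) (KA p w) :=
    ka_sq (cR J.f) ι (cR (J'.f.comp F.hm.f)) p (fun u => ContinuousMap.ext fun x => by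
      obtain ⟨y, n, rfl⟩ := pt_surj x
      exact (hι u y n).trans (congrArg (fun v => p u (pt (Y.prod K') _ (y, a') v)) (hF' y n).symm)) w
  rw [h1, h2, J.pull_sm, pull_pull_id J.f q (fun x => by obtain ⟨y, n, rfl⟩ := pt_surj x; exact hq y n),
    pull_pull _ b (Lj.h1 F).f (fun x => by obtain ⟨y, n, rfl⟩ := pt_surj x; exact hb y _),
    (Lj.h1 F).pull_sm, N218.K.pull_id] at e
  have e2 : pull (Lj.h1 F).f (xm (xm lA lU) lR) = (Sb Y _).sm (pull (z0 Y U) lU) (xm lA lR) :=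
    (nat (xm lA lU) lR ((smd Y A U.ls).rd_mul _ _) rR).trans (by rw [pull_eZ U rA rU, pull_eI, sm_xm])
  rw [e2, Ex.sm_sm] at e
  refine Eq.trans (pull_congr (fun x => ?_) ν) (t.inj e)
  obtain ⟨y, rfl⟩ := Y.pr_surj x
  exact hz y

section ev
variable {Γ' : Type} [Group Γ'] [TopologicalSpace Γ'] [CompactSpace Γ'] {d : LD Γ Γ'} (H : PMS)
  (h : d.Ok) (y : d.Y.Z) (a : OnePoint d.M3.W) (b : OnePoint d.T.W) (c : OnePoint d.M1.W)
  (u : (D3 H h).W)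
theorem ev_inf : ev3 H h y ∞ a b c u = (D3 H h).p1 u (pt (YD d) d.M1.ls (y, ⟨0, by simp⟩) c) := by
  rw [ev3, T3.ev_eq, nr_inf, if_neg (by norm_num), if_neg (by norm_num), dk_inf]
theorem ev_zero : ev3 H h y ((0 : ℂ) : OnePoint ℂ) a b c u =
    (D3 H h).p3 u (pt (YD d) d.M3.ls (y, ⟨0, by simp⟩) a) := by
  rw [ev3, T3.ev_eq, nr_coe, if_pos (by norm_num), dk_zero]
end ev

theorem pol : POL := by
  intro Γ Γ' _ _ _ _ _ _ d H h c w κ1 κ3 ι P hN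
  obtain ⟨ν, hν⟩ := (c.uN.thq (L d)).ex (x := KA ι w)
    ((ka_comp (cR (smd d.Y (N d).ls (L d)).P.s) ι w).symm.trans (P.rd _ _ fun b => by
      obtain ⟨⟨y, ζ⟩, rfl⟩ := (d.Y.prod (L d).sph).pr_surj b
      exact ⟨y, ζ, fun u => hN u y ζ ∞⟩))
  obtain ⟨x, hx⟩ := dec c.uq.th ν
  have k1 : pull (Sb d.Y (L d)).s ν = κ1 * c.eW :=
    pole (K := (L d).sph) (K' := Cp.Dk d.χ d.hχ) (A := d.W0.ls) (R := d.R.ls) (U := d.W1) ∞
      (fun _ => rfl) ⟨0, by simp⟩ (fun _ => Subtype.ext (mul_zero _)) c.uW0.1 c.uW1.1 c.uR.1 c.uN.th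
      ι (D3 H h).p1 (fun u y n => (hN u y ∞ n).trans (ev_inf H h y _ _ _ u))
      _ (fun _ _ => rfl) _ (fun _ _ => rfl) _ (fun _ => rfl) P.p1 hν
  have k3 : pull (z0 d.Y (Rep.ch d.χ d.hχ)) ν = κ3 * c.eZ :=
    pole (K := (L d).sph) (K' := Cp.Dk d.χ d.hχ) (A := d.W0.ls) (R := d.R.ls) (U := d.Z1)
      ((0 : ℂ) : OnePoint ℂ)
      (fun g => congrArg OnePoint.some (map_zero ((Rep.ch d.χ d.hχ).ρ g))) ⟨0, by simp⟩
      (fun _ => Subtype.ext (mul_zero _)) c.uW0.1 c.uZ1.1 c.uR.1 c.uN.th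
      ι (D3 H h).p3 (fun u y n => (hN u y _ n).trans (ev_zero H h y _ _ _ u))
      _ (fun _ _ => rfl) _ (fun _ _ => rfl) _ (fun _ => rfl) P.p3 hν
  rw [k1] at hx
  refine ⟨x, ?_, hx ▸ hν⟩
  have i : ∀ a, pull (z0 d.Y (Rep.ch d.χ d.hχ)) (pull (Sb d.Y (L d)).p a) = a :=
    pull_pull_id _ _ fun e => by obtain ⟨y, rfl⟩ := d.Y.pr_surj e; rfl
  refine eq_sub_of_add_eq' (Eq.trans ?_ ((congrArg _ hx).symm.trans k3))
  exact ((map_add _ _ _).trans (congrArg₂ (· + ·) (i _)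
    ((map_mul _ _ _).trans (congrArg (· * c.eq) (i x))))).symm

end Crest.Agent.N218.D6.Lj

end
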