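import Crest.Agent.N218.D6.Lj1
import Crest.Agent.N218.K.Rel

/-! Row 218, block D6 (helper23): two maps that agree off the part at infinity. -/

set_option autoImplicit false
set_option linter.unusedVariables false

open Crest.Agent.R204.K357 Crest.Agent.R204.Ex837 Set

noncomputable section

namespace Crest.Agent.N218.D6.Lj

open K

/-- two maps that agree off a closed set on which the class vanishes -/
theorem off {B S : Type} [TopologicalSpace B] [TopologicalSpace S] [CompactSpace S] [T2Space S]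
    {K : Set S} (hK : IsClosed K) (i j : C(B, S)) (h : ∀ b, i b = j b ∨ (i b ∈ K ∧ j b ∈ K))
    {z : KX S} (hz : pull (⟨Subtype.val, continuous_subtype_val⟩ : C(K, S)) z = 0) :
    pull i z = pull j z := by
  have : CompactSpace K := isCompact_iff_compactSpace.1 hK.isCompact
  let ι : C(K, S) := ⟨Subtype.val, continuous_subtype_val⟩
  let be : ℂ →+* C(K, ℂ) := algebraMap ℂ C(K, ℂ)
  let Q : Subring (C(S, ℂ) × ℂ) :=
    RingHom.eqLocus ((cr ι).comp (RingHom.fst _ _)) (be.comp (RingHom.snd _ _))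
  let q1 : Q →+* C(S, ℂ) := (RingHom.fst _ _).comp Q.subtype
  let q2 : Q →+* ℂ := (RingHom.snd _ _).comp Q.subtype
  obtain ⟨w, a1, -⟩ := (⟨q1, q2, cr ι, be, fun z => z.2, fun a b h => ⟨⟨(a, b), h⟩, rfl, rfl⟩,
    fun x y h h' => Subtype.ext (Prod.ext h h')⟩ : Sq Q C(S, ℂ) ℂ C(K, ℂ)).K0_mid
      (cr_surj Subtype.val_injective) (a := z) (b := 0) (hz.trans (map_zero _).symm)
  rw [← a1]
  refine kr_sq (cr i) q1 (cr j) q1 (fun u => ContinuousMap.ext fun b => ?_) w
  rcases h b with e | ⟨e, e'⟩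
  · exact congrArg u.1.1 e
  · exact (DFunLike.congr_fun u.2 ⟨_, e⟩).trans (DFunLike.congr_fun u.2 ⟨_, e'⟩).symm

/-- **two evaluations of a reduced class** -/
theorem two {A : Type} [CommRing A] [Algebra ℂ A] {w : KC A} (P : (A → ℂ) → Prop)
    (rd : ∀ (B : Type) [TopologicalSpace B] (f : A →ₐ[ℂ] C(B, ℂ)),
      (∀ b, P fun u => f u b) → KA f w = 0)
    {B : Type} [TopologicalSpace B] [CompactSpace B] [T2Space B] (f f' : A →ₐ[ℂ] C(B, ℂ))
    (φ : C(B, ℝ)) {B0 : Set B} (c0 : IsClosed B0) (h0 : ∀ b, φ b = 0 → ∀ u, f u b = f' u b)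
    (h1 : ∀ b ∉ B0, φ b = 0) (h2 : ∀ b ∈ B0, P (fun u => f u b) ∧ P fun u => f' u b) :
    KA f w = KA f' w := by
  let D : Set (B × ℝ) := {x | |x.2| = |φ x.1|}
  have cD : IsClosed D := isClosed_eq (by fun_prop) (by fun_prop)
  obtain ⟨R, hR⟩ := (isCompact_range (φ.continuous.abs)).bddAbove
  have kD : IsCompact D := (isCompact_univ.prod (isCompact_Icc (a := -R) (b := R))).of_isClosed_subset
    cD fun x hx => ⟨trivial, abs_le.1 (hx.trans_le (hR ⟨x.1, rfl⟩))⟩
  have : CompactSpace D := isCompact_iff_compactSpace.1 kD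
  have ct : ∀ u, Continuous fun x : D => if 0 ≤ x.1.2 then f u x.1.1 else f' u x.1.1 := fun u =>
    Continuous.if_le (by fun_prop) (by fun_prop) continuous_const (by fun_prop) fun x e =>
      h0 _ (abs_eq_zero.1 (x.2.symm.trans (by rw [← e, abs_zero]))) u
  let F : A →ₐ[ℂ] C(D, ℂ) :=
    { toFun := fun u => ⟨_, ct u⟩
      map_one' := ContinuousMap.ext fun x => by simp
      map_mul' := fun a b => ContinuousMap.ext fun x => by
        by_cases e : 0 ≤ x.1.2 <;> simp [e]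
      map_zero' := ContinuousMap.ext fun x => by simp
      map_add' := fun a b => ContinuousMap.ext fun x => by
        by_cases e : 0 ≤ x.1.2 <;> simp [e]
      commutes' := fun c => ContinuousMap.ext fun x => by
        simp }
  let i : C(B, D) := ⟨fun b => ⟨(b, |φ b|), abs_abs _⟩, by fun_prop⟩
  let j : C(B, D) := ⟨fun b => ⟨(b, -|φ b|), (abs_neg _).trans (abs_abs _)⟩, by fun_prop⟩
  have ei : pull i (KA F w) = KA f w := ka_ka _ F f (fun u => ContinuousMap.ext fun b =>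
    if_pos (abs_nonneg _)) w
  have ej : pull j (KA F w) = KA f' w := ka_ka _ F f' (fun u => ContinuousMap.ext fun b => by
    change (if 0 ≤ -|φ b| then f u b else f' u b) = _
    split_ifs with e
    · exact h0 b (abs_eq_zero.1 (le_antisymm (neg_nonneg.1 e) (abs_nonneg _))) u
    · rfl) w
  rw [← ei, ← ej]
  refine off (K := {x : D | x.1.1 ∈ B0}) (c0.preimage (by fun_prop)) i j (fun b => ?_) ?_
  · by_cases e : b ∈ B0
    · exact .inr ⟨e, e⟩
    · exact .inl (Subtype.ext (Prod.ext rfl (by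
        change |φ b| = -|φ b|
        rw [h1 b e, abs_zero, neg_zero])))
  · rw [pull, ← ka_comp]
    refine rd _ _ fun x => ?_
    change P fun u => if 0 ≤ x.1.1.2 then f u x.1.1.1 else f' u x.1.1.1
    split_ifs
    exacts [(h2 _ x.2).1, (h2 _ x.2).2]

/-- the same for the patched class -/
theorem Pat.two {Γ Γ' : Type} [Group Γ] [TopologicalSpace Γ] [Group Γ'] [TopologicalSpace Γ']
    [CompactSpace Γ] [CompactSpace Γ'] {d : LD Γ Γ'} {H : PMS} {h : d.Ok} {c : Cl d}
    {w : KC (D3 H h).W} {κ1 κ3 : KX d.Y.Q} (p : Pat H h c w κ1 κ3)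
    {B : Type} [TopologicalSpace B] [CompactSpace B] [T2Space B]
    (f f' : (D3 H h).W →ₐ[ℂ] C(B, ℂ)) (φ : C(B, ℝ)) {B0 : Set B} (c0 : IsClosed B0)
    (h0 : ∀ b, φ b = 0 → ∀ u, f u b = f' u b) (h1 : ∀ b ∉ B0, φ b = 0)
    (h2 : ∀ b ∈ B0, (∃ y ζ, ∀ u, f u b = ev3 H h y ζ OnePoint.infty OnePoint.infty OnePoint.infty u) ∧
      ∃ y ζ, ∀ u, f' u b = ev3 H h y ζ OnePoint.infty OnePoint.infty OnePoint.infty u) :
    KA f w = KA f' w :=
  Lj.two (fun e => ∃ y ζ, ∀ u, e u = ev3 H h y ζ OnePoint.infty OnePoint.infty OnePoint.infty u)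
    p.rd f f' φ c0 h0 h1 h2

end Crest.Agent.N218.D6.Lj

end
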