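import Crest.Agent.N218.D6.Lj1

/-! Row 218, block D6 (helper3): leaf `ZER` of the cut of `LOCA`. -/

set_option autoImplicit false
set_option linter.unusedVariables false
set_option linter.unusedSectionVars false

open Crest.Agent.R204.K357 unitInterval Topology Filter Set OnePoint

noncomputable section

namespace Crest.Agent.N218.D6.Lj

open K

variable {Γ Γ' : Type} [Group Γ] [TopologicalSpace Γ] [Group Γ'] [TopologicalSpace Γ']
  [CompactSpace Γ] [CompactSpace Γ']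

namespace Ze
section gen
variable {Y' : GS Γ'} {Y : GS Γ} {V' L' : LS Γ'} {V L : LS Γ} {φ : Γ' → Γ} {g : C(Y'.Z, Y.Z)}

/-- followed by the inclusion of the first factor -/
def ez (E : EqM Y' V' Y V φ g) (U : Rep Γ) : EqM Y' V' Y (V.prod U.ls) φ g where
  f := ⟨fun z => (eZ Y V U).f (g z.1, E.f z), by fun_prop⟩
  hg := E.hg
  hf γ y w := (congrArg (eZ Y V U).f (Prod.ext (E.hg γ y) (E.hf γ y w))).trans
    ((eZ Y V U).hf (φ γ) (g y) (E.f (y, w)))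
  hi y := (congrArg (fun w => (eZ Y V U).f (g y, w)) (E.hi y)).trans ((eZ Y V U).hi _)

theorem pull_ez (E : EqM Y' V' Y V φ g) (U : Rep Γ) {l : KS Y V} {m : KS Y U.ls}
    (hl : (Sb Y V).Rd l) (hm : (Sb Y U.ls).Rd m) : pull (ez E U).hm.f (xm l m) =
      (Sb Y' V').sm (pull E.b (pull (z0 Y U) m)) (pull E.hm.f l) := by
  rw [← pull_pull E.hm.f (eZ Y V U).hm.f _ fun e => by obtain ⟨y, w, rfl⟩ := pt_surj e; rfl,
    pull_eZ U hl hm]
  exact E.hm.pull_sm _ _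

/-- extension over a sphere bundle -/
def up (b : EqM Y' L' Y L φ g) (E : EqM Y' V' Y V φ g) :
    EqM (Y'.prod L'.sph) V' (Y.prod L.sph) V φ
      ⟨fun x : Y'.Z × OnePoint L'.Z => (g x.1, b.f x), by fun_prop⟩ where
  f := ⟨fun z : (Y'.Z × OnePoint L'.Z) × OnePoint V'.Z => E.f (z.1.1, z.2), by fun_prop⟩
  hg γ x := Prod.ext (b.hg γ x.1) (b.hf γ x.1 x.2)
  hf γ x w := E.hf γ x.1 w
  hi x := E.hi x.1

theorem up_sm (b : EqM Y' L' Y L φ g) (E : EqM Y' V' Y V φ g) (c : KS Y L) (l : KS Y V) :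
    pull (up b E).hm.f ((smd Y V L).P.sm c (pull (smd Y V L).q l)) =
      (smd Y' V' L').P.sm (pull b.hm.f c) (pull (smd Y' V' L').q (pull E.hm.f l)) :=
  ((up b E).hm.pull_sm c _).trans (congrArg₂ (smd Y' V' L').P.sm
    (pull_congr (fun e => by obtain ⟨y, w, rfl⟩ := pt_surj (Y := Y') (M := L') e; rfl) c)
    (pull_sq _ _ _ _ (fun e => by obtain ⟨⟨y, u⟩, w, rfl⟩ := pt_surj e; rfl) l))

theorem q_sm (a : KX Y.Q) (l : KS Y V) : pull (smd Y V L).q ((Sb Y V).sm a l) =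
    (smd Y V L).P.sm (pull (Sb Y L).p a) (pull (smd Y V L).q l) := by
  unfold Ex.sm
  rw [map_mul, pull_sq _ _ _ _ (smd Y V L).pq]
end gen

variable (d : LD Γ Γ') {V' : LS Γ'} {V : Rep Γ}

theorem res_act (γ : Γ') (z : OnePoint V.W) :
    (d.rs V).ls.sph.act γ z = V.ls.sph.act (d.φ γ) z := by
  induction z using OnePoint.rec <;> rfl

/-- restriction -/
def rr (V : Rep Γ) : EqM d.Y' (d.rs V).ls d.Y V.ls d.φ (.id _) :=
  Eqv.eqm (Y := d.Y) (Y' := d.Y') d.hφ (g := .id _) (fun _ _ => rfl) V.ls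

/-- to the small group -/
def dn (E : EqM d.Y' V' d.Y V.ls d.φ (.id _)) : EqM d.Y' V' d.Y' (d.rs V).ls id (.id _) :=
  ⟨E.f, fun _ _ => rfl, fun γ y w => (E.hf γ y w).trans (res_act d γ _).symm, E.hi⟩

theorem pull_dn (E : EqM d.Y' V' d.Y V.ls d.φ (.id _)) (l : KS d.Y V.ls) :
    pull (dn d E).hm.f (rs d l) = pull E.hm.f l :=
  pull_pull _ _ _ (fun e => by obtain ⟨y, w, rfl⟩ := pt_surj e; rfl) l

/-- to the big group -/
def ur (E : EqM d.Y' V' d.Y' (d.rs V).ls id (.id _)) : EqM d.Y' V' d.Y V.ls d.φ (.id _) :=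
  ⟨E.f, fun _ _ => rfl, fun γ y w => (E.hf γ y w).trans (res_act d γ _), E.hi⟩

theorem pull_ur (E : EqM d.Y' V' d.Y' (d.rs V).ls id (.id _)) (l : KS d.Y V.ls) :
    pull (h1 E).f (rs d l) = pull (ur d E).hm.f l :=
  pull_pull _ _ _ (fun e => by obtain ⟨y, w, rfl⟩ := pt_surj e; rfl) l

variable {d} (h : d.Ok)
include h

theorem pg : Pm d.Y' (d.rs d.W0).ls (d.rs d.Z0).ls fun x => d.γ0 ((x.1, 1), x.2) where
  ct := h.pγ0.ct.comp ((continuous_fst.prodMk continuous_const).prodMk continuous_snd)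
  pr K k := (h.pγ0.pr K k).imp fun _ a => ⟨a.1, fun p => a.2 (p, (1 : Circle))⟩
  eq γ y w := by
    refine Eq.trans ?_ ((h.pγ0.eq (d.φ γ) (y, (1 : Circle)) w).trans (res_act d γ _).symm)
    exact congrArg (fun θ => d.γ0 ((d.Y.act (d.φ γ) y, θ), d.W0.ρ (d.φ γ) w))
      ((mul_one _).trans ((h.ker _).2 ⟨γ, rfl⟩)).symm

theorem th_L {l : KS d.Y (L d)} (u : UT d.Y (L d) l) :
    (Sb d.Y' (L' (Γ' := Γ'))).Th (pull (bL h).hm.f l) := by
  let A : (L' (Γ' := Γ')).Iso ((L d).res d.φ d.hφ) := ⟨.refl ℂ, fun g w =>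
    ((ch_act _ _ _ w).trans (by rw [(h.ker _).2 ⟨g, rfl⟩]; exact one_mul (show ℂ from w))).symm⟩
  have := th_iso A (A.mp d.Y') (u.2 Γ' d.φ d.hφ d.Y' (.id _) (fun _ _ => rfl) _ (Eqv.mp d.hφ
    (fun _ _ => rfl) _))
  rwa [pull_pull _ _ (bL h).hm.f fun e => by
    obtain ⟨y, w, rfl⟩ := pt_surj e
    induction w using OnePoint.rec <;> rfl] at this

theorem ev_eq (H : PMS) (y : d.Y.Z) (ζ : OnePoint ℂ) (a : d.W0.W) (b : d.Z0.W) :
    evS H h y ζ (OnePoint.some ((0 : d.U.W), ((a, (0 : d.W1.W)), (b, (0 : d.Z1.W))))) =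
      evN H h y ζ (OnePoint.some (a, ((d.μ0 (y, b), (0 : d.W1.W)), (0 : d.U.W)))) := by
  have k : d.k (y, (0, 0)) = 0 := (h.k0 y _).2 rfl
  have e : ∀ (z : OnePoint (d.Z0.W × d.Z1.W)) (t : ℝ),
      OnePoint.map (fun e : d.Z0.W × d.Z1.W => e - (0, t • 0)) z = z := fun z t => by
    induction z using OnePoint.rec with
    | infty => rfl
    | coe z => exact congrArg OnePoint.some (by simp)
  unfold evS evN
  congr 1
  · refine congrArg OnePoint.some ?_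
    simp [LD.b3, I3, k]
  · change d.hh y _ _ 0 ((a, 0), (b, 0)) = d.g1 ((y, _), ((a, 0), ((d.μ0 (y, b), 0), 0)))
    refine congrArg wdg (Prod.ext ((e _ _).trans (congrArg (fun z => d.γ ((y, ph ζ), (a, z)))
      (smul_zero _))) (congrArg OnePoint.some (Prod.ext ?_ ((sub_zero _).trans k))))
    change d.μ (y, (b, _ • (0 : d.Z1.W))) - ((0 : d.W0.W), _ • (0 : d.W1.W)) = (d.μ0 (y, b), 0)
    simp [h.m0]
  · refine congrArg OnePoint.some ?_
    simp [LD.b1, I1, k, h.m0]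
end Ze

open Ze in
/-- **ZER** -/
theorem zer : ZER := by
  intro Γ Γ' _ _ _ _ _ _ d H h hU c w κ1 κ3 ι ι' x b a P hN hS eN ⟨al, eS⟩
  have tZ := (ut_rs c.uZ0).th
  have tW := (ut_rs c.uW0).th
  obtain ⟨κw, ew⟩ := tZ.ex (tW.1.hm (h1 h.pμ0.eqm))
  have e3 := (pull_ur d (pg h).eqm c.Z0).trans (P.k3 (ur d (pg h).eqm) fun _ _ => rfl)
  have un : IsUnit (pull d.π κ3 * κw) := by
    have := hU ((h1 h.pμ0.eqm).cm (h1 (pg h).eqm)) (fun _ _ => rfl) _ tZ
    rw [show pull ((h1 h.pμ0.eqm).cm (h1 (pg h).eqm)).f (rs d c.Z0) = _ from pull_cm _ _ _, e3,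
      (h1 h.pμ0.eqm).pull_sm, pull_id, ew, Ex.sm_sm] at this
    exact tZ.isUnit this
  refine ⟨κw, isUnit_of_mul_isUnit_left un, isUnit_of_mul_isUnit_right un, ?_⟩
  obtain ⟨A, a1, a2⟩ := exists_pr (V' := d.W.ls) (U' := d.Z.ls) (ez (rr d d.W0) d.W1)
    (ez (rr d d.Z0) d.Z1)
  obtain ⟨B, b1, b2⟩ := exists_pr (V' := d.W0.ls) (U' := d.R.ls) (rr d d.W0)
    (ez (ez (ur d h.pμ0.eqm) d.W1) d.U)
  have eA : pull A.hm.f c.S = (Sb _ _).sm (pull d.π c.eW * pull d.π c.eZ)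
      (xm (rs d c.W0) (rs d c.Z0)) :=
    (a2 _ _ c.uW.1 c.uZ.1).trans ((congrArg₂ xm (pull_ez (rr d d.W0) d.W1 c.uW0.1 c.uW1.1)
      (pull_ez (rr d d.Z0) d.Z1 c.uZ0.1 c.uZ1.1)).trans ((sm_xm _ _ _).trans
        ((congrArg _ (xm_sm _ _ _)).trans (Ex.sm_sm _ _ _ _))))
  have eB : pull B.hm.f c.N = (Sb _ _).sm (pull d.π c.eU * pull d.π c.eW * κw)
      (xm (rs d c.W0) (rs d c.Z0)) := by
    refine (b2 _ _ c.uW0.1 c.uR.1).trans ((congrArg (xm _) ?_).trans (xm_sm _ _ _))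
    refine (pull_ez (ez (ur d h.pμ0.eqm) d.W1) d.U c.uW.1 c.uU.1).trans ?_
    rw [mul_assoc, ← Ex.sm_sm, ← Ex.sm_sm, ← ew, pull_ur]
    exact congrArg _ (pull_ez (ur d h.pμ0.eqm) d.W1 c.uW0.1 c.uW1.1)
  let A' : EqM d.Y' ((d.rs d.W0).ls.prod (d.rs d.Z0).ls) d.Y d.S.ls d.φ (.id _) := A
  let B' : EqM d.Y' ((d.rs d.W0).ls.prod (d.rs d.Z0).ls) d.Y (N d).ls d.φ (.id _) := B
  let Am := (up (eI d.Y' L') (dn d A')).hm.f
  let Bm := (up (bL (d := d) h) B').hm.f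
  have key := ka_sq (cR Am) ι' (cR Bm) ι
    (fun u => ContinuousMap.ext fun e => by
      obtain ⟨⟨y, ζ⟩, v, rfl⟩ := pt_surj e
      obtain ⟨⟨p, q⟩, rfl⟩ := wdg_surj v
      refine (hS u y ζ (A.f (y, wdg (p, q)))).trans (Eq.trans ?_ (hN u y ζ (B.f (y, wdg (p, q)))).symm)
      rw [a1, b1]
      induction p using OnePoint.rec with
      | infty => rfl
      | coe p =>
        induction q using OnePoint.rec with
        | infty => rfl
        | coe q => exact DFunLike.congr_fun (ev_eq h H y ζ p q) u) w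
  have k1 := ((congrArg (pull Am) eS).symm.trans key).trans (congrArg (pull Bm) eN)
  have k2 := (up_sm (eI d.Y' L') (dn d A') _ _).symm.trans (k1.trans (up_sm (bL (d := d) h) B' _ _))
  rw [pull_eI, pull_dn, show pull A'.hm.f c.S = _ from eA, show pull B'.hm.f c.N = _ from eB,
    q_sm, q_sm, Ex.sm_sm, Ex.sm_sm] at k2
  have k3 := (((ut_rs c.uW0).xm (ut_rs c.uZ0)).thq L').inj k2
  have n1 : pull (bL h).hm.f (pull (Sb d.Y (L d)).p b) = pull (Sb d.Y' L').p (pull d.π b) :=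
    pull_sq _ _ _ _ (bL h).hm.hp b
  have n2 : pull (bL h).hm.f ((Sb d.Y (L d)).sm x c.q) =
    (Sb d.Y' L').sm (pull d.π x) (pull (bL h).hm.f c.q) := (bL h).hm.pull_sm _ _
  rw [map_add, n1, n2] at k3
  have k4 := dec_inj (th_L h c.uq) (a := a * (pull d.π c.eW * pull d.π c.eZ))
    (a' := pull d.π x * (pull d.π c.eU * pull d.π c.eW * κw))
    (b := al * (pull d.π c.eW * pull d.π c.eZ))
    (b' := pull d.π b * (pull d.π c.eU * pull d.π c.eW * κw)) (by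
      unfold Ex.sm at *
      simp only [map_mul] at k3 ⊢
      linear_combination k3)
  linear_combination k4

end Crest.Agent.N218.D6.Lj

end
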