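import Crest.Agent.N218.D6.Lj2

/-! Row 218, block D6 (helper56): restriction to the fixed part (leaf ZER, hedge). -/

set_option autoImplicit false
set_option linter.unusedVariables false
set_option linter.unusedSectionVars false
set_option maxHeartbeats 400000

open Crest.Agent.R204.K357 unitInterval Topology Filter Set OnePoint

noncomputable section

namespace Crest.Agent.N218.D6.Lj

open K

namespace Z2

variable {Γ Γ' : Type} [Group Γ] [TopologicalSpace Γ] [Group Γ'] [TopologicalSpace Γ']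
  [CompactSpace Γ] [CompactSpace Γ'] {d : LD Γ Γ'}

variable (d) in
/-- fibre maps along the restriction -/
abbrev EM (V' : LS Γ') (V : LS Γ) : Type := EqM d.Y' V' d.Y V d.φ (.id _)

theorem res_act (V : Rep Γ) (g : Γ') (w : OnePoint V.W) :
    (d.rs V).ls.sph.act g w = V.ls.sph.act (d.φ g) w := by
  induction w using OnePoint.rec <;> rfl

variable (d) in
/-- the restriction -/
def rr (V : Rep Γ) : EM d (d.rs V).ls V.ls :=
  Eqv.eqm (Y := d.Y) (Y' := d.Y') d.hφ (g := .id _) (fun _ _ => rfl) V.ls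

/-- add the zero vector -/
def zz {V' : LS Γ'} {V : LS Γ} (E : EM d V' V) (U : Rep Γ) : EM d V' (V.prod U.ls) where
  f := ⟨fun z => (eZ d.Y V U).f (z.1, E.f z), (eZ d.Y V U).f.continuous.comp
    (continuous_fst.prodMk E.f.continuous)⟩
  hg := E.hg
  hf γ y w := (congrArg (fun a => (eZ d.Y V U).f (d.Y.act (d.φ γ) y, a)) (E.hf γ y w)).trans
    ((eZ d.Y V U).hf (d.φ γ) y _)
  hi y := (congrArg (fun a => (eZ d.Y V U).f (y, a)) (E.hi y)).trans ((eZ d.Y V U).hi y)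

theorem pull_zz {V' : LS Γ'} {V : LS Γ} (E : EM d V' V) (U : Rep Γ) {l : KS d.Y V}
    {m : KS d.Y U.ls} (hl : (Sb d.Y V).Rd l) (hm : (Sb d.Y U.ls).Rd m) :
    pull (zz E U).hm.f (xm l m) =
      (Sb d.Y' V').sm (pull d.π (pull (z0 d.Y U) m)) (pull E.hm.f l) :=
  (pull_pull E.hm.f (eZ d.Y V U).hm.f _ (fun e => by
    obtain ⟨y, w, rfl⟩ := pt_surj e; rfl) _).symm.trans
    ((congrArg (pull E.hm.f) (pull_eZ U hl hm)).trans (E.hm.pull_sm _ _))

variable (h : d.Ok)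

/-- the map back on the fixed part -/
def mu : EM d (d.rs d.Z0).ls d.W0.ls where
  f := h.pμ0.eqm.f
  hg _ _ := rfl
  hf γ y w := (h.pμ0.eqm.hf γ y w).trans (res_act d.W0 γ _)
  hi := h.pμ0.eqm.hi

/-- the map forth on the fixed part -/
def ga : EM d (d.rs d.W0).ls d.Z0.ls where
  f := ⟨fun z => h.pγ0.eqm.f ((z.1, (1 : Circle)), z.2), h.pγ0.eqm.f.continuous.comp
    ((continuous_fst.prodMk continuous_const).prodMk continuous_snd)⟩
  hg _ _ := rfl
  hf γ y w := Eq.trans (congrArg₂ (fun (a : Circle) b => h.pγ0.eqm.f ((d.Y.act (d.φ γ) y, a), b))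
    (show (1 : Circle) = d.χ (d.φ γ) * 1 by rw [(h.ker _).2 ⟨γ, rfl⟩, one_mul])
    (res_act d.W0 γ w)) (h.pγ0.eqm.hf (d.φ γ) (y, (1 : Circle)) w)
  hi y := rfl

/-- the round trip -/
def rt : EqM d.Y' (d.rs d.Z0).ls d.Y' (d.rs d.Z0).ls id (.id _) where
  f := ⟨fun z => (ga h).f (z.1, h.pμ0.eqm.f z), (ga h).f.continuous.comp
    (continuous_fst.prodMk h.pμ0.eqm.f.continuous)⟩
  hg _ _ := rfl
  hf γ y w := (congrArg (fun a => (ga h).f (d.Y'.act γ y, a)) (h.pμ0.eqm.hf γ y w)).trans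
    (((ga h).hf γ y _).trans (res_act d.Z0 γ _).symm)
  hi y := rfl

theorem units (hU : d.Uni) (c : Cl d) {κ : KX d.Y'.Q}
    (e : pull (ga h).hm.f c.Z0 = (Sb d.Y' _).sm κ (rs d c.W0)) : ∃ κw, IsUnit κ ∧ IsUnit κw ∧
      pull (mu h).hm.f c.W0 = (Sb d.Y' (d.rs d.Z0).ls).sm κw (rs d c.Z0) := by
  have t := (ut_rs c.uZ0).th
  obtain ⟨κw, k⟩ := t.ex (c.uW0.1.hm (mu h).hm)
  have a := hU (h1 (rt h)) (fun _ _ => rfl) _ t
  have b : pull (h1 (rt h)).f (rs d c.Z0) = pull (h1 h.pμ0.eqm).f (pull (ga h).hm.f c.Z0) :=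
    pull_sq _ _ _ _ (fun x => by obtain ⟨y, w, rfl⟩ := pt_surj x; rfl) _
  have b' : pull (h1 h.pμ0.eqm).f (rs d c.W0) = pull (mu h).hm.f c.W0 :=
    pull_pull _ _ _ (fun x => by obtain ⟨y, w, rfl⟩ := pt_surj x; rfl) _
  rw [b, e, (h1 h.pμ0.eqm).pull_sm, pull_id, b', k, Ex.sm_sm] at a
  have u := t.isUnit a
  exact ⟨κw, isUnit_of_mul_isUnit_left u, isUnit_of_mul_isUnit_right u, k⟩

variable (d) in
/-- the fixed part of the source -/
abbrev FF : LS Γ' := (d.rs d.W0).ls.prod (d.rs d.Z0).ls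

/-- a fibre map, over the sphere, small group -/
def upS (A : EM d (FF d) d.S.ls) :
    EqM (d.Y'.prod L'.sph) (FF d) (d.Y'.prod L'.sph) (d.rs d.S).ls id (.id _) where
  f := ⟨fun z => A.f (z.1.1, z.2), A.f.continuous.comp (continuous_fst.fst.prodMk continuous_snd)⟩
  hg _ _ := rfl
  hf γ y w := (A.hf γ y.1 w).trans (res_act d.S γ _).symm
  hi y := A.hi y.1

/-- a fibre map, over the sphere, big group -/
def upN (B : EM d (FF d) (N d).ls) :
    EqM (d.Y'.prod L'.sph) (FF d) (d.Y.prod (L d).sph) (N d).ls d.φ (.id _) where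
  f := ⟨fun z => B.f (z.1.1, z.2), B.f.continuous.comp (continuous_fst.fst.prodMk continuous_snd)⟩
  hg γ y := Prod.ext rfl ((bL h).hf γ y.1 y.2)
  hf γ y w := B.hf γ y.1 w
  hi y := B.hi y.1

theorem ev_eq (H : PMS) (y : d.Y.Z) (ζ : OnePoint ℂ) (w : d.W0.W) (z : d.Z0.W) :
    evS H h y ζ (OnePoint.some (0, ((w, 0), (z, 0)))) =
      evN H h y ζ (OnePoint.some (w, ((d.μ0 (y, z), 0), 0))) := by
  have k : d.k (y, (0, 0)) = 0 := (h.k0 y _).2 rfl
  have a : d.b3 (y, (0, ((w, 0), (z, 0)))) = I3 d (w, ((d.μ0 (y, z), 0), 0)) :=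
    Prod.ext (Prod.ext rfl neg_zero) (Prod.ext (Prod.ext rfl neg_zero) ((sub_zero _).trans k))
  have b : d.b1 (y, (0, ((w, 0), (z, 0)))) = I1 d (w, ((d.μ0 (y, z), 0), 0)) :=
    Prod.ext rfl (Prod.ext (h.m0 y z) ((sub_zero _).trans k))
  have c : hz d ((y, ζ), (0, ((w, 0), (z, 0)))) =
      d.g1 ((y, ph ζ), I1 d (w, ((d.μ0 (y, z), 0), 0))) := by
    have i : ∀ p : OnePoint (d.Z0.W × d.Z1.W), OnePoint.map (fun e => e - 0) p = p := fun p => by
      induction p using OnePoint.rec with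
      | infty => rfl
      | coe p => exact congrArg OnePoint.some (sub_zero p)
    simp only [hz, LD.hh, LD.g1, I1, smul_zero, Prod.mk_zero_zero, sub_zero, h.m0]
    exact congrArg₂ (fun a (b : d.R.W) => wdg (a, OnePoint.some b)) (i _)
      (Prod.ext (sub_zero _) k)
  exact (congrArg (fun a : d.M3.W => ev3 H h y ζ a _ _) a).trans
    ((congrArg (fun a => ev3 H h y ζ _ a _) c).trans
      (congrArg (fun a : d.M1.W => ev3 H h y ζ _ _ a) b))

end Z2
open Z2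

/-- **leaf ZER** (hedge) -/
theorem zer2 : ZER := by
  intro Γ Γ' _ _ _ _ _ _ d H h hU c w κ1 κ3 ι ι' x b a P hι hι' hν ⟨al, ha⟩
  obtain ⟨κw, u1, u2, k⟩ := units h hU c (P.k3 (ga h) fun _ _ => rfl)
  refine ⟨κw, u1, u2, ?_⟩
  obtain ⟨A, hA, pA⟩ := exists_pr (zz (rr d d.W0) d.W1) (zz (rr d d.Z0) d.Z1)
  obtain ⟨B, hB, pB⟩ := exists_pr (rr d d.W0) (zz (zz (mu h) d.W1) d.U)
  have eA : pull A.hm.f c.S = (Sb d.Y' (FF d)).sm (pull d.π c.eW * pull d.π c.eZ)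
      (xm (rs d c.W0) (rs d c.Z0)) :=
    (pA c.W c.Z c.uW.1 c.uZ.1).trans ((congrArg₂ xm (pull_zz _ _ c.uW0.1 c.uW1.1)
      (pull_zz _ _ c.uZ0.1 c.uZ1.1)).trans ((sm_xm _ _ _).trans
        ((congrArg _ (xm_sm _ _ _)).trans (Ex.sm_sm _ _ _ _))))
  have eB : pull B.hm.f c.N = (Sb d.Y' (FF d)).sm (pull d.π c.eU * (pull d.π c.eW * κw))
      (xm (rs d c.W0) (rs d c.Z0)) := by
    refine (pB c.W0 c.R c.uW0.1 c.uR.1).trans (Eq.trans (congrArg _ ?_) (xm_sm _ _ _))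
    refine (pull_zz _ _ c.uW.1 c.uU.1).trans (Eq.trans (congrArg _ ?_) (Ex.sm_sm _ _ _ _))
    exact (pull_zz _ _ c.uW0.1 c.uW1.1).trans ((congrArg _ k).trans (Ex.sm_sm _ _ _ _))
  have alg : (cR (upS A).hm.f).comp ι' = (cR (upN h B).hm.f).comp ι := by
    ext u e
    obtain ⟨⟨y, ζ⟩, v, rfl⟩ := pt_surj e
    refine (hι' u y ζ (A.f (y, v))).trans (Eq.trans ?_ (hι u y ζ (B.f (y, v))).symm)
    induction v using OnePoint.rec with
    | infty => rw [A.hi, B.hi]; rfl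
    | coe v =>
      rw [show A.f (y, v) = _ from hA y v.1 v.2, show B.f (y, v) = _ from hB y v.1 v.2]
      exact DFunLike.congr_fun (ev_eq h H y ζ v.1 v.2) u
  have e : pull (upS A).hm.f (KA ι' w) = pull (upN h B).hm.f (KA ι w) :=
    (Orb.KA_comp _ _ w).trans ((congrArg (KA · w) alg).trans (Orb.KA_comp _ _ w).symm)
  let D := smd d.Y' (FF d) L'
  have qs : ∀ s l, pull D.q ((Sb d.Y' (FF d)).sm s l) =
      D.P.sm (pull (Sb d.Y' L').p s) (pull D.q l) := fun s l =>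
    (map_mul _ _ _).trans (congrArg (· * _) (pull_sq _ _ _ _ D.pq s))
  have s1 : pull (upS A).hm.f (pull (smd d.Y' (d.rs d.S).ls L').q (rs d c.S)) =
      pull D.q (pull A.hm.f c.S) :=
    (congrArg _ (pull_comp _ _ _).symm).trans
      (pull_sq _ _ _ _ (fun x => by obtain ⟨y, w, rfl⟩ := pt_surj x; rfl) _)
  have s2 : pull (upN h B).hm.f (pull (smd d.Y (N d).ls (L d)).q c.N) =
      pull D.q (pull B.hm.f c.N) :=
    pull_sq _ _ _ _ (fun x => by obtain ⟨y, w, rfl⟩ := pt_surj x; rfl) _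
  have b1 : ∀ ν, pull (upS A).b ν = ν := fun ν =>
    (pull_congr (g := .id _) (fun x => by obtain ⟨y, w, rfl⟩ := pt_surj x; rfl) ν).trans (pull_id ν)
  have b2 : ∀ ν, pull (upN h B).b ν = pull (bL h).hm.f ν :=
    pull_congr fun x => by obtain ⟨y, w, rfl⟩ := pt_surj x; rfl
  have l1 : pull (upS A).hm.f (KA ι' w) = D.P.sm
      ((pull (Sb d.Y' L').p al + (Sb d.Y' L').sm a (pull (bL h).hm.f c.q)) *
        pull (Sb d.Y' L').p (pull d.π c.eW * pull d.π c.eZ))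
      (pull D.q (xm (rs d c.W0) (rs d c.Z0))) :=
    (congrArg _ ha).trans (((upS A).hm.pull_sm _ _).trans ((congrArg₂ D.P.sm (b1 _)
      (s1.trans ((congrArg _ eA).trans (qs _ _)))).trans (Ex.sm_sm _ _ _ _)))
  have l2 : pull (upN h B).hm.f (KA ι w) = D.P.sm
      ((pull (Sb d.Y' L').p (pull d.π b) + (Sb d.Y' L').sm (pull d.π x) (pull (bL h).hm.f c.q)) *
        pull (Sb d.Y' L').p (pull d.π c.eU * (pull d.π c.eW * κw)))
      (pull D.q (xm (rs d c.W0) (rs d c.Z0))) :=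
    (congrArg _ hν).trans (((upN h B).hm.pull_sm _ _).trans ((congrArg₂ D.P.sm ((b2 _).trans
      ((map_add _ _ _).trans (congrArg₂ (· + ·) (pull_sq _ _ _ _ (bL h).hm.hp b)
        ((bL h).hm.pull_sm _ _)))) (s2.trans ((congrArg _ eB).trans (qs _ _)))).trans
          (Ex.sm_sm _ _ _ _)))
  have f := (((ut_rs c.uW0).xm (ut_rs c.uZ0)).thq L').inj (l1.symm.trans (e.trans l2))
  have g : ∀ s t r, (pull (Sb d.Y' L').p s + (Sb d.Y' L').sm t (pull (bL h).hm.f c.q)) *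
      pull (Sb d.Y' L').p r = pull (Sb d.Y' L').p (s * r) +
        (Sb d.Y' L').sm (t * r) (pull (bL h).hm.f c.q) := fun s t r => by
    simp only [Ex.sm, map_mul]; ring
  have := dec_inj (ut_bL h c.uq).th ((g _ _ _).symm.trans (f.trans (g _ _ _)))
  linear_combination this

end Crest.Agent.N218.D6.Lj

end
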