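import Crest.Agent.N218.D6.Df2
import Crest.Agent.N218.D3.Opn

/-!
# Row 218, block D6 (helper87): the cut of LINK2 (FROZEN)
-/

set_option autoImplicit false
set_option linter.unusedVariables false

open Topology Filter Set OnePoint

noncomputable section

namespace Crest.Agent.N218.D6.Lk

open K K.Cp Pm In
open Sk (S2 X22)

/-- the normal coordinates -/
abbrev R4 : Type := ((ℝ × ℝ) × ℝ) × ℝ

section
variable (k m : ℕ) (E : Type) [NormedAddCommGroup E] [NormedSpace ℝ E] [FiniteDimensional ℝ E]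

/-- the lens space -/
abbrev L : GS (Gk k) := Sp (ck k) (cc _) m
/-- the fibre -/
abbrev NN : LS (Gk k) := ((Rr k E).ls.prod (LS.triv _ ℂ)).prod (LS.triv _ R4)
/-- `S² × S²` times the fibre -/
abbrev XN : LS (Gk k) := (LS.triv _ X22).prod (NN k E)
/-- the fibre upstairs -/
abbrev NG : LS (GG k) := (VS k E).prod (LS.triv _ R4)
/-- the source of the dual problem -/
abbrev AA : LS (Gk k) := ((XX ((E3 × E3) × ℂ) k E).prod (Rep.triv _ ℝ)).ls.xr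
/-- its target -/
abbrev TR : Rep (Gk k) :=
  ((XX ((ℝ × ℝ) × ℝ) k E).prod (Rep.triv _ ℝ)).prod (UU (ck k) (cc _) m)
/-- the target upstairs -/
abbrev TG : LS (GG k) := (VT k m E).ls.prod (LS.triv _ R4)

/-- the domain of the collapse -/
def cU : Set (((((E3 × E3) × ℂ) × V k E) × ℝ) × ℝ) :=
  {a | a.1.1.1.1.1 ≠ 0 ∧ a.1.1.1.1.2 ≠ 0}
/-- polar coordinates -/
def cE (a : ((((E3 × E3) × ℂ) × V k E) × ℝ) × ℝ) : X22 × (V k E × ℂ) × R4 :=
  ((Emb.rad E3 a.1.1.1.1.1, Emb.rad E3 a.1.1.1.1.2), (a.1.1.2, a.1.1.1.2),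
    (((Real.log ‖a.1.1.1.1.1‖, Real.log ‖a.1.1.1.1.2‖), -a.2), a.1.2))
/-- the inverse -/
def cI (z : X22 × (V k E × ℂ) × R4) : ((((E3 × E3) × ℂ) × V k E) × ℝ) × ℝ :=
  (((((Real.exp z.2.2.1.1.1 • (z.1.1 : E3), Real.exp z.2.2.1.1.2 • (z.1.2 : E3)), z.2.1.2),
    z.2.1.1), z.2.2.2), -z.2.2.1.2)
/-- reordering of the target -/
def rT (w : (V k E × (Fin m → ℂ)) × R4) : ((((ℝ × ℝ) × ℝ) × V k E) × ℝ) × (Fin m → ℂ) :=
  (((w.2.1, w.1.1), w.2.2), w.1.2)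

variable {k m E}
/-- `C` is the collapse -/
def IsC (C : H1 (Sb (L k m) (AA k E)) (Sb (L k m) (XN k E))) : Prop :=
  Rg C fun x => D3.oc (cU k E) (cE k E) x.2
/-- `q` is the quotient map -/
def IsQ (q : C((Sb (YG k m) (NG k E)).E, (Sb (L k m) (XN k E)).E)) : Prop :=
  ∀ (y : (US 2 × US 2) × US m) (w : OnePoint ((V k E × ℂ) × R4)),
    q (pt (YG k m) (NG k E) y w) =
      pt (L k m) (XN k E) y.2 (OnePoint.map (fun n : (V k E × ℂ) × R4 => (hx y.1, n)) w)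
/-- `J` is the projection of the targets -/
def IsJ (J : C((Sb (YG k m) (TG k m E)).E, (Sb (L k m) (TR k m E).ls).E)) : Prop :=
  Mp (Y' := YG k m) (M' := TG k m E) (Y := L k m) (M := (TR k m E).ls)
    (fun y : (US 2 × US 2) × US m => y.2) (OnePoint.map (rT k m E)) J
/-- the dual problem over the lens space, in polar coordinates -/
def Qp (P : Pb (X22 × UnitAddCircle) k E) (kV : V k E → Fin m → ℂ) :
    FP (L k m) (XN k E) (TR k m E) :=
  ⟨{x : US m × X22 × (V k E × ℂ) × R4 |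
      x.2.2.1.2 ≠ 0 ∧ ((x.2.1, ang x.2.2.1.2), x.2.2.1.1) ∈ P.O},
    fun x : US m × X22 × (V k E × ℂ) × R4 => rT k m E
      ((P.h ((x.2.1, ang x.2.2.1.2), x.2.2.1.1), kV x.2.2.1.1 - ‖x.2.2.1.2‖ • x.1.1), x.2.2.2)⟩
/-- cycles -/
structure Cy (P : Pb (X22 × UnitAddCircle) k E) (kV : V k E → Fin m → ℂ) : Prop where
  ok : P.Ok
  ct : Continuous kV
  eq : ∀ (g : Gk k) v, kV (fun i => v (i + g.toAdd)) = fun j => (ck k g : ℂ) * kV v j
  nz : ∀ x ∈ P.O, kV x.2 ≠ 0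
end

set_option hygiene false in
/-- quantify over the data -/
local macro "∀L " t:term : term =>
  `(∀ (k m : ℕ) (E : Type) [NormedAddCommGroup E] [NormedSpace ℝ E] [FiniteDimensional ℝ E], $t)

/-- leaf EXQ: excision -/
def EXQ : Prop := ∀L ∃ q : C((Sb (YG k m) (NG k E)).E, (Sb (L k m) (XN k E)).E), IsQ q ∧
  (∀ x, (Sb _ _).Rd x → ∃ z, (Sb _ _).Rd z ∧ pull q z = x) ∧
  ∀ z, (Sb _ _).Rd z → pull q z = 0 → z = 0
/-- leaf SUR: the collapse is onto -/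
def SUR : Prop := ∀L ∃ C : H1 (Sb (L k m) (AA k E)) (Sb (L k m) (XN k E)), IsC C ∧
  ∃ G : H1 (Sb (L k m) (XN k E)) (Sb (L k m) (AA k E)), ∀ x, pull C.f (pull G.f x) = x
/-- leaf NUL: forgetting one sphere makes the collapse null-homotopic -/
def NUL : Prop := ∀L ∀ (C : H1 (Sb (L k m) (AA k E)) (Sb (L k m) (XN k E))) (x0 : S2)
  (r : X22 → X22), IsC C → (r = fun x => (x.1, x0)) ∨ (r = fun x => (x0, x.2)) →
  ∃ S : H1 (Sb (L k m) (XN k E)) (Sb (L k m) (XN k E)),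
    Rg S (fun x : US m × X22 × (V k E × ℂ) × R4 => OnePoint.some (r x.2.1, x.2.2)) ∧
    (C.cm S).Ht (Hm.triv _ _)
/-- leaf CM1: the classifying map in polar coordinates -/
def CM1 : Prop := ∀L ∀ (C : H1 (Sb (L k m) (AA k E)) (Sb (L k m) (XN k E)))
  (P : Pb (X22 × UnitAddCircle) k E) (kV : V k E → Fin m → ℂ), IsC C → Cy P kV → (Qp P kV).Ok ∧
  ∀ l, Dg (ck k) (cc _) m ((e22.circ.pb P).st (Rep.triv _ ℝ)) l (pull C.f ((Qp P kV).pb l))
/-- leaf CM2: the problem upstairs -/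
def CM2 : Prop := ∀L ∀ (q : C((Sb (YG k m) (NG k E)).E, (Sb (L k m) (XN k E)).E))
  (J : C((Sb (YG k m) (TG k m E)).E, (Sb (L k m) (TR k m E).ls).E))
  (P : Pb (X22 × UnitAddCircle) k E) (kV : V k E → Fin m → ℂ), IsQ q → IsJ J → Cy P kV →
  (Qp P kV).Ok → ∀ (l : KS (L k m) (TR k m E).ls) (lT : KS (YG k m) (VT k m E).ls)
    (β : KS (YG k m) (LS.triv _ R4)) (υ : KX (YG k m).Q), (Sb _ _).Rd lT → (Sb _ _).Rd β →
    pull J l = (Sb _ _).sm υ (xm lT β) →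
    pull q ((Qp P kV).pb l) = (Sb _ _).sm υ (xm ((ThV P kV).pb lT) β)

end Crest.Agent.N218.D6.Lk

end
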