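import Crest.Agent.N218.D6.Df2

/-!
# Row 218, block D6, leaf LINK1 (helper45): the intermediate problem
-/

set_option autoImplicit false
set_option linter.unusedVariables false

open Set

noncomputable section

namespace Crest.Agent.N218.D6.Lk

open K Pm In
open Sk (Cn X22 Sat)

variable {k n₁ n₂ m : ℕ} (D : Data X22 (Cn n₁) (Cn n₂))

/-- the projection, slotwise -/
def pv (x : X22) (v : V k (Cn n₁ × Cn n₂)) : V k (Cn n₁ × Cn n₂) :=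
  fun i => (D.π₁ x (v i).1, D.π₂ x (v i).2)

/-- the dual problem of the orbit loop, normalised by `tt ‖ζ‖` -/
def T2 (kV : V k (Cn n₁ × Cn n₂) → Fin m → ℂ) :
    FP (YG k m) (VS k (Cn n₁ × Cn n₂)) (VT k m (Cn n₁ × Cn n₂)) :=
  ⟨{x : ((US 2 × US 2) × US m) × V k (Cn n₁ × Cn n₂) × ℂ | x.2.2 ≠ 0 ∧
      ((hx x.1.1, ang x.2.2), x.2.1 - (1 - tt ‖x.2.2‖) • mn x.2.1) ∈ (D.Orb k).O},
    fun x : ((US 2 × US 2) × US m) × V k (Cn n₁ × Cn n₂) × ℂ =>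
      ((D.Orb k).P ((hx x.1.1, ang x.2.2), x.2.1 - (1 - tt ‖x.2.2‖) • mn x.2.1) +
        (1 - tt ‖x.2.2‖) • mn x.2.1, kV (pv D (hx x.1.1) x.2.1) - ‖x.2.2‖ • x.1.2.1)⟩

/-- sub-leaf: change of the normalising function and of the cycle -/
def L1B : Prop := ∀ (k n₁ n₂ m : ℕ) (D : Data X22 (Cn n₁) (Cn n₂)) (c κ R₀ M : ℝ)
  (kV : V k (Cn n₁ × Cn n₂) → Fin m → ℂ) (δ : ℝ), D.Ok c κ R₀ M → Sat D → KV k D kV → 0 < δ →
  ((D.Orb k).F (tau δ)).Ok →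
  (T2 D kV).Ok ∧ (T2 D kV).hm.Ht (ThV ((D.Orb k).F (tau δ)) kV).hm

end Crest.Agent.N218.D6.Lk

end
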