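import Crest.Agent.N218.K.Vstb

/-!
# Row 218, block D6, leaf LINK1 (helper45): fibrewise isomorphisms and the swap
-/

set_option autoImplicit false
set_option linter.unusedVariables false

open Topology Set OnePoint

noncomputable section

namespace Crest.Agent.N218.D6.Lk

open K K.Vs

variable {Γ : Type} [Group Γ] [TopologicalSpace Γ] [CompactSpace Γ] {Y : GS Γ}

variable (Y) in
/-- fibrewise equivariant homeomorphisms -/
structure FI (M M' : LS Γ) where
  f : Y.Z × M.Z → M'.Z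
  g : Y.Z × M'.Z → M.Z
  cf : Continuous f
  cg : Continuous g
  gf : ∀ y w, g (y, f (y, w)) = w
  fg : ∀ y w, f (y, g (y, w)) = w
  eq : ∀ γ y w, f (Y.act γ y, M.act γ w) = M'.act γ (f (y, w))

namespace FI
variable {M M' : LS Γ} (a : FI Y M M')

/-- the inverse -/
def sy : FI Y M' M :=
  ⟨a.g, a.f, a.cg, a.cf, a.fg, a.gf, fun γ y w => by
    rw [← a.gf (Y.act γ y) (M.act γ (a.g (y, w))), a.eq, a.fg]⟩

theorem pm : Pm Y M M' fun x => (a.f x : OnePoint M'.Z) :=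
  ⟨continuous_coe.comp a.cf, fun K' k => ⟨a.g '' univ ×ˢ K', (isCompact_univ.prod k).image a.cg,
    fun p w w' n e m => n ⟨(p, w'), ⟨trivial, m⟩, by rw [← coe_injective e, a.gf]⟩⟩,
    fun γ y w => congrArg _ (a.eq γ y w)⟩

/-- the map of sphere bundles -/
def h : H1 (Sb Y M) (Sb Y M') := a.pm.exists_rg.choose
theorem rg : Rg a.h fun x => (a.f x : OnePoint M'.Z) := a.pm.exists_rg.choose_spec
theorem sy_h (e : (Sb Y M).E) : a.sy.h.f (a.h.f e) = e := by
  induction e using sb_ind with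
  | h0 y => rw [a.h.f_inf, a.sy.h.f_inf]
  | h1 y w => rw [a.rg, a.sy.rg]; exact congrArg (fun v : M.Z => pt Y M y v) (a.gf y w)
theorem th {l : KS Y M'} (t : (Sb Y M').Th l) : (Sb Y M).Th (pull a.h.f l) :=
  Vs.th_iso a.h a.sy.h a.sy_h a.sy.sy_h t
theorem pull_sy (l : KS Y M) : pull a.h.f (pull a.sy.h.f l) = l :=
  (pull_cm _ _ l).symm.trans ((pull_congr (g := .id _) a.sy_h l).trans (K.pull_id l))

/-- the total homeomorphism -/
def tot : Y.Z × M'.Z ≃ₜ Y.Z × M.Z where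
  toFun x := (x.1, a.g x)
  invFun x := (x.1, a.f x)
  left_inv x := Prod.ext rfl (a.fg x.1 x.2)
  right_inv x := Prod.ext rfl (a.gf x.1 x.2)
  continuous_toFun := continuous_fst.prodMk a.cg
  continuous_invFun := continuous_fst.prodMk a.cf
end FI

variable {M M' : LS Γ} {T T' : Rep Γ}

/-- transport of problems along fibrewise isomorphisms -/
theorem pb_fi {Q : FP Y M T} {Q' : FP Y M' T'} (h : Q.Ok) (h' : Q'.Ok) (a : FI Y M M')
    (b : FI Y T.ls T'.ls) (hb : ∀ y (c : ℝ) (w : T.W), b.f (y, c • w) = c • (show T'.W from b.f (y, w)))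
    (hO : ∀ y m, (y, a.f (y, m)) ∈ Q'.O ↔ (y, m) ∈ Q.O)
    (hf : ∀ y m, (y, m) ∈ Q.O → Q'.f (y, a.f (y, m)) = b.f (y, Q.f (y, m))) (l : KS Y T'.ls) :
    pull a.h.f (Q'.pb l) = Q.pb (pull b.h.f l) := by
  obtain ⟨χ, c, e⟩ := h.rp_hm
  have b0 : ∀ y, b.f (y, (0 : T.W)) = (0 : T'.W) := fun y => by
    have := hb y 0 0
    rwa [zero_smul, zero_smul] at this
  have t : tsupport (χ ∘ a.tot) = a.tot ⁻¹' tsupport χ := tsupport_comp_eq_preimage χ a.tot
  have r : Q'.Rp (a.sy.h.cm (Q.hm.cm b.h)) := by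
    refine ⟨χ ∘ a.tot, ⟨c.ct.comp a.tot.continuous, fun _ => c.nn _,
      t ▸ a.tot.isCompact_preimage.2 c.cp, fun x m => ?_, fun x o z => ?_, fun g x => ?_⟩,
      fun y w => ?_⟩
    · rw [t] at m
      have := (hO _ _).2 (c.sub m)
      exact (congrArg (fun m => (x.1, m) ∈ Q'.O) (a.fg x.1 x.2)).mp this
    · obtain ⟨y, w⟩ := x
      rw [← a.fg y w] at o z
      have o' := (hO y _).1 o
      refine c.pos (y, a.g (y, w)) o' ?_
      have := congrArg (fun v => b.g (y, v)) ((hf y _ o').symm.trans (z.trans (b0 y).symm))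
      exact (b.gf _ _).symm.trans (this.trans (b.gf _ _))
    · exact (congrArg (fun m => χ (Y.act g x.1, m)) (a.sy.eq g x.1 x.2)).trans
        (c.inv g (x.1, a.g x))
    · change b.h.f (Q.hm.f (a.sy.h.f _)) = _
      rw [a.sy.rg, e]
      by_cases z : χ (y, a.g (y, w)) = 0
      · exact (congrArg (fun v => b.h.f (pt Y _ y v)) (if_pos z)).trans ((b.h.f_inf y).trans
          (congrArg (pt Y _ y) (if_pos z).symm))
      · refine (congrArg (fun v => b.h.f (pt Y _ y v)) (if_neg z)).trans ((b.rg y _).trans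
          (congrArg (pt Y _ y) (Eq.trans ?_ (if_neg z).symm)))
        have := hf y _ (c.mem z)
        rw [a.fg] at this
        exact congrArg _ ((hb y _ _).trans (congrArg _ this.symm))
  have := DFunLike.congr_fun (r.ht_hm h').pull_eq l
  refine (congrArg (pull a.h.f) (this.trans ((pull_cm _ _ l).trans (congrArg _
    (pull_cm _ _ l))))).trans (a.pull_sy _)

/-- the pull-back of a stabilised problem -/
theorem pb_st {P : FP Y M T} (h : P.Ok) (W : Rep Γ) {l : KS Y T.ls} {m : KS Y W.ls}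
    (hl : (Sb Y T.ls).Rd l) (hm : (Sb Y W.ls).Rd m) :
    (stW P W).pb (xm l m) = xm (P.pb l) m := by
  obtain ⟨χ, c, e⟩ := h.rp_hm
  obtain ⟨F0, r0⟩ := (pm_st (c.pm h) W.ls).exists_rg
  exact (DFunLike.congr_fun (ht_st h c W r0).pull_eq _).trans
    (Rg.pull_xm (c.pm h) e r0 hl hm)

/-- **the swap**: two problems that are isomorphic after stabilisation have the same degree -/
theorem swap {A : FP Y M T} {B : FP Y M' T'} (hA : A.Ok) (hB : B.Ok) (P P' : Rep Γ)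
    (a : FI Y (M.prod P.ls) (M'.prod P'.ls)) (b : FI Y (T.ls.prod P.ls) (T'.ls.prod P'.ls))
    (hb : ∀ y (c : ℝ) (w : (T.prod P).W), 
      b.f (y, c • w) = c • (show (T'.prod P').W from b.f (y, w)))
    (hO : ∀ y m, (y, (a.f (y, m)).1) ∈ B.O ↔ (y, m.1) ∈ A.O)
    (hf : ∀ y m, (y, m.1) ∈ A.O →
      (B.f (y, (a.f (y, m)).1), (a.f (y, m)).2) = b.f (y, (A.f (y, m.1), m.2)))
    {lP lP' lT lS e} (p : (Sb Y P.ls).Th lP) (p' : UT Y P'.ls lP') (t : UT Y T.ls lT)
    (s : UT Y M lS) (he : A.pb lT = (Sb _ _).sm e lS) :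
    ∃ lT' lS', (Sb _ _).Th lT' ∧ (Sb _ _).Th lS' ∧ B.pb lT' = (Sb Y _).sm e lS' := by
  have t1 := b.sy.th (t.th_l p)
  have s1 := a.sy.th (s.th_l p)
  obtain ⟨lT', r1, e1⟩ := p'.rel_r t1.1
  obtain ⟨lS', r2, e2⟩ := p'.rel_r s1.1
  refine ⟨lT', lS', p'.cancel_r r1 (e1 ▸ t1), p'.cancel_r r2 (e2 ▸ s1),
    p'.inj_r (Ex.Rd.hm B.hm r1) (r2.sm e) ?_⟩
  have k0 := pb_fi (T := T.prod P) (T' := T'.prod P') (stW_ok hA P) (stW_ok hB P') a b hb hO hf
    (xm lT' lP')
  have e3 : pull b.h.f (xm lT' lP') = xm lT lP := e1 ▸ b.pull_sy _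
  have k : pull a.h.f (xm (B.pb lT') lP') = xm ((Sb Y M).sm e lS) lP :=
    (congrArg (pull a.h.f) (pb_st hB P' r1 p'.1).symm).trans (k0.trans
      ((congrArg (stW A P).pb e3).trans ((pb_st hA P t.1 p.1).trans (he ▸ rfl))))
  have k2 := congrArg (pull a.sy.h.f) k
  rw [show pull a.sy.h.f (pull a.h.f (xm (B.pb lT') lP')) = _ from a.sy.pull_sy _] at k2
  refine k2.trans ?_
  have m1 : xm ((Sb Y M).sm e lS) lP = (Sb Y _).sm e (xm lS lP) := (smd Y M P.ls).sm_mul e lS lP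
  have m2 : xm ((Sb Y M').sm e lS') lP' = (Sb Y _).sm e (xm lS' lP') :=
    (smd Y M' P'.ls).sm_mul e lS' lP'
  rw [m1, m2, ← e2, a.sy.h.pull_sm, K.pull_id]

end Crest.Agent.N218.D6.Lk

end
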