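import Crest.Agent.N218.D6.Defs
import Crest.Agent.N218.D7.OrbK
import Crest.Agent.N218.K.Rel

/-!
# Row 218, block D6 (helper8): the three-piece algebra and its characters
-/

set_option autoImplicit false
set_option linter.unusedVariables false
set_option linter.unusedSectionVars false

open Crest.Agent.R204.K357 Crest.Agent.R204.Ex837 unitInterval Topology Filter Set OnePoint

noncomputable section

namespace Crest.Agent.N218.D6.Tr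

open K Orb

theorem mid3 {P A B C D D' : Type} [CommRing P] [CommRing A] [CommRing B] [CommRing C] [CommRing D]
    [CommRing D'] (p1 : P →+* A) (p2 : P →+* B) (p3 : P →+* C) (i1 : A →+* D) (g1 : B →+* D)
    (i3 : C →+* D') (g3 : B →+* D') (c1 : ∀ u, i1 (p1 u) = g1 (p2 u))
    (c3 : ∀ u, i3 (p3 u) = g3 (p2 u))
    (lift : ∀ a b c, i1 a = g1 b → i3 c = g3 b → ∃ u, p1 u = a ∧ p2 u = b ∧ p3 u = c)
    (inj : ∀ x y, p1 x = p1 y → p2 x = p2 y → p3 x = p3 y → x = y) (s1 : Function.Surjective i1)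
    (s3 : Function.Surjective i3) {x1 : KC A} {x2 : KC B} {x3 : KC C} (e1 : KR i1 x1 = KR g1 x2)
    (e3 : KR i3 x3 = KR g3 x2) : ∃ w, KR p1 w = x1 ∧ KR p2 w = x2 ∧ KR p3 w = x3 := by
  let Q : Subring (A × B) := RingHom.eqLocus (i1.comp (RingHom.fst _ _)) (g1.comp (RingHom.snd _ _))
  let q1 : Q →+* A := (RingHom.fst _ _).comp Q.subtype
  let q2 : Q →+* B := (RingHom.snd _ _).comp Q.subtype
  let q0 : P →+* Q := (p1.prod p2).codRestrict Q c1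
  obtain ⟨w12, a1, a2⟩ := (⟨q1, q2, i1, g1, fun z => z.2, fun a b h => ⟨⟨(a, b), h⟩, rfl, rfl⟩,
    fun x y h h' => Subtype.ext (Prod.ext h h')⟩ : Sq Q A B D).K0_mid s1 e1
  have k : KR (g3.comp q2) w12 = KR g3 x2 :=
    (kr_kr g3 q2 _ (fun _ => rfl) w12).symm.trans (congrArg (KR g3) a2)
  obtain ⟨w, a3, a0⟩ := (⟨p3, q0, i3, g3.comp q2, c3, fun a b h =>
      let ⟨u, x, y, z⟩ := lift b.1.1 b.1.2 a b.2 h; ⟨u, z, Subtype.ext (Prod.ext x y)⟩,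
    fun x y h h' => inj x y (congrArg q1 h') (congrArg q2 h') h⟩ : Sq P C Q D').K0_mid s3
      (e3.trans k.symm)
  exact ⟨w, (kr_kr q1 q0 p1 (fun _ => rfl) w).symm.trans ((congrArg (KR q1) a0).trans a1),
    (kr_kr q2 q0 p2 (fun _ => rfl) w).symm.trans ((congrArg (KR q2) a0).trans a2), a3⟩

/-- gluing data -/
structure Tri (E1 E2 E3 B1 B3 : Type) [TopologicalSpace E1] [TopologicalSpace E2]
    [TopologicalSpace E3] [TopologicalSpace B1] [TopologicalSpace B3] where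
  i1 : C(B1, E1)
  G1 : C(B1, E2)
  i3 : C(B3, E3)
  G3 : C(B3, E2)

variable {E1 E2 E3 B1 B3 : Type} [TopologicalSpace E1] [TopologicalSpace E2]
  [TopologicalSpace E3] [TopologicalSpace B1] [TopologicalSpace B3] (T : Tri E1 E2 E3 B1 B3)

namespace Tri
/-- three pieces -/
def W0 : Subalgebra ℂ (C(E1, ℂ) × C(E2, ℂ) × C(E3, ℂ)) where
  carrier := {u | (∀ b, u.1 (T.i1 b) = u.2.1 (T.G1 b)) ∧ ∀ b, u.2.2 (T.i3 b) = u.2.1 (T.G3 b)}
  mul_mem' := fun ⟨a, b⟩ ⟨a', b'⟩ => ⟨fun e => by simp [a, a'], fun e => by simp [b, b']⟩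
  add_mem' := fun ⟨a, b⟩ ⟨a', b'⟩ => ⟨fun e => by simp [a, a'], fun e => by simp [b, b']⟩
  algebraMap_mem' := fun _ => ⟨fun _ => rfl, fun _ => rfl⟩
/-- the algebra as a type -/
def W : Type := {u // u ∈ T.W0}
instance : CommRing T.W := T.W0.toCommRing
instance : Algebra ℂ T.W := T.W0.algebra
def p1 : T.W →ₐ[ℂ] C(E1, ℂ) :=
  ⟨⟨⟨⟨fun u => u.1.1, rfl⟩, fun _ _ => rfl⟩, rfl, fun _ _ => rfl⟩, fun _ => rfl⟩
def p2 : T.W →ₐ[ℂ] C(E2, ℂ) :=
  ⟨⟨⟨⟨fun u => u.1.2.1, rfl⟩, fun _ _ => rfl⟩, rfl, fun _ _ => rfl⟩, fun _ => rfl⟩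
def p3 : T.W →ₐ[ℂ] C(E3, ℂ) :=
  ⟨⟨⟨⟨fun u => u.1.2.2, rfl⟩, fun _ _ => rfl⟩, rfl, fun _ _ => rfl⟩, fun _ => rfl⟩

theorem r1 (u : T.W) (b : B1) : T.p1 u (T.i1 b) = T.p2 u (T.G1 b) := u.2.1 b
theorem r3 (u : T.W) (b : B3) : T.p3 u (T.i3 b) = T.p2 u (T.G3 b) := u.2.2 b

/-- **patching** -/
theorem exists_w [CompactSpace E1] [T2Space E1] [CompactSpace B1] [CompactSpace E3] [T2Space E3]
    [CompactSpace B3] (h1 : Function.Injective T.i1) (h3 : Function.Injective T.i3) {x1 : KX E1}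
    {x2 : KX E2} {x3 : KX E3} (e1 : pull T.i1 x1 = pull T.G1 x2)
    (e3 : pull T.i3 x3 = pull T.G3 x2) :
    ∃ w : KC T.W, KA T.p1 w = x1 ∧ KA T.p2 w = x2 ∧ KA T.p3 w = x3 := by
  exact mid3 (P := T.W) (T.p1 : T.W →+* C(E1, ℂ)) (T.p2 : T.W →+* C(E2, ℂ))
    (T.p3 : T.W →+* C(E3, ℂ)) (cr T.i1) (cr T.G1) (cr T.i3) (cr T.G3)
    (fun u => ContinuousMap.ext u.2.1) (fun u => ContinuousMap.ext u.2.2)
    (fun a b c h h' => ⟨⟨(a, b, c), DFunLike.congr_fun h, DFunLike.congr_fun h'⟩, rfl, rfl, rfl⟩)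
    (fun x y a b c => Subtype.ext (Prod.ext a (Prod.ext b c))) (cr_surj h1) (cr_surj h3) e1 e3
end Tri

variable {Γ : Type} [Group Γ] [TopologicalSpace Γ]

/-- maps into the glued space -/
structure Tst (Z : GS Γ) where
  ρ : C(Z.Z, ℝ)
  f1 : Z.Z → E1
  f2 : Z.Z → E2
  f3 : Z.Z → E3
  c1 : ContinuousOn f1 {z | 3 / 2 ≤ ρ z}
  c2 : ContinuousOn f2 {z | 5 / 4 ≤ ρ z ∧ ρ z ≤ 3 / 2}
  c3 : ContinuousOn f3 {z | ρ z ≤ 5 / 4}
  m1 : ∀ z, ρ z = 3 / 2 → ∃ b, f1 z = T.i1 b ∧ f2 z = T.G1 b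
  m3 : ∀ z, ρ z = 5 / 4 → ∃ b, f3 z = T.i3 b ∧ f2 z = T.G3 b
  j0 : ∀ g z, ρ (Z.act g z) = ρ z
  j1 : ∀ g z, f1 (Z.act g z) = f1 z
  j2 : ∀ g z, 5 / 4 ≤ ρ z → f2 (Z.act g z) = f2 z
  j3 : ∀ g z, f3 (Z.act g z) = f3 z

namespace Tst
variable {T} {Z : GS Γ} (t : Tst T Z)

/-- the characters -/
def ev (z : Z.Z) : T.W →ₐ[ℂ] ℂ :=
  if t.ρ z ≤ 5 / 4 then (ContinuousMap.evalAlgHom ℂ ℂ (t.f3 z)).comp T.p3 else
    if t.ρ z ≤ 3 / 2 then (ContinuousMap.evalAlgHom ℂ ℂ (t.f2 z)).comp T.p2 else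
      (ContinuousMap.evalAlgHom ℂ ℂ (t.f1 z)).comp T.p1

theorem ev3 {z : Z.Z} (h : t.ρ z ≤ 5 / 4) (u : T.W) : t.ev z u = T.p3 u (t.f3 z) := by
  rw [ev, if_pos h]; rfl
theorem ev2 {z : Z.Z} (h : 5 / 4 ≤ t.ρ z) (h' : t.ρ z ≤ 3 / 2) (u : T.W) :
    t.ev z u = T.p2 u (t.f2 z) := by
  rcases h.eq_or_lt with e | e
  · obtain ⟨b, a, c⟩ := t.m3 z e.symm
    rw [t.ev3 e.ge, a, c, T.r3]
  · rw [ev, if_neg e.not_ge, if_pos h']; rfl
theorem ev1 {z : Z.Z} (h : 3 / 2 ≤ t.ρ z) (u : T.W) : t.ev z u = T.p1 u (t.f1 z) := by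
  rcases h.eq_or_lt with e | e
  · obtain ⟨b, a, c⟩ := t.m1 z e.symm
    rw [t.ev2 (by linarith) e.ge, a, c, T.r1]
  · rw [ev, if_neg (by linarith), if_neg e.not_ge]; rfl

theorem ev_ct (u : T.W) : Continuous fun z => t.ev z u := by
  have cl : ∀ a : ℝ, IsClosed {z | t.ρ z ≤ a} := fun a => isClosed_le t.ρ.continuous continuous_const
  have cg : ∀ a : ℝ, IsClosed {z | a ≤ t.ρ z} := fun a => isClosed_le continuous_const t.ρ.continuous
  have a3 : ContinuousOn (fun z => t.ev z u) {z | t.ρ z ≤ 5 / 4} :=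
    ((T.p3 u).continuous.comp_continuousOn t.c3).congr fun z h => t.ev3 h u
  have a2 : ContinuousOn (fun z => t.ev z u) {z | 5 / 4 ≤ t.ρ z ∧ t.ρ z ≤ 3 / 2} :=
    ((T.p2 u).continuous.comp_continuousOn t.c2).congr fun z h => t.ev2 h.1 h.2 u
  have a1 : ContinuousOn (fun z => t.ev z u) {z | 3 / 2 ≤ t.ρ z} :=
    ((T.p1 u).continuous.comp_continuousOn t.c1).congr fun z h => t.ev1 h u
  have := (a3.union_of_isClosed a2 (cl _) ((cg _).inter (cl _))).union_of_isClosed a1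
    ((cl _).union ((cg _).inter (cl _))) (cg _)
  rw [← continuousOn_univ]
  refine this.mono fun z _ => ?_
  rcases le_total (t.ρ z) (5 / 4) with a | a
  · exact .inl (.inl a)
  · exact (le_total (t.ρ z) (3 / 2)).elim (fun b => .inl (.inr ⟨a, b⟩)) .inr

theorem ev_inv (g : Γ) (z : Z.Z) (u : T.W) : t.ev (Z.act g z) u = t.ev z u := by
  rcases le_total (t.ρ z) (5 / 4) with a | a
  · rw [t.ev3 a, t.ev3 ((t.j0 g z).trans_le a), t.j3]
  rcases le_total (t.ρ z) (3 / 2) with b | b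
  · rw [t.ev2 a b, t.ev2 (a.trans_eq (t.j0 g z).symm) ((t.j0 g z).trans_le b), t.j2 g z a]
  · rw [t.ev1 b, t.ev1 (b.trans_eq (t.j0 g z).symm), t.j1]

/-- the evaluation -/
def E : T.W →ₐ[ℂ] C(Z.Q, ℂ) := mkH (A := T.W) Z t.ev t.ev_ct t.ev_inv

theorem E_pr (u : T.W) (z : Z.Z) : t.E u (Z.pr z) = t.ev z u := rfl
end Tst

/-- comparison of evaluations -/
theorem cmp {A X Y Y' : Type} [CommRing A] [Algebra ℂ A] [TopologicalSpace X] [TopologicalSpace Y]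
    [TopologicalSpace Y'] (E : A →ₐ[ℂ] C(Y, ℂ)) (E' : A →ₐ[ℂ] C(Y', ℂ)) (F : C(X, Y))
    (F' : C(X, Y')) (h : ∀ u x, E u (F x) = E' u (F' x)) (w : KC A) :
    pull F (KA E w) = pull F' (KA E' w) := by
  rw [pull, pull, KA_comp, KA_comp]
  congr 2
  exact AlgHom.ext fun u => ContinuousMap.ext (h u)

/-! ## coordinates on the sphere -/

/-- the truncated radius -/
def rd : C(OnePoint ℂ, ℝ) :=
  OnePoint.continuousMapMk ⟨fun ζ => min ‖ζ‖ 2, by fun_prop⟩ 2 (by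
    rw [Filter.coclosedCompact_eq_cocompact]
    refine tendsto_const_nhds.congr' ?_
    filter_upwards [(tendsto_norm_cocompact_atTop (E := ℂ)).eventually_ge_atTop 2] with ζ h
    exact (min_eq_right h).symm)
theorem rd_coe (ζ : ℂ) : rd ζ = min ‖ζ‖ 2 := rfl
theorem rd_inf : rd ∞ = 2 := rfl
theorem rd_lt {c : OnePoint ℂ} (h : rd c < 2) : ∃ ζ : ℂ, c = ζ ∧ rd c = ‖ζ‖ := by
  induction c using OnePoint.rec with
  | infty => exact absurd h (lt_irrefl _)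
  | coe ζ => exact ⟨ζ, rfl, min_eq_left ((min_lt_iff.1 h).resolve_right (lt_irrefl _)).le⟩

/-- inner disc coordinate -/
def d3 (ζ : ℂ) : Cp.UD := ⟨ζ / (max 1 ‖ζ‖ : ℝ), mem_closedBall_zero_iff.2 (by
  have : (0 : ℝ) < max 1 ‖ζ‖ := by positivity
  rw [norm_div, Complex.norm_real, Real.norm_of_nonneg this.le, div_le_one this]
  exact le_max_right _ _)⟩
theorem d3_ct : Continuous d3 := Continuous.subtype_mk (continuous_id.div (by fun_prop) fun ζ =>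
  Complex.ofReal_ne_zero.2 (by positivity)) _

theorem d1_le (ζ : ℂ) : ‖ζ / (max 1 ‖ζ‖ : ℝ) / (max 1 (‖ζ‖ / 2) : ℝ)‖ ≤ 1 / max 1 (‖ζ‖ / 2) := by
  have : (0 : ℝ) < max 1 (‖ζ‖ / 2) := by positivity
  rw [norm_div, Complex.norm_real, Real.norm_of_nonneg this.le]
  exact div_le_div_of_nonneg_right (d3 ζ).le this.le
/-- outer disc coordinate -/
def d1 : C(OnePoint ℂ, Cp.UD) :=
  OnePoint.continuousMapMk ⟨fun ζ => ⟨ζ / (max 1 ‖ζ‖ : ℝ) / (max 1 (‖ζ‖ / 2) : ℝ),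
    mem_closedBall_zero_iff.2 ((d1_le ζ).trans (by
      rw [div_le_one (by positivity)]; exact le_max_left _ _))⟩,
    Continuous.subtype_mk ((continuous_subtype_val.comp d3_ct).div (by fun_prop) fun ζ =>
      Complex.ofReal_ne_zero.2 (by positivity)) _⟩ ⟨0, by simp⟩ (by
    rw [Filter.coclosedCompact_eq_cocompact, tendsto_subtype_rng]
    refine squeeze_zero_norm d1_le (tendsto_const_nhds.div_atTop ?_)
    exact tendsto_atTop_mono (fun ζ => le_max_right _ _)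
      ((tendsto_norm_cocompact_atTop (E := ℂ)).atTop_div_const two_pos))

/-- the boundary circle -/
def io : C(Circle, Cp.UD) := ⟨fun θ => ⟨θ, by simp [Circle.norm_coe]⟩, by fun_prop⟩
theorem io_inj : Function.Injective io := fun _ _ h => Circle.ext (congrArg (fun w : Cp.UD => (w : ℂ)) h)
theorem an_coe {ζ : ℂ} (h : ζ ≠ 0) : (an ζ : ℂ) = ζ / ‖ζ‖ :=
  congrArg (fun θ : Circle => (θ : ℂ)) (dif_neg h)
theorem ne_of_one {ζ : ℂ} (h : 1 ≤ ‖ζ‖) : ζ ≠ 0 := norm_pos_iff.1 (by linarith)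
theorem d3_an {ζ : ℂ} (h : 1 ≤ ‖ζ‖) : d3 ζ = io (an ζ) :=
  Subtype.ext (by
    change ζ / (max 1 ‖ζ‖ : ℝ) = an ζ
    rw [an_coe (ne_of_one h), max_eq_right h])
theorem d1_an {ζ : ℂ} (h : 1 ≤ ‖ζ‖) (h' : ‖ζ‖ ≤ 2) : d1 ζ = io (an ζ) :=
  Subtype.ext (by
    change ζ / (max 1 ‖ζ‖ : ℝ) / (max 1 (‖ζ‖ / 2) : ℝ) = an ζ
    rw [an_coe (ne_of_one h), max_eq_right h, max_eq_left (by linarith)]; simp)
theorem an_on : ContinuousOn an {ζ | ζ ≠ 0} :=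
  IsInducing.subtypeVal.continuousOn_iff.2 ((continuousOn_id.div (by fun_prop) fun ζ h =>
    Complex.ofReal_ne_zero.2 (norm_ne_zero_iff.2 h)).congr fun ζ h => an_coe h)
theorem an_mul (θ : Circle) {ζ : ℂ} (h : ζ ≠ 0) : an (θ * ζ) = θ * an ζ := Circle.ext (by
  rw [Circle.coe_mul, an_coe h, an_coe (mul_ne_zero θ.coe_ne_zero h)]; simp [mul_div_assoc, Circle.norm_coe])
theorem vl_on {E : Type} [TopologicalSpace E] [Zero E] :
    ContinuousOn (vl : OnePoint E → E) {p | p ≠ ∞} := fun p h => by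
  obtain ⟨w, rfl⟩ := ne_infty_iff_exists.1 h
  exact ((isOpenEmbedding_coe.continuousAt_iff (g := vl) (x := w)).1 continuousAt_id).continuousWithinAt

section act
variable [CompactSpace Γ] (χ : Γ →* Circle) (hχ : Continuous χ) (g : Γ)
theorem rd_act (c : OnePoint ℂ) : rd ((ch χ hχ).sph.act g c) = rd c := by
  induction c using OnePoint.rec with
  | infty => rfl
  | coe ζ => change min ‖(χ g : ℂ) * ζ‖ 2 = min ‖ζ‖ 2; simp [Circle.norm_coe]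
theorem d1_act (c : OnePoint ℂ) : d1 ((ch χ hχ).sph.act g c) = (Cp.Dk χ hχ).act g (d1 c) := by
  induction c using OnePoint.rec with
  | infty => exact Subtype.ext (mul_zero _).symm
  | coe ζ =>
    refine Subtype.ext ?_
    change (χ g : ℂ) * ζ / (max 1 ‖(χ g : ℂ) * ζ‖ : ℝ) / (max 1 (‖(χ g : ℂ) * ζ‖ / 2) : ℝ) =
      (χ g : ℂ) * (ζ / (max 1 ‖ζ‖ : ℝ) / (max 1 (‖ζ‖ / 2) : ℝ))
    simp [mul_div_assoc, Circle.norm_coe]
theorem d3_act (c : OnePoint ℂ) :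
    d3 (vl ((ch χ hχ).sph.act g c)) = (Cp.Dk χ hχ).act g (d3 (vl c)) := by
  refine Subtype.ext ?_
  induction c using OnePoint.rec with
  | infty => change (0 : ℂ) / _ = _ * (0 / _); simp
  | coe ζ =>
    change (χ g : ℂ) * ζ / (max 1 ‖(χ g : ℂ) * ζ‖ : ℝ) = (χ g : ℂ) * (ζ / (max 1 ‖ζ‖ : ℝ))
    simp [mul_div_assoc, Circle.norm_coe]
end act

end Crest.Agent.N218.D6.Tr

end
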