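import Crest.Agent.N218.D6.Three

/-!
# Row 218, block D6 (helper8): collapse, Euler classes, stabilisation of degrees
-/

set_option autoImplicit false
set_option linter.unusedVariables false
set_option linter.unusedSectionVars false

open Crest.Agent.R204.K357 Crest.Agent.R204.Ex837 unitInterval Topology Filter Set OnePoint

noncomputable section

namespace Crest.Agent.N218.D6.Tr

open K

variable {Γ Γ' : Type} [Group Γ] [TopologicalSpace Γ] [Group Γ'] [TopologicalSpace Γ']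
  [CompactSpace Γ] [CompactSpace Γ']

/-- fibrewise maps from their finite part -/
def em {Y : GS Γ} {V : LS Γ} {Y' : GS Γ'} {V' : LS Γ'} (φ : Γ → Γ') (g : C(Y.Z, Y'.Z))
    (f : Y.Z × V.Z → OnePoint V'.Z) (ct : Continuous f) (pr : Prp f)
    (hg : ∀ γ y, g (Y.act γ y) = Y'.act (φ γ) (g y))
    (hf : ∀ γ y w, f (Y.act γ y, V.act γ w) = V'.sph.act (φ γ) (f (y, w))) : EqM Y V Y' V' φ g where
  f := ⟨opx f, continuous_opx ct pr⟩
  hg := hg
  hf γ y w := by
    induction w using OnePoint.rec with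
    | infty => rfl
    | coe w => exact hf γ y w
  hi _ := rfl

/-- base change -/
def bc (Y K : GS Γ) (V : LS Γ) : EqM (Y.prod K) V Y V id .fst := ⟨.snd, fun _ _ => rfl, fun _ _ _ => rfl,
  fun _ => rfl⟩

/-- a pointed family over `Y × K` -/
def e1 {Y K : GS Γ} {V V' : LS Γ} {g : (Y.prod K).Z × V.Z → OnePoint V'.Z} (h : Pm (Y.prod K) V V' g) :
    EqM (Y.prod K) V Y V' id .fst := em id .fst g h.ct h.pr (fun _ _ => rfl) h.eq

theorem prp_of {P A B : Type} [TopologicalSpace A] [TopologicalSpace B] {f : P × A → B}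
    (h : ∀ K', IsCompact K' → ∃ K, IsCompact K ∧ ∀ p w, f (p, w) ∈ K' → w ∈ K) :
    Prp fun x => (f x : OnePoint B) := fun K' k =>
  let ⟨K, a, b⟩ := h K' k
  ⟨K, a, fun p w w' n e m => n (b p w (by rw [coe_injective e]; exact m))⟩

theorem pm_wdg {Y : GS Γ} {A B : LS Γ} {g : Y.Z × A.Z → OnePoint B.Z} (h : Pm Y A B g) (C : LS Γ) :
    Pm Y (A.prod C) (B.prod C) fun x => wdg (g (x.1, x.2.1), (x.2.2 : OnePoint C.Z)) :=
  ⟨continuous_wdg.comp ((h.ct.comp (continuous_fst.prodMk continuous_snd.fst)).prodMk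
    (continuous_coe.comp continuous_snd.snd)), fun K' k => by
      obtain ⟨K, a, b⟩ := h.pr _ (k.image continuous_fst)
      refine ⟨K ×ˢ (Prod.snd '' K'), a.prod (k.image continuous_snd), fun p w w' n e m => n ?_⟩
      obtain ⟨e1, e2⟩ := wdg_eq_coe e
      exact ⟨by_contra fun c => b p w.1 _ c e1 ⟨_, m, rfl⟩, ⟨_, m, (coe_injective e2).symm⟩⟩,
    fun γ y w => (congrArg (fun t => wdg (t, (C.act γ w.2 : OnePoint C.Z))) (h.eq γ y w.1)).trans
      (wdg_act2 B C γ _ (w.2 : OnePoint C.Z)).symm⟩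

theorem opx_wdg {P A B C : Type} (g : P × A → OnePoint B) (p : P) (a : OnePoint A) (c : OnePoint C) :
    opx (fun x : P × A × C => wdg (g (x.1, x.2.1), (x.2.2 : OnePoint C))) (p, wdg (a, c)) =
      wdg (opx g (p, a), c) := by
  induction a using OnePoint.rec with
  | infty => rfl
  | coe a => induction c using OnePoint.rec with
    | infty => exact (wdg_r _).symm
    | coe c => rfl

section col
variable (Y K : GS Γ) (M : LS Γ)

/-- the collapse of the section at infinity -/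
def cK : EqM (Y.prod K) M Y (K.ls.prod M) id .fst :=
  em (Y := Y.prod K) (V := M) (Y' := Y) (V' := K.ls.prod M) id .fst
    (fun x : (Y.Z × K.Z) × M.Z => OnePoint.some (X := K.Z × M.Z) (x.1.2, x.2))
    (continuous_coe.comp (continuous_fst.snd.prodMk continuous_snd))
    (prp_of (f := fun x : (Y.Z × K.Z) × M.Z => (x.1.2, x.2)) fun K' k =>
      ⟨_, k.image continuous_snd, fun p w m => ⟨_, m, rfl⟩⟩) (fun _ _ => rfl) fun _ _ _ => rfl

theorem cK_pt (y : Y.Z) (k : K.Z) (w : OnePoint M.Z) : (cK Y K M).hm.f (pt (Y.prod K) M (y, k) w) =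
    pt Y (K.ls.prod M) y (wdg ((k : OnePoint K.Z), w)) := by
  induction w using OnePoint.rec <;> rfl

variable {Y K M}
theorem col_inj {x : KS Y (K.ls.prod M)} (r : (Sb _ _).Rd x) (h : pull (cK Y K M).hm.f x = 0) :
    x = 0 := by
  have E : Exc (cr (Sb Y (K.ls.prod M)).s) (cr (Sb (Y.prod K) M).s) (cr (cK Y K M).hm.f) := by
    refine exc_of _ _ _ (sb_ind (fun y => .inr ⟨Y.pr y, rfl⟩) fun y w =>
      .inl ⟨pt (Y.prod K) M (y, w.1) (w.2 : M.Z), rfl⟩) (sb_ind (fun y => ?_) fun y w => ?_) ?_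
    · exact ⟨fun _ => ⟨(Y.prod K).pr y, rfl⟩, fun _ => ⟨Y.pr y.1, rfl⟩⟩
    · refine ⟨fun ⟨b, e⟩ => ?_, fun ⟨b, e⟩ => ?_⟩
      · obtain ⟨y', rfl⟩ := Y.pr_surj b
        obtain ⟨g, -, e⟩ := pt_iff.1 (show pt Y (K.ls.prod M) y' ∞ = pt Y _ y.1 _ from e)
        exact absurd e (infty_ne_coe _)
      · obtain ⟨y', rfl⟩ := (Y.prod K).pr_surj b
        obtain ⟨g, -, e⟩ := pt_iff.1 (show pt (Y.prod K) M y' ∞ = pt _ _ y _ from e)
        exact absurd e (infty_ne_coe _)
    · refine sb_ind (fun y _ _ => .inr ⟨(Y.prod K).pr y, rfl⟩) fun y w =>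
        sb_ind (fun y' e => ?_) fun y' w' e => .inl ?_
      · obtain ⟨g, -, e⟩ := pt_iff.1 (show pt Y (K.ls.prod M) y.1 _ = pt Y _ y'.1 ∞ from e)
        exact absurd e (coe_ne_infty _)
      · obtain ⟨g, a, e⟩ := pt_iff.1 (show pt Y (K.ls.prod M) y.1 (OnePoint.some (y.2, w)) =
          pt Y _ y'.1 (OnePoint.some (y'.2, w')) from e)
        have e' := coe_injective e
        exact pt_iff.2 ⟨g, Prod.ext a (congrArg Prod.fst e'),
          congrArg OnePoint.some (congrArg Prod.snd e')⟩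
  have inj : Function.Injective (Sb Y (K.ls.prod M)).s := Function.LeftInverse.injective (Sb _ _).ps
  obtain ⟨z, a, b⟩ := Db.lift (cr_surj inj) r
  have : z = 0 := E.kinj (Db.inj (stLift_of_section _ (cr (Sb (Y.prod K) M).p) fun u =>
      ContinuousMap.ext fun x => congrArg u ((Sb _ _).ps x))
    (by rw [Db.f_mp, a]; exact h) (by rw [Db.s_mp, b, map_zero])) b
  rw [← a, this, map_zero]

theorem col_eq {x x' : KS Y (K.ls.prod M)} (r : (Sb _ _).Rd x) (r' : (Sb _ _).Rd x')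
    (h : pull (cK Y K M).hm.f x = pull (cK Y K M).hm.f x') : x = x' :=
  sub_eq_zero.1 (col_inj (by unfold Ex.Rd at *; rw [map_sub, r, r', sub_self])
    (by rw [map_sub, h, sub_self]))
end col

theorem sm_xm {Y : GS Γ} {A B : LS Γ} (a : KX Y.Q) (x : KS Y A) (y : KS Y B) :
    xm ((Sb _ _).sm a x) y = (Sb _ _).sm a (xm x y) := (smd Y A B).sm_mul a x y
theorem xm_sm {Y : GS Γ} {A B : LS Γ} (a : KX Y.Q) (x : KS Y A) (y : KS Y B) :
    xm x ((Sb _ _).sm a y) = (Sb _ _).sm a (xm x y) := (smd Y A B).mul_sm a x y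

/-- the inclusion of the first factor -/
def inl (Y : GS Γ) (A : LS Γ) (B : Rep Γ) : EqM Y A Y (A.prod B.ls) id (.id _) :=
  em id (.id _) (fun x : Y.Z × A.Z => OnePoint.some (X := A.Z × B.W) (x.2, 0))
    (continuous_coe.comp (continuous_snd.prodMk continuous_const))
    (prp_of (f := fun x : Y.Z × A.Z => ((x.2, 0) : A.Z × B.W)) fun K' k =>
      ⟨_, k.image continuous_fst, fun p w m => ⟨_, m, rfl⟩⟩) (fun _ _ => rfl) fun γ _ w =>
      congrArg (fun b => OnePoint.some (X := A.Z × B.W) (A.act γ w, b)) (map_zero (B.ρ γ)).symm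

theorem inl_f (Y : GS Γ) (A : LS Γ) (B : Rep Γ) (y : Y.Z) (a : OnePoint A.Z) :
    (inl Y A B).f (y, a) = wdg (a, ((0 : B.W) : OnePoint B.W)) := by
  induction a using OnePoint.rec <;> rfl

/-- **Euler class** -/
theorem eul {Y : GS Γ} {A : LS Γ} {B : Rep Γ} {x : KS Y A} {y : KS Y B.ls} (hx : (Sb _ _).Rd x)
    (hy : (Sb _ _).Rd y) : pull (inl Y A B).hm.f (xm x y) = (Sb _ _).sm (pull (z0 Y B) y) x := by
  let z : C((Sb Y A).E, (smd Y A B.ls).P.E) :=
    GS.qmap (Y.prod A.sph) ((Y.prod B.ls.sph).prod A.sph)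
      ⟨fun p => ((p.1, ((0 : B.W) : OnePoint B.W)), p.2), by fun_prop⟩ fun g p =>
        ⟨g, Prod.ext (Prod.ext rfl (congrArg OnePoint.some (map_zero (B.ρ g)))) rfl⟩
  rw [← pull_pull z (smd Y A B.ls).c _ (fun e => by
      obtain ⟨y, a, rfl⟩ := pt_surj e
      exact congrArg (pt Y (A.prod B.ls) y) (inl_f Y A B y a).symm), xm, (smd Y A B.ls).c_mul hx hy,
    map_mul, pull_pull_id z (smd Y A B.ls).q (fun e => by obtain ⟨y, a, rfl⟩ := pt_surj e; rfl),
    pull_sq z (smd Y A B.ls).P.p (Sb Y A).p (z0 Y B)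
      (fun e => by obtain ⟨y, a, rfl⟩ := pt_surj e; rfl), Ex.sm, mul_comm]

theorem bc_xm {Y K : GS Γ} {A C : LS Γ} {x : KS Y A} {z : KS Y C} (hx : (Sb _ _).Rd x)
    (hz : (Sb _ _).Rd z) : pull (bc Y K (A.prod C)).hm.f (xm x z) =
      xm (pull (bc Y K A).hm.f x) (pull (bc Y K C).hm.f z) :=
  (bc Y K A).xm_nat (bc Y K C) _ (fun _ _ _ => rfl) hx hz

/-- **stabilisation of degrees** -/
theorem kap {Y K : GS Γ} {A B C : LS Γ} {g : (Y.prod K).Z × A.Z → OnePoint B.Z}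
    (h : Pm (Y.prod K) A B g) {x : KS Y A} {y : KS Y B} {z : KS Y C} (hx : (Sb _ _).Rd x)
    (hy : (Sb _ _).Rd y) (hz : (Sb _ _).Rd z) {κ : KX (Y.prod K).Q}
    (e : pull (e1 h).hm.f y = (Sb _ _).sm κ (pull (bc Y K A).hm.f x)) :
    pull (e1 (pm_wdg h C)).hm.f (xm y z) = (Sb _ _).sm κ (pull (bc Y K (A.prod C)).hm.f (xm x z)) := by
  rw [(e1 h).xm_nat (bc Y K C) _
    (fun p a c => congrArg (pt Y (B.prod C) p.1) (opx_wdg g p a c)) hy hz, e, sm_xm, bc_xm hx hz]

section ex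
variable {X : Type} [TopologicalSpace X] {A : Ex X}
theorem dec {l : KX A.E} (h : A.Th l) (x : KX A.E) : ∃ a, x = pull A.p (pull A.s x) + A.sm a l := by
  obtain ⟨a, e⟩ := h.ex (x := x - pull A.p (pull A.s x))
    (by unfold Ex.Rd; rw [map_sub, Ex.pull_sp, sub_self])
  exact ⟨a, by rw [← e, add_sub_cancel]⟩

theorem coef {l : KX A.E} (h : A.Th l) {a a' b b' : KX X}
    (e : pull A.p b + A.sm a l = pull A.p b' + A.sm a' l) : a = a' := by
  have := congrArg (pull A.s) e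
  rw [map_add, map_add, Ex.pull_sp, Ex.pull_sp, show pull A.s (A.sm a l) = 0 from h.1.sm a,
    show pull A.s (A.sm a' l) = 0 from h.1.sm a', add_left_inj] at this
  rw [this, add_right_inj] at e
  exact h.inj e
end ex

end Crest.Agent.N218.D6.Tr

end
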